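import Mathlib

/-!
# Common tools: Pluennecke bounds over the reals, Cauchy-Schwarz for fibres, and the passage from
equal norms to orthogonal pairs.
-/

open scoped Pointwise
open Finset

namespace Vale.Agent.Lib.P054

section Sumsets

variable {G : Type*} [AddCommGroup G] [DecidableEq G]

/-- Pluennecke-Ruzsa with real constants. -/
theorem plunnecke_real (A : Finset G) (hA : A.Nonempty) (m l : ℕ) :
    ((m • A - l • A).card : ℝ) ≤ (((A + A).card : ℝ) / (A.card : ℝ)) ^ (m + l) * (A.card : ℝ) := by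
  have h := Finset.pluennecke_ruzsa_inequality_nsmul_sub_nsmul_add hA A m l
  have h2 : (((m • A - l • A).card : ℚ≥0) : ℝ) ≤
      ((((A + A).card : ℚ≥0) / (A.card : ℚ≥0)) ^ (m + l) * (A.card : ℚ≥0) : ℚ≥0) := by
    exact_mod_cast h
  push_cast at h2
  exact h2

lemma card_add_add (A : Finset G) : (((A + A) + (A + A)) : Finset G) = 4 • A - 0 • A := by
  simp only [zero_nsmul, sub_zero]
  rw [show (4 : ℕ) = 2 + 2 from rfl, add_nsmul, two_nsmul]

lemma card_add_sub (A : Finset G) : (((A + A) - (A + A)) : Finset G) = 2 • A - 2 • A := by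
  rw [two_nsmul]

lemma card_sub_add (A : Finset G) : (((A - A) + (A - A)) : Finset G) = 2 • A - 2 • A := by
  rw [two_nsmul, add_sub_add_comm]

lemma card_add_add_sub (A : Finset G) : (((A + A) + (A - A)) : Finset G) = 3 • A - 1 • A := by
  rw [show (3 : ℕ) = 2 + 1 from rfl, add_nsmul, two_nsmul, one_nsmul, add_sub_assoc]

end Sumsets

section CS

/-- Cauchy-Schwarz: squared size is at most image size times the number of pairs with equal
values. -/
theorem card_sq_le_image_mul_pairs {α β : Type*} [DecidableEq α] [DecidableEq β] (A : Finset α)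
    (f : α → β) :
    A.card ^ 2 ≤ (A.image f).card * ((A ×ˢ A).filter (fun p => f p.1 = f p.2)).card := by
  have h1 : A.card = ∑ r ∈ A.image f, (A.filter (fun a => f a = r)).card :=
    card_eq_sum_card_image f A
  have h2 : ((A ×ˢ A).filter (fun p => f p.1 = f p.2)).card =
      ∑ r ∈ A.image f, (A.filter (fun a => f a = r)).card ^ 2 := by
    have hmaps : ∀ p ∈ (A ×ˢ A).filter (fun p => f p.1 = f p.2), f p.1 ∈ A.image f := by
      intro p hp
      exact mem_image_of_mem f (mem_product.1 (mem_filter.1 hp).1).1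
    rw [card_eq_sum_card_fiberwise hmaps]
    apply sum_congr rfl
    intro r _
    rw [sq, ← card_product]
    congr 1
    ext p
    simp only [mem_filter, mem_product]
    constructor
    · rintro ⟨⟨⟨h1, h2⟩, h3⟩, h4⟩
      exact ⟨⟨h1, h4⟩, ⟨h2, by rw [← h3]; exact h4⟩⟩
    · rintro ⟨⟨h1, h4⟩, ⟨h2, h3⟩⟩
      exact ⟨⟨⟨h1, h2⟩, by rw [h4, h3]⟩, h4⟩
  rw [h2]
  calc A.card ^ 2 = (∑ r ∈ A.image f, (A.filter (fun a => f a = r)).card) ^ 2 := by rw [← h1]
    _ ≤ _ := sq_sum_le_card_mul_sum_sq

end CS

section Orth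

variable {E : Type*} [NormedAddCommGroup E] [InnerProductSpace ℝ E] [DecidableEq E]

open scoped Classical in
/-- Pairs of nonzero orthogonal vectors from `W × U`. -/
noncomputable def orthPairs (W U : Finset E) : Finset (E × E) :=
  (W ×ˢ U).filter (fun p => p.1 ≠ 0 ∧ p.2 ≠ 0 ∧ inner ℝ p.1 p.2 = 0)

lemma mem_orthPairs {W U : Finset E} {p : E × E} :
    p ∈ orthPairs W U ↔ p.1 ∈ W ∧ p.2 ∈ U ∧ p.1 ≠ 0 ∧ p.2 ≠ 0 ∧ inner ℝ p.1 p.2 = 0 := by
  classical
  simp [orthPairs, and_assoc]

/-- Equal norms produce either trivial pairs or orthogonal pairs in `(A+A) × (A-A)`. -/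
theorem energy_le (A : Finset E) :
    ((A ×ˢ A).filter (fun p => ‖p.1‖ = ‖p.2‖)).card ≤
      2 * A.card + (orthPairs (A + A) (A - A)).card := by
  classical
  set P := (A ×ˢ A).filter (fun p => ‖p.1‖ = ‖p.2‖) with hP
  have hsub : P ⊆ (P.filter (fun p => p.1 = p.2)) ∪ ((P.filter (fun p => p.1 = -p.2)) ∪
      (P.filter (fun p => p.1 ≠ p.2 ∧ p.1 ≠ -p.2))) := by
    intro p hp
    simp only [mem_union, mem_filter]
    by_cases h1 : p.1 = p.2
    · exact Or.inl ⟨hp, h1⟩
    · by_cases h2 : p.1 = -p.2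
      · exact Or.inr (Or.inl ⟨hp, h2⟩)
      · exact Or.inr (Or.inr ⟨hp, h1, h2⟩)
  have hc1 : (P.filter (fun p => p.1 = p.2)).card ≤ A.card := by
    apply card_le_card_of_injOn (fun p => p.1)
    · intro p hp
      have hp' := (mem_filter.1 hp).1
      exact (mem_product.1 (mem_filter.1 hp').1).1
    · intro p hp q hq hpq
      have hp' := (mem_filter.1 hp).2
      have hq' := (mem_filter.1 hq).2
      apply Prod.ext hpq
      simp only at hpq
      rw [← hp', ← hq', hpq]
  have hc2 : (P.filter (fun p => p.1 = -p.2)).card ≤ A.card := by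
    apply card_le_card_of_injOn (fun p => p.1)
    · intro p hp
      have hp' := (mem_filter.1 hp).1
      exact (mem_product.1 (mem_filter.1 hp').1).1
    · intro p hp q hq hpq
      have hp' := (mem_filter.1 hp).2
      have hq' := (mem_filter.1 hq).2
      apply Prod.ext hpq
      simp only at hpq
      have : -p.2 = -q.2 := by rw [← hp', ← hq', hpq]
      exact neg_injective this
  have hc3 : (P.filter (fun p => p.1 ≠ p.2 ∧ p.1 ≠ -p.2)).card ≤
      (orthPairs (A + A) (A - A)).card := by
    apply card_le_card_of_injOn (fun p => (p.1 + p.2, p.1 - p.2))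
    · intro p hp
      have hp' := mem_filter.1 hp
      have hp'' := mem_filter.1 hp'.1
      have hpA := mem_product.1 hp''.1
      rw [mem_coe, mem_orthPairs]
      refine ⟨add_mem_add hpA.1 hpA.2, sub_mem_sub hpA.1 hpA.2, ?_, ?_, ?_⟩
      · intro h
        exact hp'.2.2 (eq_neg_of_add_eq_zero_left h)
      · intro h
        exact hp'.2.1 (sub_eq_zero.1 h)
      · simp only
        rw [inner_add_left, inner_sub_right, inner_sub_right, real_inner_self_eq_norm_sq,
          real_inner_self_eq_norm_sq, real_inner_comm p.1 p.2, hp''.2]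
        ring
    · intro p _ q _ hpq
      simp only [Prod.mk.injEq] at hpq
      obtain ⟨h1, h2⟩ := hpq
      have h3 : (2 : ℝ) • p.1 = (2 : ℝ) • q.1 := by
        have : p.1 + p.2 + (p.1 - p.2) = q.1 + q.2 + (q.1 - q.2) := by rw [h1, h2]
        simpa [two_smul, add_add_sub_cancel] using this
      have h4 : p.1 = q.1 := by
        have := congrArg (fun x => (2 : ℝ)⁻¹ • x) h3
        simpa [smul_smul] using this
      apply Prod.ext h4
      rw [h4] at h1
      exact add_left_cancel h1
  calc P.card ≤ _ := card_le_card hsub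
    _ ≤ _ := card_union_le _ _
    _ ≤ (P.filter (fun p => p.1 = p.2)).card + ((P.filter (fun p => p.1 = -p.2)).card +
        (P.filter (fun p => p.1 ≠ p.2 ∧ p.1 ≠ -p.2)).card) := by
        gcongr; exact card_union_le _ _
    _ ≤ _ := by omega

end Orth

end Vale.Agent.Lib.P054
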