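import Vale.Agent.Lib.P054.Basic
import Vale.Agent.Lib.P054.SolymosiW

/-!
# Covering by cosets, direct sums, and a sum form of the rich line count
-/

open scoped Pointwise
open Finset

namespace Vale.Agent.Lib.P054

section Vector

variable {V : Type*} [AddCommGroup V] [Module ℝ V] [DecidableEq V]

/-- The lines through nonzero points of `S`. -/
noncomputable def spanLines (S : Finset V) : Finset (Submodule ℝ V) := by
  classical
  exact (S.erase 0).image (fun w => Submodule.span ℝ {w})

lemma mem_spanLines {S : Finset V} {l : Submodule ℝ V} :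
    l ∈ spanLines S ↔ ∃ w ∈ S, w ≠ 0 ∧ Submodule.span ℝ {w} = l := by
  classical
  simp only [spanLines, mem_image, mem_erase]
  constructor
  · rintro ⟨w, ⟨h1, h2⟩, h3⟩
    exact ⟨w, h2, h1, h3⟩
  · rintro ⟨w, h2, h1, h3⟩
    exact ⟨w, ⟨h1, h2⟩, h3⟩

lemma spanLines_line {S : Finset V} :
    ∀ l ∈ spanLines S, ∃ v : V, v ≠ 0 ∧ l = Submodule.span ℝ {v} := by
  intro l hl
  obtain ⟨w, _, h1, h2⟩ := mem_spanLines.1 hl
  exact ⟨w, h1, h2.symm⟩

lemma spanLines_card_le (S : Finset V) : (spanLines S).card ≤ S.card := by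
  classical
  calc (spanLines S).card ≤ (S.erase 0).card := card_image_le
    _ ≤ S.card := card_le_card (erase_subset _ _)

/-- The sum form of the rich line count. -/
theorem rich_lines_sum (S : Finset V) (hS : ∀ a ∈ S, -a ∈ S) (I : Finset (Submodule ℝ V))
    (hI : ∀ l ∈ I, ∃ v : V, v ≠ 0 ∧ l = Submodule.span ℝ {v}) (x : ℝ) (hx : 0 < x)
    (hrich : ∀ l ∈ I, x ≤ ((lineSet S l).card : ℝ)) (hI2 : 2 ≤ I.card) :
    x / 8 * ∑ l ∈ I, ((lineSet S l).card : ℝ) ≤ ((S + S).card : ℝ) := by
  rw [mul_sum]
  apply solymosi_weighted S hS I (lineSet S) (fun l => x / 8 * ((lineSet S l).card : ℝ))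
  · intro l _; positivity
  · intro l hl l' hl' _
    have h1 := hrich l hl
    have h2 := hrich l' hl'
    have h3 : x * ((lineSet S l').card : ℝ) ≤ ((lineSet S l).card : ℝ) * ((lineSet S l').card : ℝ) :=
      mul_le_mul_of_nonneg_right h1 (by positivity)
    have h4 : x * ((lineSet S l).card : ℝ) ≤ ((lineSet S l).card : ℝ) * ((lineSet S l').card : ℝ) := by
      rw [mul_comm ((lineSet S l).card : ℝ)]
      exact mul_le_mul_of_nonneg_right h2 (by positivity)
    nlinarith
  · exact hI2
  · intro l hl
    rw [← card_pos]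
    have h1 := hrich l hl
    have : (0 : ℝ) < ((lineSet S l).card : ℝ) := lt_of_lt_of_le hx h1
    exact_mod_cast this
  · intro l _ a ha; exact (mem_lineSet.1 ha).1
  · intro l _ a ha; exact (mem_lineSet.1 ha).2.1
  · intro l hl a ha a' ha'
    obtain ⟨v, hv, rfl⟩ := hI l hl
    have h1 := (mem_lineSet.1 ha).2
    have h2 := (mem_lineSet.1 ha').2
    obtain ⟨s, rfl⟩ := Submodule.mem_span_singleton.1 h1.2
    obtain ⟨t, rfl⟩ := Submodule.mem_span_singleton.1 h2.2
    have hs : s ≠ 0 := by rintro rfl; exact h1.1 (by simp)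
    exact ⟨t / s, by rw [smul_smul]; field_simp⟩
  · intro l hl l' hl' hne a ha b hb s t hst
    obtain ⟨v, hv, rfl⟩ := hI l hl
    obtain ⟨v', hv', rfl⟩ := hI l' hl'
    have h1 := (mem_lineSet.1 ha).2
    have h2 := (mem_lineSet.1 hb).2
    obtain ⟨s1, rfl⟩ := Submodule.mem_span_singleton.1 h1.2
    obtain ⟨t1, rfl⟩ := Submodule.mem_span_singleton.1 h2.2
    have hs1 : s1 ≠ 0 := by rintro rfl; exact h1.1 (by simp)
    have ht1 : t1 ≠ 0 := by rintro rfl; exact h2.1 (by simp)
    by_cases hs : s = 0
    · subst hs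
      simp only [zero_smul, zero_add] at hst
      refine ⟨rfl, ?_⟩
      by_contra ht
      exact h2.1 ((smul_eq_zero.1 hst).resolve_left ht)
    · exfalso
      by_cases ht : t = 0
      · subst ht
        simp only [zero_smul, add_zero] at hst
        exact h1.1 ((smul_eq_zero.1 hst).resolve_left hs)
      · apply hne
        have hvv : v = (-(t * t1) / (s * s1)) • v' := by
          have h3 : (s * s1) • v + (t * t1) • v' = 0 := by
            simpa [smul_smul] using hst
          have hne' : s * s1 ≠ 0 := mul_ne_zero hs hs1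
          have h4 : (s * s1) • v = (-(t * t1)) • v' := by
            rw [neg_smul]; exact eq_neg_of_add_eq_zero_left h3
          calc v = (s * s1)⁻¹ • ((s * s1) • v) := by rw [smul_smul, inv_mul_cancel₀ hne', one_smul]
            _ = _ := by rw [h4, smul_smul]; congr 1; field_simp
        have hc : -(t * t1) / (s * s1) ≠ 0 := by
          apply div_ne_zero (neg_ne_zero.2 (mul_ne_zero ht ht1)) (mul_ne_zero hs hs1)
        rw [hvv]
        exact Submodule.span_singleton_smul_eq (IsUnit.mk0 _ hc) _

open scoped Classical in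
/-- The points of `S` inside the subspace `H`. -/
noncomputable def partIn (S : Finset V) (H : Submodule ℝ V) : Finset V :=
  S.filter (fun a => a ∈ H)

omit [DecidableEq V] in
lemma mem_partIn {S : Finset V} {H : Submodule ℝ V} {a : V} :
    a ∈ partIn S H ↔ a ∈ S ∧ a ∈ H := by
  classical
  simp [partIn]

/-- The covering inequality: `|Y ∩ H| |A| ≤ |Y + A| |(A - A) ∩ H|`. -/
theorem covering (Y A : Finset V) (H : Submodule ℝ V) :
    (partIn Y H).card * A.card ≤ (Y + A).card * (partIn (A - A) H).card := by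
  classical
  let q : V → V ⧸ H := fun v => Submodule.Quotient.mk v
  have hq : ∀ x y : V, q x = q y ↔ x - y ∈ H := by
    intro x y
    exact Submodule.Quotient.eq H
  let L := A.image q
  have hrep : ∀ l ∈ L, ∃ a ∈ A, q a = l := by
    intro l hl
    obtain ⟨a, ha, rfl⟩ := mem_image.1 hl
    exact ⟨a, ha, rfl⟩
  choose! rep hrepA hrepq using hrep
  -- First step: `|Y ∩ H| |L| ≤ |Y + A|`.
  have h1 : (partIn Y H).card * L.card ≤ (Y + A).card := by
    rw [← card_product]
    apply card_le_card_of_injOn (fun p => p.1 + rep p.2)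
    · intro p hp
      rw [mem_coe, mem_product] at hp
      exact add_mem_add (mem_partIn.1 hp.1).1 (hrepA p.2 hp.2)
    · intro p hp p' hp' heq
      rw [mem_coe, mem_product] at hp hp'
      simp only at heq
      have hp1 := (mem_partIn.1 hp.1).2
      have hp1' := (mem_partIn.1 hp'.1).2
      have e1 : q (rep p.2) = p.2 := hrepq p.2 hp.2
      have e2 : q (rep p'.2) = p'.2 := hrepq p'.2 hp'.2
      have e3 : p.2 = p'.2 := by
        rw [← e1, ← e2, hq]
        have : rep p.2 - rep p'.2 = (p'.1 - p.1) := by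
          have h3 : rep p.2 - rep p'.2 + (p.1 - p'.1) = 0 := by
            have : p.1 + rep p.2 - (p'.1 + rep p'.2) = 0 := sub_eq_zero.2 heq
            rw [← this]; abel
          have h4 : rep p.2 - rep p'.2 = -(p.1 - p'.1) := eq_neg_of_add_eq_zero_left h3
          rw [h4]; abel
        rw [this]
        exact H.sub_mem hp1' hp1
      apply Prod.ext
      · rw [e3] at heq
        exact add_right_cancel heq
      · exact e3
  -- Second step: `|A| ≤ |(A - A) ∩ H| |L|`.
  have h2 : A.card ≤ (partIn (A - A) H).card * L.card := by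
    apply card_le_mul_card_image
    intro l hl
    apply card_le_card_of_injOn (fun a => a - rep l)
    · intro a ha
      rw [mem_coe, mem_filter] at ha
      rw [mem_coe, mem_partIn]
      refine ⟨sub_mem_sub ha.1 (hrepA l hl), ?_⟩
      rw [← hq, ha.2, hrepq l hl]
    · intro a _ b _ hab
      exact sub_left_injective hab
  calc (partIn Y H).card * A.card ≤ (partIn Y H).card * ((partIn (A - A) H).card * L.card) :=
        Nat.mul_le_mul_left _ h2
    _ = (partIn Y H).card * L.card * (partIn (A - A) H).card := by ring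
    _ ≤ _ := Nat.mul_le_mul_right _ h1

/-- Direct sums: subsets of independent subspaces add injectively. -/
theorem direct_sum_card (X Y : Finset V) (P Q : Submodule ℝ V) (hPQ : P ⊓ Q = ⊥)
    (hX : ∀ x ∈ X, x ∈ P) (hY : ∀ y ∈ Y, y ∈ Q) :
    X.card * Y.card ≤ (X + Y).card := by
  rw [← card_product]
  apply card_le_card_of_injOn (fun p => p.1 + p.2)
  · intro p hp
    rw [mem_coe, mem_product] at hp
    exact add_mem_add hp.1 hp.2
  · intro p hp p' hp' heq
    rw [mem_coe, mem_product] at hp hp'
    simp only at heq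
    have h1 : p.1 - p'.1 ∈ P := P.sub_mem (hX _ hp.1) (hX _ hp'.1)
    have h2 : p.1 - p'.1 ∈ Q := by
      have : p.1 - p'.1 = p'.2 - p.2 := by
        have h3 : p.1 + p.2 - (p'.1 + p'.2) = 0 := sub_eq_zero.2 heq
        have h4 : p.1 - p'.1 + (p.2 - p'.2) = 0 := by
          rw [← h3]; abel
        have h5 := eq_neg_of_add_eq_zero_left h4
        rw [h5]; abel
      rw [this]
      exact Q.sub_mem (hY _ hp'.2) (hY _ hp.2)
    have h3 : p.1 - p'.1 ∈ P ⊓ Q := ⟨h1, h2⟩
    rw [hPQ, Submodule.mem_bot] at h3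
    have e1 : p.1 = p'.1 := sub_eq_zero.1 h3
    apply Prod.ext e1
    rw [e1] at heq
    exact add_left_cancel heq

end Vector

end Vale.Agent.Lib.P054
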