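import Vale.Agent.Lib.P054.Solymosi

/-!
# Rich lines through the origin, and summation from counting bounds
-/

open scoped Pointwise
open Finset

namespace Vale.Agent.Lib.P054

section Lines

variable {V : Type*} [AddCommGroup V] [Module ℝ V] [DecidableEq V]

open scoped Classical in
/-- The nonzero points of `S` on the subspace `l`. -/
noncomputable def lineSet (S : Finset V) (l : Submodule ℝ V) : Finset V :=
  S.filter (fun a => a ≠ 0 ∧ a ∈ l)

lemma mem_lineSet {S : Finset V} {l : Submodule ℝ V} {a : V} :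
    a ∈ lineSet S l ↔ a ∈ S ∧ a ≠ 0 ∧ a ∈ l := by
  classical
  simp [lineSet]

lemma lineSet_mono {S T : Finset V} (h : S ⊆ T) (l : Submodule ℝ V) :
    lineSet S l ⊆ lineSet T l := by
  intro a ha
  rw [mem_lineSet] at ha ⊢
  exact ⟨h ha.1, ha.2⟩

theorem rich_lines_count (S : Finset V) (hS : ∀ a ∈ S, -a ∈ S) (I : Finset (Submodule ℝ V))
    (hI : ∀ l ∈ I, ∃ v : V, v ≠ 0 ∧ l = Submodule.span ℝ {v}) (x : ℝ) (hx : 0 < x)
    (hrich : ∀ l ∈ I, x ≤ ((lineSet S l).card : ℝ)) :
    ((I.card : ℝ) - 1) * (x / 2) ^ 2 ≤ ((S + S).card : ℝ) := by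
  apply solymosi_family S hS I (lineSet S) x hx hrich
  · intro l _ a ha; exact (mem_lineSet.1 ha).1
  · intro l _ a ha; exact (mem_lineSet.1 ha).2.1
  · intro l hl a ha a' ha'
    obtain ⟨v, hv, rfl⟩ := hI l hl
    have h1 := (mem_lineSet.1 ha).2
    have h2 := (mem_lineSet.1 ha').2
    obtain ⟨s, rfl⟩ := Submodule.mem_span_singleton.1 h1.2
    obtain ⟨t, rfl⟩ := Submodule.mem_span_singleton.1 h2.2
    have hs : s ≠ 0 := by rintro rfl; exact h1.1 (by simp)
    exact ⟨t / s, by rw [smul_smul]; field_simp⟩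
  · intro l hl l' hl' hne a ha b hb s t hst
    obtain ⟨v, hv, rfl⟩ := hI l hl
    obtain ⟨v', hv', rfl⟩ := hI l' hl'
    have h1 := (mem_lineSet.1 ha).2
    have h2 := (mem_lineSet.1 hb).2
    obtain ⟨s1, rfl⟩ := Submodule.mem_span_singleton.1 h1.2
    obtain ⟨t1, rfl⟩ := Submodule.mem_span_singleton.1 h2.2
    have hs1 : s1 ≠ 0 := by rintro rfl; exact h1.1 (by simp)
    have ht1 : t1 ≠ 0 := by rintro rfl; exact h2.1 (by simp)
    by_cases hs : s = 0
    · subst hs
      simp only [zero_smul, zero_add] at hst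
      refine ⟨rfl, ?_⟩
      by_contra ht
      exact h2.1 ((smul_eq_zero.1 hst).resolve_left ht)
    · exfalso
      by_cases ht : t = 0
      · subst ht
        simp only [zero_smul, add_zero] at hst
        exact h1.1 ((smul_eq_zero.1 hst).resolve_left hs)
      · apply hne
        -- `v` and `v'` are proportional
        have hvv : v = (-(t * t1) / (s * s1)) • v' := by
          have h3 : (s * s1) • v + (t * t1) • v' = 0 := by
            simpa [smul_smul] using hst
          have hne' : s * s1 ≠ 0 := mul_ne_zero hs hs1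
          have h4 : (s * s1) • v = (-(t * t1)) • v' := by
            rw [neg_smul]; exact eq_neg_of_add_eq_zero_left h3
          calc v = (s * s1)⁻¹ • ((s * s1) • v) := by rw [smul_smul, inv_mul_cancel₀ hne', one_smul]
            _ = _ := by rw [h4, smul_smul]; congr 1; field_simp
        have hc : -(t * t1) / (s * s1) ≠ 0 := by
          apply div_ne_zero (neg_ne_zero.2 (mul_ne_zero ht ht1)) (mul_ne_zero hs hs1)
        rw [hvv]
        exact Submodule.span_singleton_smul_eq (IsUnit.mk0 _ hc) _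

theorem rich_filter_card_le (S : Finset V) (hS : ∀ a ∈ S, -a ∈ S) (I : Finset (Submodule ℝ V))
    (hI : ∀ l ∈ I, ∃ v : V, v ≠ 0 ∧ l = Submodule.span ℝ {v}) (x : ℝ) (hx : 0 < x) :
    ((I.filter (fun l => x ≤ ((lineSet S l).card : ℝ))).card : ℝ) ≤
      1 + 4 * ((S + S).card : ℝ) / x ^ 2 := by
  have h := rich_lines_count S hS (I.filter (fun l => x ≤ ((lineSet S l).card : ℝ)))
    (fun l hl => hI l (mem_filter.1 hl).1) x hx (fun l hl => (mem_filter.1 hl).2)
  have hx2 : 0 < x ^ 2 := by positivity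
  rw [show (x / 2) ^ 2 = x ^ 2 / 4 by ring] at h
  have : ((I.filter (fun l => x ≤ ((lineSet S l).card : ℝ))).card : ℝ) - 1 ≤
      4 * ((S + S).card : ℝ) / x ^ 2 := by
    rw [le_div_iff₀ hx2]
    nlinarith
  linarith

end Lines

section Sums

/-- From counting bounds to a sum: if for every `j ≥ 1` and every `z > h j` fewer than `j` indices
have `g i ≥ z`, then the sum of `g` is at most the sum of the first values of `h`. -/
theorem sum_le_sum_of_count {ι : Type*} [DecidableEq ι] (s : Finset ι) (g : ι → ℝ) (h : ℕ → ℝ)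
    (hyp : ∀ (j : ℕ) (z : ℝ), 1 ≤ j → h j < z → ((s.filter (fun i => z ≤ g i)).card < j)) :
    ∑ i ∈ s, g i ≤ ∑ j ∈ range s.card, h (j + 1) := by
  have key : ∀ (m : ℕ) (t : Finset ι), t ⊆ s → t.card = m →
      ∑ i ∈ t, g i ≤ ∑ j ∈ range m, h (j + 1) := by
    intro m
    induction m with
    | zero =>
      intro t _ ht
      rw [card_eq_zero] at ht
      simp [ht]
    | succ m ih =>
      intro t hts ht
      have hne : t.Nonempty := by
        rw [← card_pos]; omega
      obtain ⟨i0, hi0, hmin⟩ := t.exists_min_image g hne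
      have hle : g i0 ≤ h (m + 1) := by
        by_contra hcon
        push Not at hcon
        have h1 := hyp (m + 1) (g i0) (by omega) hcon
        have h2 : t ⊆ s.filter (fun i => g i0 ≤ g i) := by
          intro i hi
          exact mem_filter.2 ⟨hts hi, hmin i hi⟩
        have h3 := card_le_card h2
        omega
      have hcard : (t.erase i0).card = m := by
        rw [card_erase_of_mem hi0]; omega
      have hih := ih (t.erase i0) ((erase_subset _ _).trans hts) hcard
      rw [← add_sum_erase t g hi0, sum_range_succ]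
      linarith
  exact key s.card s (Subset.refl _) rfl

/-- The harmonic-type sum used below. -/
lemma sum_two_plus_harmonic (G D : ℝ) (hG : 0 ≤ G) (hD : 0 ≤ D) (J : ℕ) :
    ∑ j ∈ range J, (if j + 1 ≤ 2 then G else D / (((j + 1 : ℕ) : ℝ) - 2)) ≤
      2 * G + D * (1 + Real.log J) := by
  have hnonneg : ∀ j : ℕ, 0 ≤ (if j + 1 ≤ 2 then G else D / (((j + 1 : ℕ) : ℝ) - 2)) := by
    intro j
    split_ifs with hj
    · exact hG
    · apply div_nonneg hD
      push_cast
      have : (2 : ℝ) ≤ (j : ℝ) := by exact_mod_cast (by omega : 2 ≤ j)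
      linarith
  have step : ∀ J : ℕ, ∑ j ∈ range (J + 2), (if j + 1 ≤ 2 then G else D / (((j + 1 : ℕ) : ℝ) - 2)) =
      2 * G + D * ∑ k ∈ range J, ((k : ℝ) + 1)⁻¹ := by
    intro J
    induction J with
    | zero =>
      simp [sum_range_succ]; ring
    | succ J ih =>
      rw [show J + 1 + 2 = (J + 2) + 1 by ring, sum_range_succ, ih, sum_range_succ]
      have h3 : ¬ (J + 2 + 1 ≤ 2) := by omega
      simp only [h3, if_false]
      have h4 : (((J + 2 + 1 : ℕ) : ℝ) - 2) = (J : ℝ) + 1 := by push_cast; ring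
      rw [h4, div_eq_mul_inv]
      ring
  have hle : ∑ j ∈ range J, (if j + 1 ≤ 2 then G else D / (((j + 1 : ℕ) : ℝ) - 2)) ≤
      ∑ j ∈ range (J + 2), (if j + 1 ≤ 2 then G else D / (((j + 1 : ℕ) : ℝ) - 2)) := by
    apply sum_le_sum_of_subset_of_nonneg
    · intro x hx
      rw [mem_range] at hx ⊢
      omega
    · intro i _ _
      exact hnonneg i
  rw [step J] at hle
  have hharm : ∑ k ∈ range J, ((k : ℝ) + 1)⁻¹ ≤ 1 + Real.log J := by
    have := harmonic_le_one_add_log J
    have h2 : ((harmonic J : ℚ) : ℝ) = ∑ k ∈ range J, ((k : ℝ) + 1)⁻¹ := by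
      simp [harmonic]
    rw [← h2]
    exact this
  have : D * ∑ k ∈ range J, ((k : ℝ) + 1)⁻¹ ≤ D * (1 + Real.log J) :=
    mul_le_mul_of_nonneg_left hharm hD
  linarith

end Sums

end Vale.Agent.Lib.P054
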