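import Vale.Agent.Lib.P054.Basic
import Vale.Agent.Lib.P054.Lines

/-!
# Distinct norms in the plane for sets of small doubling
-/

open scoped Pointwise
open Finset

namespace Vale.Agent.Lib.P054

section General

variable {G : Type*} [AddCommGroup G] [DecidableEq G]

/-- The symmetrisation of `W` has controlled doubling. -/
lemma symm_add_card_le (W : Finset G) :
    ((W ∪ -W) + (W ∪ -W)).card ≤ 2 * (W + W).card + (W - W).card := by
  have h : ((W ∪ -W) + (W ∪ -W)) = (W + W) ∪ ((W - W) ∪ (-(W + W))) := by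
    rw [union_add, add_union, add_union, ← sub_eq_add_neg, neg_add_eq_sub, neg_add]
    ext x
    simp only [mem_union]
    tauto
  rw [h]
  calc _ ≤ (W + W).card + ((W - W) ∪ (-(W + W))).card := card_union_le _ _
    _ ≤ (W + W).card + ((W - W).card + (-(W + W)).card) := by gcongr; exact card_union_le _ _
    _ = _ := by rw [card_neg]; ring

lemma symm_neg_mem (W : Finset G) : ∀ a ∈ W ∪ -W, -a ∈ W ∪ -W := by
  intro a ha
  rcases mem_union.1 ha with h | h
  · exact mem_union_right _ (neg_mem_neg h)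
  · exact mem_union_left _ (by simpa using neg_mem_neg h)

lemma sub_self_neg_mem (A : Finset G) : ∀ a ∈ A - A, -a ∈ A - A := by
  intro a ha
  obtain ⟨x, hx, y, hy, rfl⟩ := mem_sub.1 ha
  rw [neg_sub]
  exact sub_mem_sub hy hx

end General

/-- The Euclidean plane. -/
abbrev Pl := EuclideanSpace ℝ (Fin 2)

/-- Rotation by a right angle. -/
noncomputable def rotJ : Pl →ₗ[ℝ] Pl where
  toFun x := WithLp.toLp 2 ![-x 1, x 0]
  map_add' x y := by
    ext i; fin_cases i <;> simp; ring
  map_smul' c x := by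
    ext i; fin_cases i <;> simp

@[simp] lemma rotJ_zero (x : Pl) : rotJ x 0 = -x 1 := by
  simp [rotJ]

@[simp] lemma rotJ_one (x : Pl) : rotJ x 1 = x 0 := by
  simp [rotJ]

lemma inner_pl (x y : Pl) : inner ℝ x y = x 0 * y 0 + x 1 * y 1 := by
  simp [PiLp.inner_apply, Fin.sum_univ_two]
  ring

lemma ext_pl {x y : Pl} (h0 : x 0 = y 0) (h1 : x 1 = y 1) : x = y := by
  ext i; fin_cases i <;> assumption

lemma rotJ_rotJ (x : Pl) : rotJ (rotJ x) = -x := by
  apply ext_pl <;> simp

lemma rotJ_injective : Function.Injective rotJ := by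
  intro x y h
  have := congrArg rotJ h
  rw [rotJ_rotJ, rotJ_rotJ] at this
  exact neg_injective this

lemma rotJ_mem_span {w u : Pl} (hw : w ≠ 0) (h : inner ℝ w u = 0) :
    rotJ u ∈ Submodule.span ℝ {w} := by
  rw [Submodule.mem_span_singleton]
  rw [inner_pl] at h
  by_cases h0 : w 0 = 0
  · have h1 : w 1 ≠ 0 := by
      intro h1
      exact hw (ext_pl (by simpa using h0) (by simpa using h1))
    rw [h0, zero_mul, zero_add] at h
    have hu1 : u 1 = 0 := (mul_eq_zero.1 h).resolve_left h1
    refine ⟨u 0 / w 1, ?_⟩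
    apply ext_pl
    · simp [h0, hu1]
    · simp; field_simp
  · refine ⟨- u 1 / w 0, ?_⟩
    apply ext_pl
    · simp; field_simp
    · simp; field_simp; linarith

lemma rotJ_cap_aux {x : Pl} (hx : x ≠ 0) {s t : ℝ} (h : t • x = s • rotJ x) : s = 0 ∧ t = 0 := by
  have h0 := congrArg (fun v : Pl => v 0) h
  have h1 := congrArg (fun v : Pl => v 1) h
  simp at h0 h1
  have hxsq : x 0 ^ 2 + x 1 ^ 2 ≠ 0 := by
    intro hh
    have h0' : x 0 = 0 := by nlinarith [sq_nonneg (x 0), sq_nonneg (x 1)]
    have h1' : x 1 = 0 := by nlinarith [sq_nonneg (x 0), sq_nonneg (x 1)]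
    exact hx (ext_pl (by simpa using h0') (by simpa using h1'))
  have ht : t * (x 0 ^ 2 + x 1 ^ 2) = 0 := by
    have : t * x 0 * x 0 + t * x 1 * x 1 = s * -x 1 * x 0 + s * x 0 * x 1 := by
      rw [h0, h1]; ring
    nlinarith
  have hs : s * (x 0 ^ 2 + x 1 ^ 2) = 0 := by
    have : t * x 0 * x 1 - t * x 1 * x 0 = s * -x 1 * x 1 - s * x 0 * x 0 := by
      rw [h0, h1]; ring
    nlinarith
  exact ⟨(mul_eq_zero.1 hs).resolve_right hxsq, (mul_eq_zero.1 ht).resolve_right hxsq⟩

section Main

variable [DecidableEq Pl]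

/-- The finset of lines through nonzero points of `W`. -/
noncomputable def linesOf (W : Finset Pl) : Finset (Submodule ℝ Pl) := by
  classical
  exact (W.erase 0).image (fun w => Submodule.span ℝ {w})

lemma mem_linesOf {W : Finset Pl} {l : Submodule ℝ Pl} :
    l ∈ linesOf W ↔ ∃ w ∈ W, w ≠ 0 ∧ Submodule.span ℝ {w} = l := by
  classical
  simp only [linesOf, mem_image, mem_erase]
  constructor
  · rintro ⟨w, ⟨h1, h2⟩, h3⟩
    exact ⟨w, h2, h1, h3⟩
  · rintro ⟨w, h2, h1, h3⟩
    exact ⟨w, ⟨h1, h2⟩, h3⟩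

lemma linesOf_line {W : Finset Pl} : ∀ l ∈ linesOf W, ∃ v : Pl, v ≠ 0 ∧ l = Submodule.span ℝ {v} := by
  intro l hl
  obtain ⟨w, _, h1, h2⟩ := mem_linesOf.1 hl
  exact ⟨w, h1, h2.symm⟩

lemma linesOf_card_le (W : Finset Pl) : (linesOf W).card ≤ W.card := by
  classical
  calc (linesOf W).card ≤ (W.erase 0).card := card_image_le
    _ ≤ W.card := card_le_card (erase_subset _ _)

/-- The counted orthogonal pairs are at most the sum over lines of the products. -/
lemma orthPairs_le_sum (W U : Finset Pl) :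
    (orthPairs W U).card ≤ ∑ l ∈ linesOf W, (lineSet W l).card * (lineSet (U.image rotJ) l).card := by
  classical
  calc (orthPairs W U).card
      ≤ ((linesOf W).biUnion (fun l => lineSet W l ×ˢ lineSet (U.image rotJ) l)).card := by
        apply card_le_card_of_injOn (fun p => (p.1, rotJ p.2))
        · intro p hp
          rw [mem_coe, mem_orthPairs] at hp
          obtain ⟨h1, h2, h3, h4, h5⟩ := hp
          rw [mem_coe, mem_biUnion]
          refine ⟨Submodule.span ℝ {p.1}, mem_linesOf.2 ⟨p.1, h1, h3, rfl⟩, ?_⟩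
          rw [mem_product]
          constructor
          · exact mem_lineSet.2 ⟨h1, h3, Submodule.mem_span_singleton_self _⟩
          · refine mem_lineSet.2 ⟨mem_image_of_mem _ h2, ?_, rotJ_mem_span h3 h5⟩
            intro h
            have h' : rotJ p.2 = 0 := h
            exact h4 (rotJ_injective (by rw [h', map_zero]))
        · intro p _ q _ hpq
          simp only [Prod.mk.injEq] at hpq
          exact Prod.ext hpq.1 (rotJ_injective hpq.2)
    _ ≤ ∑ l ∈ linesOf W, (lineSet W l ×ˢ lineSet (U.image rotJ) l).card := card_biUnion_le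
    _ = _ := by simp only [card_product]

/-- The cap: along a line, the product is at most `|W+U|`. -/
lemma line_product_le (W U : Finset Pl) {l : Submodule ℝ Pl} (hl : ∃ v : Pl, v ≠ 0 ∧ l = Submodule.span ℝ {v}) :
    (lineSet W l).card * (lineSet (U.image rotJ) l).card ≤ (W + U).card := by
  classical
  rw [← card_product]
  apply card_le_card_of_injOn (fun p => p.1 - rotJ p.2)
  · intro p hp
    rw [mem_coe, mem_product] at hp
    obtain ⟨h1, h2⟩ := hp
    have h1' := (mem_lineSet.1 h1).1
    obtain ⟨u, hu, hu'⟩ := mem_image.1 (mem_lineSet.1 h2).1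
    rw [mem_coe]
    show p.1 - rotJ p.2 ∈ W + U
    rw [← hu', rotJ_rotJ, sub_neg_eq_add]
    exact add_mem_add h1' hu
  · intro p hp q hq hpq
    obtain ⟨v, hv, rfl⟩ := hl
    rw [mem_coe, mem_product] at hp hq
    obtain ⟨a1, ha1⟩ := Submodule.mem_span_singleton.1 (mem_lineSet.1 hp.1).2.2
    obtain ⟨a2, ha2⟩ := Submodule.mem_span_singleton.1 (mem_lineSet.1 hp.2).2.2
    obtain ⟨b1, hb1⟩ := Submodule.mem_span_singleton.1 (mem_lineSet.1 hq.1).2.2
    obtain ⟨b2, hb2⟩ := Submodule.mem_span_singleton.1 (mem_lineSet.1 hq.2).2.2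
    simp only at hpq
    have hk : (a1 - b1) • v = (a2 - b2) • rotJ v := by
      have h1 : p.1 - q.1 = rotJ p.2 - rotJ q.2 := by
        have := sub_eq_sub_iff_sub_eq_sub.1 hpq
        exact this
      rw [← ha1, ← hb1, ← ha2, ← hb2, map_smul, map_smul, ← sub_smul, ← sub_smul] at h1
      exact h1
    obtain ⟨h3, h4⟩ := rotJ_cap_aux hv hk
    have h5 : a1 = b1 := sub_eq_zero.1 h4
    have h6 : a2 = b2 := sub_eq_zero.1 h3
    apply Prod.ext
    · rw [← ha1, ← hb1, h5]
    · rw [← ha2, ← hb2, h6]

/-- Main estimate: the number of orthogonal pairs. -/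
theorem orthPairs_bound (A : Finset Pl) (hA : A.Nonempty) :
    ((orthPairs (A + A) (A - A)).card : ℝ) ≤
      (((A + A).card : ℝ) / (A.card : ℝ)) ^ 4 * (A.card : ℝ) *
        (18 + 16 * Real.log ((linesOf (A + A)).card : ℝ)) := by
  classical
  set W := A + A with hW
  set U := A - A with hU
  set Gm : ℝ := (((A + A).card : ℝ) / (A.card : ℝ)) ^ 4 * (A.card : ℝ) with hGm
  have hGm0 : 0 ≤ Gm := by positivity
  have hww : ((W + W).card : ℝ) ≤ Gm := by
    rw [hW, card_add_add]
    exact plunnecke_real A hA 4 0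
  have hwsw : ((W - W).card : ℝ) ≤ Gm := by
    rw [hW, card_add_sub]
    exact plunnecke_real A hA 2 2
  have huu : ((U + U).card : ℝ) ≤ Gm := by
    rw [hU, card_sub_add]
    exact plunnecke_real A hA 2 2
  have hwu : ((W + U).card : ℝ) ≤ Gm := by
    rw [hW, hU, card_add_add_sub]
    exact plunnecke_real A hA 3 1
  set SW := W ∪ -W with hSW
  set SU := U.image rotJ with hSU
  have hSW1 : ((SW + SW).card : ℝ) ≤ 3 * Gm := by
    have := symm_add_card_le W
    have h2 : ((SW + SW).card : ℝ) ≤ 2 * ((W + W).card : ℝ) + ((W - W).card : ℝ) := by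
      exact_mod_cast this
    linarith
  have hSU1 : ((SU + SU).card : ℝ) ≤ Gm := by
    have h2 : SU + SU = (U + U).image rotJ := by
      rw [hSU]
      exact (Finset.image_add rotJ).symm
    rw [h2]
    refine le_trans ?_ huu
    exact_mod_cast card_image_le
  have hSWsymm := symm_neg_mem W
  have hSUsymm : ∀ a ∈ SU, -a ∈ SU := by
    intro a ha
    obtain ⟨u, hu, rfl⟩ := mem_image.1 ha
    rw [← map_neg]
    exact mem_image_of_mem _ (sub_self_neg_mem A u hu)
  set I := linesOf W with hI
  set g : Submodule ℝ Pl → ℝ := fun l => ((lineSet W l).card : ℝ) * ((lineSet SU l).card : ℝ) with hg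
  have hcap : ∀ l ∈ I, g l ≤ Gm := by
    intro l hl
    have h1 := line_product_le W U (linesOf_line l hl)
    have h2 : (((lineSet W l).card * (lineSet (U.image rotJ) l).card : ℕ) : ℝ) ≤ ((W + U).card : ℝ) := by
      exact_mod_cast h1
    push_cast at h2
    exact h2.trans hwu
  set D : ℝ := 16 * Gm with hD
  have hD0 : 0 ≤ D := by positivity
  have hcount : ∀ z : ℝ, 0 < z → ((I.filter (fun l => z ≤ g l)).card : ℝ) ≤ 2 + D / z := by
    intro z hz
    set x := Real.sqrt z with hx
    have hx0 : 0 < x := Real.sqrt_pos.2 hz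
    have hxx : x * x = z := Real.mul_self_sqrt hz.le
    have hsub : I.filter (fun l => z ≤ g l) ⊆
        (I.filter (fun l => x ≤ ((lineSet SW l).card : ℝ))) ∪
        (I.filter (fun l => x ≤ ((lineSet SU l).card : ℝ))) := by
      intro l hl
      rw [mem_filter] at hl
      rw [mem_union, mem_filter, mem_filter]
      by_contra hcon
      push Not at hcon
      have h1 : ((lineSet W l).card : ℝ) < x := by
        have h3 := hcon.1 hl.1
        have h4 : ((lineSet W l).card : ℝ) ≤ ((lineSet SW l).card : ℝ) := by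
          exact_mod_cast card_le_card (lineSet_mono subset_union_left l)
        linarith
      have h2 := hcon.2 hl.1
      have h5 : g l < z := by
        rw [← hxx]
        exact mul_lt_mul'' h1 h2 (by positivity) (by positivity)
      exact absurd hl.2 (not_le.2 h5)
    have h1 := rich_filter_card_le SW hSWsymm I linesOf_line x hx0
    have h2 := rich_filter_card_le SU hSUsymm I linesOf_line x hx0
    have hxs : x ^ 2 = z := by rw [sq]; exact hxx
    rw [hxs] at h1 h2
    have h3 : ((I.filter (fun l => z ≤ g l)).card : ℝ) ≤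
        ((I.filter (fun l => x ≤ ((lineSet SW l).card : ℝ))).card : ℝ) +
        ((I.filter (fun l => x ≤ ((lineSet SU l).card : ℝ))).card : ℝ) := by
      exact_mod_cast (card_le_card hsub).trans (card_union_le _ _)
    have h4 : 4 * ((SW + SW).card : ℝ) / z ≤ 4 * (3 * Gm) / z := by gcongr
    have h5 : 4 * ((SU + SU).card : ℝ) / z ≤ 4 * Gm / z := by gcongr
    have h6 : D / z = 4 * (3 * Gm) / z + 4 * Gm / z := by
      rw [hD]; ring
    linarith
  have hsum := sum_le_sum_of_count I g (fun j => if j ≤ 2 then Gm else D / ((j : ℝ) - 2)) (by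
    intro j z hj hz
    by_cases hj2 : j ≤ 2
    · simp only [hj2, if_true] at hz
      have : I.filter (fun l => z ≤ g l) = ∅ := by
        apply filter_eq_empty_iff.2
        intro l hl
        exact not_le.2 (lt_of_le_of_lt (hcap l hl) hz)
      rw [this, card_empty]
      omega
    · simp only [hj2, if_false] at hz
      have hj3 : (3 : ℝ) ≤ j := by exact_mod_cast (by omega : 3 ≤ j)
      have hj4 : (0 : ℝ) < (j : ℝ) - 2 := by linarith
      have hz0 : 0 < z := lt_of_le_of_lt (div_nonneg hD0 hj4.le) hz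
      have h1 := hcount z hz0
      have h2 : D / z < (j : ℝ) - 2 := by
        rw [div_lt_iff₀ hz0]
        rw [div_lt_iff₀ hj4] at hz
        linarith
      have h3 : ((I.filter (fun l => z ≤ g l)).card : ℝ) < j := by linarith
      exact_mod_cast h3)
  have hsum2 := sum_two_plus_harmonic Gm D hGm0 hD0 I.card
  have hsum3 : ∑ l ∈ I, g l ≤ 2 * Gm + D * (1 + Real.log (I.card : ℝ)) := by
    refine hsum.trans ?_
    exact hsum2
  have hfin : ((orthPairs W U).card : ℝ) ≤ ∑ l ∈ I, g l := by
    have := orthPairs_le_sum W U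
    have h2 : ((orthPairs W U).card : ℝ) ≤
        ((∑ l ∈ linesOf W, (lineSet W l).card * (lineSet (U.image rotJ) l).card : ℕ) : ℝ) := by
      exact_mod_cast this
    push_cast at h2
    exact h2
  calc ((orthPairs W U).card : ℝ) ≤ ∑ l ∈ I, g l := hfin
    _ ≤ 2 * Gm + D * (1 + Real.log (I.card : ℝ)) := hsum3
    _ = _ := by rw [hD]; ring

/-- The theorem on distinct norms for a finite set `A` with at least two points. -/
theorem plane_norms (A : Finset Pl) (hn : 2 ≤ A.card) :
    (A.card : ℝ) ^ 5 ≤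
      61 * ((A.image norm).card : ℝ) * ((A + A).card : ℝ) ^ 4 * Real.log (A.card : ℝ) := by
  classical
  have hA : A.Nonempty := by rw [← card_pos]; omega
  have hn0 : (0 : ℝ) < A.card := by exact_mod_cast card_pos.2 hA
  have hn2 : (2 : ℝ) ≤ A.card := by exact_mod_cast hn
  have hlog2 : Real.log 2 ≤ Real.log (A.card : ℝ) := Real.log_le_log (by norm_num) hn2
  have hlog2' : (0.69 : ℝ) < Real.log 2 := by
    have := Real.log_two_gt_d9
    linarith
  set nu : ℝ := ((A.image norm).card : ℝ) with hnu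
  set sig : ℝ := ((A + A).card : ℝ) with hsig
  set n : ℝ := (A.card : ℝ) with hn'
  set Gm : ℝ := (sig / n) ^ 4 * n with hGm
  have hlogI : Real.log ((linesOf (A + A)).card : ℝ) ≤ 2 * Real.log n := by
    by_cases h0 : (linesOf (A + A)).card = 0
    · rw [h0]
      simp only [Nat.cast_zero, Real.log_zero]
      have : 0 < Real.log 2 := by linarith
      linarith
    · have h1 : (0 : ℝ) < (linesOf (A + A)).card := by
        exact_mod_cast Nat.pos_of_ne_zero h0
      have h2 : (((linesOf (A + A)).card : ℕ) : ℝ) ≤ n ^ 2 := by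
        have h3 : (linesOf (A + A)).card ≤ A.card * A.card :=
          (linesOf_card_le _).trans card_add_le
        rw [sq, hn']
        exact_mod_cast h3
      calc _ ≤ Real.log (n ^ 2) := Real.log_le_log h1 h2
        _ = 2 * Real.log n := by rw [Real.log_pow]; norm_num
  have horth := orthPairs_bound A hA
  have hsig1 : n ≤ sig := by
    rw [hn', hsig]
    exact_mod_cast card_le_card_add_right hA
  have hK1 : 1 ≤ sig / n := by
    rw [le_div_iff₀ hn0]; linarith
  have hGm0 : n ≤ Gm := by
    rw [hGm]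
    have : 1 ≤ (sig / n) ^ 4 := one_le_pow₀ hK1
    nlinarith
  have hGmpos : 0 < Gm := by linarith
  have hE := energy_le A
  have hE2 : (((A ×ˢ A).filter (fun p => ‖p.1‖ = ‖p.2‖)).card : ℝ) ≤
      2 * n + ((orthPairs (A + A) (A - A)).card : ℝ) := by
    rw [hn']
    exact_mod_cast hE
  have hCS := card_sq_le_image_mul_pairs A norm
  have hCS2 : n ^ 2 ≤ nu * (((A ×ˢ A).filter (fun p => ‖p.1‖ = ‖p.2‖)).card : ℝ) := by
    rw [hn', hnu]
    exact_mod_cast hCS
  have hnu0 : 0 ≤ nu := by positivity
  have hlogn : (0.69 : ℝ) < Real.log n := by linarith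
  have hbound : (((A ×ˢ A).filter (fun p => ‖p.1‖ = ‖p.2‖)).card : ℝ) ≤ Gm * (61 * Real.log n) := by
    have h1 : ((orthPairs (A + A) (A - A)).card : ℝ) ≤ Gm * (18 + 16 * (2 * Real.log n)) := by
      refine horth.trans ?_
      apply mul_le_mul_of_nonneg_left _ hGmpos.le
      linarith
    have h2 : 2 * n ≤ 2 * Gm := by linarith
    have h3 : Gm * 2 + Gm * (18 + 16 * (2 * Real.log n)) ≤ Gm * (61 * Real.log n) := by
      rw [← mul_add]
      apply mul_le_mul_of_nonneg_left _ hGmpos.le
      linarith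
    linarith
  have hfinal : n ^ 2 ≤ nu * (Gm * (61 * Real.log n)) :=
    hCS2.trans (mul_le_mul_of_nonneg_left hbound hnu0)
  have hGmeq : Gm * n ^ 3 = sig ^ 4 := by
    rw [hGm]; field_simp
  have hmul := mul_le_mul_of_nonneg_right hfinal (by positivity : (0 : ℝ) ≤ n ^ 3)
  calc n ^ 5 = n ^ 2 * n ^ 3 := by ring
    _ ≤ nu * (Gm * (61 * Real.log n)) * n ^ 3 := hmul
    _ = 61 * nu * (Gm * n ^ 3) * Real.log n := by ring
    _ = _ := by rw [hGmeq]

end Main

end Vale.Agent.Lib.P054
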