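import Vale.Agent.Lib.P054.Cover
import Vale.Agent.Lib.P054.Plane

/-!
# Sets with small doubling: the sumset bounds used below
-/

open scoped Pointwise
open Finset

namespace Vale.Agent.Lib.P054

section

variable {V : Type*} [AddCommGroup V] [DecidableEq V]

/-- The sumset bounds needed below, all with the same constant `K`. -/
structure Dbl (A : Finset V) (K : ℝ) : Prop where
  hK : 1 ≤ K
  hA : A.Nonempty
  hW : ((A + A).card : ℝ) ≤ K * A.card
  hU : ((A - A).card : ℝ) ≤ K ^ 2 * A.card
  hZ : (((A - A) + (A - A)).card : ℝ) ≤ K ^ 4 * A.card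
  hWU : (((A + A) + (A - A)).card : ℝ) ≤ K ^ 4 * A.card
  hZZA : ((((A - A) + (A - A)) + ((A - A) + (A - A)) + A).card : ℝ) ≤ K ^ 9 * A.card
  hSW : ((((A + A) ∪ -(A + A)) + ((A + A) ∪ -(A + A))).card : ℝ) ≤ 3 * K ^ 4 * A.card

/-- Every nonempty finite set satisfies the bounds with `K = |A + A| / |A|`. -/
theorem dbl_of_nonempty (A : Finset V) (hA : A.Nonempty) :
    Dbl A (((A + A).card : ℝ) / (A.card : ℝ)) := by
  have hn0 : (0 : ℝ) < A.card := by exact_mod_cast card_pos.2 hA
  set K : ℝ := ((A + A).card : ℝ) / (A.card : ℝ) with hKdef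
  have hK1 : 1 ≤ K := by
    rw [hKdef, le_div_iff₀ hn0, one_mul]
    exact_mod_cast card_le_card_add_right hA
  have hww : (((A + A) + (A + A)).card : ℝ) ≤ K ^ 4 * A.card := by
    rw [card_add_add]
    exact plunnecke_real A hA 4 0
  have hwsw : (((A + A) - (A + A)).card : ℝ) ≤ K ^ 4 * A.card := by
    rw [card_add_sub]
    exact plunnecke_real A hA 2 2
  refine ⟨hK1, hA, ?_, ?_, ?_, ?_, ?_, ?_⟩
  · rw [hKdef]
    field_simp
    exact le_refl _
  · have := plunnecke_real A hA 1 1
    simpa only [one_nsmul] using this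
  · rw [card_sub_add]
    exact plunnecke_real A hA 2 2
  · rw [card_add_add_sub]
    exact plunnecke_real A hA 3 1
  · have h : (((A - A) + (A - A)) + ((A - A) + (A - A)) + A) = 5 • A - 4 • A := by
      rw [show (5 : ℕ) = 2 + 2 + 1 from rfl, show (4 : ℕ) = 2 + 2 from rfl, add_nsmul, add_nsmul,
        one_nsmul, two_nsmul]
      simp only [sub_eq_add_neg, neg_add_rev]
      ac_rfl
    rw [h]
    exact plunnecke_real A hA 5 4
  · have h1 := symm_add_card_le (A + A)
    have h2 : (((A + A ∪ -(A + A)) + (A + A ∪ -(A + A))).card : ℝ) ≤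
        2 * (((A + A) + (A + A)).card : ℝ) + (((A + A) - (A + A)).card : ℝ) := by
      exact_mod_cast h1
    linarith

end

end Vale.Agent.Lib.P054
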