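import Vale.Agent.Lib.P054.Rich

/-!
# Cosets met by a set, slices and quotients, for sets of small doubling
-/

open scoped Pointwise
open Finset
open Module (finrank)

namespace Vale.Agent.Lib.P054

lemma card_image_le_of_forall {α β γ : Type*} [DecidableEq β] [DecidableEq γ] (B : Finset α)
    (f : α → β) (g : α → γ) (h : ∀ a ∈ B, ∀ b ∈ B, g a = g b → f a = f b) :
    (B.image f).card ≤ (B.image g).card := by
  classical
  rcases B.eq_empty_or_nonempty with rfl | ⟨a0, _⟩
  · simp
  haveI : Nonempty α := ⟨a0⟩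
  have h1 : ∀ z ∈ B.image g, ∃ a ∈ B, g a = z := by
    intro z hz
    exact mem_image.1 hz
  choose! rep hrep1 hrep2 using h1
  calc (B.image f).card ≤ ((B.image g).image (fun z => f (rep z))).card := by
        apply card_le_card
        intro z hz
        obtain ⟨a, ha, rfl⟩ := mem_image.1 hz
        refine mem_image.2 ⟨g a, mem_image_of_mem _ ha, ?_⟩
        exact h _ (hrep1 _ (mem_image_of_mem _ ha)) _ ha (hrep2 _ (mem_image_of_mem _ ha))
    _ ≤ _ := card_image_le

set_option linter.unusedSectionVars false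

lemma image_sub_linear {V W : Type*} [AddCommGroup V] [AddCommGroup W] [Module ℝ V] [Module ℝ W]
    [DecidableEq V] [DecidableEq W] (φ : V →ₗ[ℝ] W) (B : Finset V) :
    (B - B).image φ = B.image φ - B.image φ := by
  ext z
  simp only [mem_image, mem_sub]
  constructor
  · rintro ⟨x, ⟨a, ha, b, hb, rfl⟩, rfl⟩
    exact ⟨φ a, ⟨a, ha, rfl⟩, φ b, ⟨b, hb, rfl⟩, (map_sub φ a b).symm⟩
  · rintro ⟨_, ⟨a, ha, rfl⟩, _, ⟨b, hb, rfl⟩, rfl⟩
    exact ⟨a - b, ⟨a, ha, b, hb, rfl⟩, map_sub φ a b⟩

section Levels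

variable {V : Type*} [AddCommGroup V] [Module ℝ V] [DecidableEq V]

open scoped Classical in
/-- The number of cosets of `H` met by `B`. -/
noncomputable def levels (B : Finset V) (H : Submodule ℝ V) : ℕ :=
  (B.image H.mkQ).card

lemma levels_eq (B : Finset V) (H : Submodule ℝ V) [DecidableEq (V ⧸ H)] :
    levels B H = (B.image H.mkQ).card := by
  unfold levels
  exact le_antisymm (@card_image_le_of_forall _ _ _ (_) (_) B _ _ (fun _ _ _ _ h => h))
    (@card_image_le_of_forall _ _ _ (_) (_) B _ _ (fun _ _ _ _ h => h))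

lemma mkQ_eq_iff {H : Submodule ℝ V} {a b : V} : H.mkQ a = H.mkQ b ↔ a - b ∈ H :=
  Submodule.Quotient.eq H

lemma levels_mono {Y Y' : Finset V} (h : Y ⊆ Y') (H : Submodule ℝ V) :
    levels Y H ≤ levels Y' H := by
  classical
  rw [levels_eq, levels_eq]
  exact card_le_card (image_subset_image h)

lemma levels_pos {B : Finset V} (hB : B.Nonempty) (H : Submodule ℝ V) : 0 < levels B H := by
  classical
  rw [levels_eq]
  exact card_pos.2 (hB.image _)

lemma mem_lightIn' {Z X : Finset V} {f : ℝ} {u : V} :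
    u ∈ lightIn Z f X ↔ u ∈ X ∧ ((lineSet Z (Submodule.span ℝ {u})).card : ℝ) ≤ f := by
  simp [lightIn]

/-- A richest coset slice. -/
lemma exists_slice (B : Finset V) (hB : B.Nonempty) (H : Submodule ℝ V) :
    ∃ F ⊆ B, F.Nonempty ∧ (∀ a ∈ F, ∀ b ∈ F, a - b ∈ H) ∧ B.card ≤ F.card * levels B H := by
  classical
  obtain ⟨z, hz, hmax⟩ := exists_max_image (B.image H.mkQ)
    (fun z => (B.filter (fun x => H.mkQ x = z)).card) (hB.image _)
  refine ⟨B.filter (fun x => H.mkQ x = z), filter_subset _ _, ?_, ?_, ?_⟩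
  · obtain ⟨a, ha, rfl⟩ := mem_image.1 hz
    exact ⟨a, mem_filter.2 ⟨ha, rfl⟩⟩
  · intro a ha b hb
    have h1 := (mem_filter.1 ha).2
    have h2 := (mem_filter.1 hb).2
    exact mkQ_eq_iff.1 (h1.trans h2.symm)
  · rw [levels_eq]
    exact card_le_mul_card_image B _ hmax

/-- Sets all of whose differences lie in `H` translate the cosets met by `Y` disjointly. -/
lemma levels_mul_card_le (Y F : Finset V) (H : Submodule ℝ V)
    (hF : ∀ a ∈ F, ∀ b ∈ F, a - b ∈ H) : levels Y H * F.card ≤ (Y + F).card := by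
  classical
  rw [levels_eq, ← card_product]
  have h1 : ∀ z ∈ Y.image H.mkQ, ∃ a ∈ Y, H.mkQ a = z := fun z hz => mem_image.1 hz
  choose! rep hrep1 hrep2 using h1
  apply card_le_card_of_injOn (fun p => rep p.1 + p.2)
  · intro p hp
    rw [coe_product] at hp
    exact mem_coe.2 (add_mem_add (hrep1 _ hp.1) hp.2)
  · intro p hp q hq hpq
    rw [coe_product] at hp hq
    simp only at hpq
    have h2 : H.mkQ (rep p.1) + H.mkQ p.2 = H.mkQ (rep q.1) + H.mkQ q.2 := by
      rw [← map_add, ← map_add, hpq]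
    have h3 : H.mkQ p.2 = H.mkQ q.2 := mkQ_eq_iff.2 (hF _ hp.2 _ hq.2)
    rw [h3, hrep2 _ hp.1, hrep2 _ hq.1] at h2
    have h4 : p.1 = q.1 := add_right_cancel h2
    have h5 : p.2 = q.2 := by
      rw [h4] at hpq
      exact add_left_cancel hpq
    exact Prod.ext h4 h5

/-- A set with all differences in `Ξ` embeds in the differences of any superset. -/
lemma card_le_partIn_sub {S Y : Finset V} {Ξ : Submodule ℝ V} (hS : S ⊆ Y)
    (hd : ∀ a ∈ S, ∀ b ∈ S, a - b ∈ Ξ) : S.card ≤ (partIn (Y - Y) Ξ).card := by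
  classical
  rcases S.eq_empty_or_nonempty with rfl | ⟨s, hs⟩
  · simp
  · apply card_le_card_of_injOn (fun x => x - s)
    · intro x hx
      exact mem_coe.2 (mem_partIn.2 ⟨sub_mem_sub (hS hx) (hS hs), hd _ hx _ hs⟩)
    · intro x _ y _ h
      exact sub_left_injective h

end Levels

section Doubling

variable {V : Type*} [AddCommGroup V] [DecidableEq V]

/-- Small doubling. -/
structure Doubling (B : Finset V) (K : ℝ) : Prop where
  ne : B.Nonempty
  one_le : 1 ≤ K
  add : ((B + B).card : ℝ) ≤ K * B.card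

lemma doubling_self {B : Finset V} (hB : B.Nonempty) :
    Doubling B (((B + B).card : ℝ) / (B.card : ℝ)) :=
  ⟨hB, (dbl_of_nonempty B hB).hK, (dbl_of_nonempty B hB).hW⟩

variable {B : Finset V} {K : ℝ}

lemma Doubling.card_pos (h : Doubling B K) : (0 : ℝ) < B.card := by
  exact_mod_cast Finset.card_pos.2 h.ne

lemma Doubling.K_pos (h : Doubling B K) : 0 < K := by
  linarith [h.one_le]

lemma Doubling.ratio_le (h : Doubling B K) : ((B + B).card : ℝ) / (B.card : ℝ) ≤ K := by
  rw [div_le_iff₀ h.card_pos]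
  exact h.add

lemma Doubling.ratio_nonneg (_h : Doubling B K) : 0 ≤ ((B + B).card : ℝ) / (B.card : ℝ) := by
  positivity

/-- All the sumset bounds. -/
lemma Doubling.sumset (h : Doubling B K) (m l : ℕ) :
    ((m • B - l • B).card : ℝ) ≤ K ^ (m + l) * B.card := by
  refine (plunnecke_real B h.ne m l).trans ?_
  have := h.card_pos
  gcongr
  exact h.ratio_le

lemma Doubling.dbl (h : Doubling B K) : Dbl B K := by
  have hK1 := h.one_le
  have hn := h.card_pos
  have hww : (((B + B) + (B + B)).card : ℝ) ≤ K ^ 4 * B.card := by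
    rw [card_add_add]
    exact h.sumset 4 0
  have hwsw : (((B + B) - (B + B)).card : ℝ) ≤ K ^ 4 * B.card := by
    rw [card_add_sub]
    exact h.sumset 2 2
  refine ⟨hK1, h.ne, h.add, ?_, ?_, ?_, ?_, ?_⟩
  · have := h.sumset 1 1
    simpa only [one_nsmul] using this
  · rw [card_sub_add]
    exact h.sumset 2 2
  · rw [card_add_add_sub]
    exact h.sumset 3 1
  · have h' : (((B - B) + (B - B)) + ((B - B) + (B - B)) + B) = 5 • B - 4 • B := by
      rw [show (5 : ℕ) = 2 + 2 + 1 from rfl, show (4 : ℕ) = 2 + 2 from rfl, add_nsmul, add_nsmul,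
        one_nsmul, two_nsmul]
      simp only [sub_eq_add_neg, neg_add_rev]
      ac_rfl
    rw [h']
    exact h.sumset 5 4
  · have h1 := symm_add_card_le (B + B)
    have h2 : (((B + B ∪ -(B + B)) + (B + B ∪ -(B + B))).card : ℝ) ≤
        2 * (((B + B) + (B + B)).card : ℝ) + (((B + B) - (B + B)).card : ℝ) := by
      exact_mod_cast h1
    linarith

lemma Doubling.card_sub (h : Doubling B K) : ((B - B).card : ℝ) ≤ K ^ 2 * B.card := h.dbl.hU

lemma Doubling.card_Z (h : Doubling B K) : (((B - B) + (B - B)).card : ℝ) ≤ K ^ 4 * B.card :=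
  h.dbl.hZ

lemma Doubling.card_UB (h : Doubling B K) : (((B - B) + B).card : ℝ) ≤ K ^ 3 * B.card := by
  have h' : (B - B) + B = 2 • B - 1 • B := by
    rw [two_nsmul, one_nsmul]
    simp only [sub_eq_add_neg]
    ac_rfl
  rw [h']
  exact h.sumset 2 1

lemma Doubling.card_BB_B (h : Doubling B K) : (((B + B) + B).card : ℝ) ≤ K ^ 3 * B.card := by
  have h' : (B + B) + B = 3 • B - 0 • B := by
    rw [show (3 : ℕ) = 2 + 1 from rfl, add_nsmul, one_nsmul, two_nsmul, zero_nsmul, sub_zero]
  rw [h']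
  exact h.sumset 3 0

lemma Doubling.card_ZBB (h : Doubling B K) :
    ((((B - B) + (B - B)) + (B + B)).card : ℝ) ≤ K ^ 6 * B.card := by
  have h' : ((B - B) + (B - B)) + (B + B) = 4 • B - 2 • B := by
    rw [show (4 : ℕ) = 2 + 2 from rfl, add_nsmul, two_nsmul]
    simp only [sub_eq_add_neg, neg_add_rev]
    ac_rfl
  rw [h']
  exact h.sumset 4 2

end Doubling

section Slices

variable {V : Type*} [AddCommGroup V] [Module ℝ V] [DecidableEq V]
variable {B : Finset V} {K : ℝ}

/-- The number of cosets met by the difference set. -/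
lemma Doubling.levels_sub_le (h : Doubling B K) (H : Submodule ℝ V) :
    (levels (B - B) H : ℝ) ≤ K ^ 3 * levels B H := by
  obtain ⟨F, hFB, hFne, hd, hc⟩ := exists_slice B h.ne H
  have hF0 : (0 : ℝ) < F.card := by exact_mod_cast Finset.card_pos.2 hFne
  have h1 : (levels (B - B) H : ℝ) * F.card ≤ ((B - B + F).card : ℝ) := by
    exact_mod_cast levels_mul_card_le (B - B) F H hd
  have h2 : ((B - B + F).card : ℝ) ≤ (((B - B) + B).card : ℝ) := by
    exact_mod_cast card_le_card (add_subset_add_left hFB)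
  have h3 : (B.card : ℝ) ≤ F.card * levels B H := by exact_mod_cast hc
  have hK3 : (0 : ℝ) ≤ K ^ 3 := by have := h.K_pos; positivity
  have h4 : (levels (B - B) H : ℝ) * F.card ≤ (K ^ 3 * levels B H) * F.card := by
    calc _ ≤ _ := h1
      _ ≤ _ := h2
      _ ≤ K ^ 3 * B.card := h.card_UB
      _ ≤ K ^ 3 * (F.card * levels B H) := mul_le_mul_of_nonneg_left h3 hK3
      _ = _ := by ring
  exact le_of_mul_le_mul_right h4 hF0

/-- Each level set embeds in the differences lying in `H`. -/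
lemma card_le_levels_mul_partIn (B : Finset V) (hB : B.Nonempty) (H : Submodule ℝ V) :
    B.card ≤ levels B H * (partIn (B - B) H).card := by
  obtain ⟨F, hFB, _, hd, hc⟩ := exists_slice B hB H
  calc B.card ≤ F.card * levels B H := hc
    _ ≤ (partIn (B - B) H).card * levels B H :=
        Nat.mul_le_mul_right _ (card_le_partIn_sub hFB hd)
    _ = _ := Nat.mul_comm _ _

/-- The differences in `H` are not many more than a richest slice. -/
lemma Doubling.partIn_le_slice (h : Doubling B K) {F : Finset V} {H : Submodule ℝ V}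
    (hc : B.card ≤ F.card * levels B H) :
    ((partIn (B - B) H).card : ℝ) ≤ K ^ 3 * F.card := by
  have hL : (0 : ℝ) < levels B H := by exact_mod_cast levels_pos h.ne H
  have hd : ∀ a ∈ partIn (B - B) H, ∀ b ∈ partIn (B - B) H, a - b ∈ H := by
    intro a ha b hb
    exact H.sub_mem (mem_partIn.1 ha).2 (mem_partIn.1 hb).2
  have h1 : (levels B H : ℝ) * ((partIn (B - B) H).card : ℝ) ≤
      ((B + partIn (B - B) H).card : ℝ) := by
    exact_mod_cast levels_mul_card_le B (partIn (B - B) H) H hd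
  have h2 : ((B + partIn (B - B) H).card : ℝ) ≤ (((B - B) + B).card : ℝ) := by
    rw [add_comm (B - B) B]
    exact_mod_cast card_le_card (add_subset_add_left (fun x hx => (mem_partIn.1 hx).1))
  have h3 : (B.card : ℝ) ≤ F.card * levels B H := by exact_mod_cast hc
  have hK3 : (0 : ℝ) ≤ K ^ 3 := by have := h.K_pos; positivity
  have h4 : (levels B H : ℝ) * ((partIn (B - B) H).card : ℝ) ≤
      (levels B H : ℝ) * (K ^ 3 * F.card) := by
    calc _ ≤ _ := h1
      _ ≤ _ := h2
      _ ≤ K ^ 3 * B.card := h.card_UB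
      _ ≤ K ^ 3 * (F.card * levels B H) := mul_le_mul_of_nonneg_left h3 hK3
      _ = _ := by ring
  exact le_of_mul_le_mul_left h4 hL

/-- A richest slice has small doubling. -/
lemma Doubling.slice (h : Doubling B K) {F : Finset V} {H : Submodule ℝ V} (hFB : F ⊆ B)
    (hFne : F.Nonempty) (hd : ∀ a ∈ F, ∀ b ∈ F, a - b ∈ H)
    (hc : B.card ≤ F.card * levels B H) : Doubling F (K ^ 3) := by
  have hK1 := h.one_le
  have hL : (0 : ℝ) < levels B H := by exact_mod_cast levels_pos h.ne H
  refine ⟨hFne, one_le_pow₀ hK1, ?_⟩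
  have hd2 : ∀ a ∈ F + F, ∀ b ∈ F + F, a - b ∈ H := by
    intro a ha b hb
    obtain ⟨a1, ha1, a2, ha2, rfl⟩ := mem_add.1 ha
    obtain ⟨b1, hb1, b2, hb2, rfl⟩ := mem_add.1 hb
    have : a1 + a2 - (b1 + b2) = (a1 - b1) + (a2 - b2) := by abel
    rw [this]
    exact H.add_mem (hd _ ha1 _ hb1) (hd _ ha2 _ hb2)
  have h1 : (levels B H : ℝ) * ((F + F).card : ℝ) ≤ ((B + (F + F)).card : ℝ) := by
    exact_mod_cast levels_mul_card_le B (F + F) H hd2
  have h2 : ((B + (F + F)).card : ℝ) ≤ (((B + B) + B).card : ℝ) := by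
    rw [add_comm (B + B) B]
    exact_mod_cast card_le_card (add_subset_add_left (add_subset_add hFB hFB))
  have h3 : (B.card : ℝ) ≤ F.card * levels B H := by exact_mod_cast hc
  have hK3 : (0 : ℝ) ≤ K ^ 3 := by positivity
  have h4 : (levels B H : ℝ) * ((F + F).card : ℝ) ≤ (levels B H : ℝ) * (K ^ 3 * F.card) := by
    calc _ ≤ _ := h1
      _ ≤ _ := h2
      _ ≤ K ^ 3 * B.card := h.card_BB_B
      _ ≤ K ^ 3 * (F.card * levels B H) := mul_le_mul_of_nonneg_left h3 hK3
      _ = _ := by ring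
  exact le_of_mul_le_mul_left h4 hL

/-- The quotient of a set of small doubling has small doubling. -/
lemma Doubling.quot (h : Doubling B K) (H : Submodule ℝ V) [DecidableEq (V ⧸ H)] :
    Doubling (B.image H.mkQ) (K ^ 3) := by
  have hK1 := h.one_le
  obtain ⟨F, hFB, hFne, hd, hc⟩ := exists_slice B h.ne H
  have hF0 : (0 : ℝ) < F.card := by exact_mod_cast Finset.card_pos.2 hFne
  refine ⟨h.ne.image _, one_le_pow₀ hK1, ?_⟩
  have h0 : B.image H.mkQ + B.image H.mkQ = (B + B).image H.mkQ := (Finset.image_add H.mkQ).symm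
  rw [h0, ← levels_eq, ← levels_eq]
  have h1 : (levels (B + B) H : ℝ) * F.card ≤ ((B + B + F).card : ℝ) := by
    exact_mod_cast levels_mul_card_le (B + B) F H hd
  have h2 : ((B + B + F).card : ℝ) ≤ (((B + B) + B).card : ℝ) := by
    exact_mod_cast card_le_card (add_subset_add_left hFB)
  have h3 : (B.card : ℝ) ≤ F.card * levels B H := by exact_mod_cast hc
  have hK3 : (0 : ℝ) ≤ K ^ 3 := by positivity
  have h4 : (levels (B + B) H : ℝ) * F.card ≤ (K ^ 3 * levels B H) * F.card := by
    calc _ ≤ _ := h1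
      _ ≤ _ := h2
      _ ≤ K ^ 3 * B.card := h.card_BB_B
      _ ≤ K ^ 3 * (F.card * levels B H) := mul_le_mul_of_nonneg_left h3 hK3
      _ = _ := by ring
  exact le_of_mul_le_mul_right h4 hF0

end Slices

section Quot

variable {V : Type*} [AddCommGroup V] [Module ℝ V] [DecidableEq V]

lemma levels_image_map (B : Finset V) {H G : Submodule ℝ V} (hHG : H ≤ G) [DecidableEq (V ⧸ H)] :
    levels (B.image H.mkQ) (G.map H.mkQ) = levels B G := by
  classical
  rw [levels_eq, levels_eq, image_image]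
  have hiff : ∀ a b : V, ((G.map H.mkQ).mkQ ∘ H.mkQ) a = ((G.map H.mkQ).mkQ ∘ H.mkQ) b ↔
      G.mkQ a = G.mkQ b := by
    intro a b
    simp only [Function.comp]
    rw [mkQ_eq_iff, mkQ_eq_iff, ← map_sub, Submodule.mem_map]
    constructor
    · rintro ⟨x, hx, hx2⟩
      have h1 : x - (a - b) ∈ H := mkQ_eq_iff.1 hx2
      have h2 : x - (x - (a - b)) ∈ G := G.sub_mem hx (hHG h1)
      simpa using h2
    · intro h
      exact ⟨a - b, h, rfl⟩
  apply le_antisymm
  · exact card_image_le_of_forall B _ _ (fun a _ b _ h => (hiff a b).2 h)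
  · exact card_image_le_of_forall B _ _ (fun a _ b _ h => (hiff a b).1 h)

lemma finrank_map_mkQ [FiniteDimensional ℝ V] {H G : Submodule ℝ V} (hHG : H ≤ G) :
    finrank ℝ (G.map H.mkQ) + finrank ℝ H = finrank ℝ G := by
  have h1 := LinearMap.finrank_range_add_finrank_ker (H.mkQ.comp G.subtype)
  rw [LinearMap.range_comp, Submodule.range_subtype, LinearMap.ker_comp, Submodule.ker_mkQ] at h1
  rw [← h1, (Submodule.comapSubtypeEquivOfLe hHG).finrank_eq]

lemma map_mkQ_inj {H G₁ G₂ : Submodule ℝ V} (h1 : H ≤ G₁) (h2 : H ≤ G₂)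
    (h : G₁.map H.mkQ = G₂.map H.mkQ) : G₁ = G₂ := by
  have h3 := Submodule.comap_map_eq H.mkQ G₁
  have h4 := Submodule.comap_map_eq H.mkQ G₂
  rw [Submodule.ker_mkQ, sup_eq_left.2 h1] at h3
  rw [Submodule.ker_mkQ, sup_eq_left.2 h2] at h4
  rw [← h3, ← h4, h]

lemma span_lineSet_map (U : Finset V) (H : Submodule ℝ V) {G : Submodule ℝ V}
    (hG : Submodule.span ℝ (lineSet U G : Set V) = G) [DecidableEq (V ⧸ H)] :
    Submodule.span ℝ (lineSet (U.image H.mkQ) (G.map H.mkQ) : Set (V ⧸ H)) = G.map H.mkQ := by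
  apply le_antisymm
  · rw [Submodule.span_le]
    intro x hx
    exact (mem_lineSet.1 (mem_coe.1 hx)).2.2
  · conv_lhs => rw [← hG]
    rw [Submodule.map_span, Submodule.span_le]
    rintro _ ⟨x, hx, rfl⟩
    obtain ⟨h1, _, h3⟩ := mem_lineSet.1 (mem_coe.1 hx)
    by_cases h0 : H.mkQ x = 0
    · rw [h0]
      exact Submodule.zero_mem _
    · apply Submodule.subset_span
      exact mem_coe.2 (mem_lineSet.2 ⟨mem_image_of_mem _ h1, h0, Submodule.mem_map_of_mem h3⟩)

/-- The number of `r`-dimensional subspaces spanned by points of a finite set. -/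
lemma card_spanned_le [FiniteDimensional ℝ V] (S : Finset V) (T : Finset (Submodule ℝ V)) (r : ℕ)
    (h : ∀ Γ ∈ T, finrank ℝ Γ = r ∧
      Submodule.span ℝ ((S : Set V) ∩ (Γ : Set V)) = Γ) :
    T.card ≤ S.card ^ r := by
  classical
  have h1 : T.card ≤ (S.powersetCard r).card := by
    apply card_le_card_of_surjOn (fun b : Finset V => Submodule.span ℝ (b : Set V))
    intro Γ hΓ
    obtain ⟨hr, hsp⟩ := h Γ (mem_coe.1 hΓ)
    obtain ⟨b, hb1, hb2, hb3⟩ := exists_linearIndependent ℝ ((S : Set V) ∩ (Γ : Set V))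
    have hbfin : b.Finite := (S.finite_toSet.inter_of_left _).subset hb1
    haveI := hbfin.fintype
    refine ⟨b.toFinset, ?_, ?_⟩
    · have hbsub : b.toFinset ⊆ S := by
        intro x hx
        exact mem_coe.1 (hb1 (Set.mem_toFinset.1 hx)).1
      refine mem_coe.2 (mem_powersetCard.2 ⟨hbsub, ?_⟩)
      have h2 := finrank_span_set_eq_card hb3
      rw [← h2, hb2, hsp, hr]
    · simp only
      rw [Set.coe_toFinset, hb2, hsp]
  exact h1.trans (by
    rw [card_powersetCard]
    exact Nat.choose_le_pow _ _)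

/-- Subspaces through a fixed subspace and spanned by points of `U`. -/
lemma card_through_le [FiniteDimensional ℝ V] (U : Finset V) (L : Submodule ℝ V)
    (T : Finset (Submodule ℝ V)) (r : ℕ)
    (h : ∀ Γ ∈ T, L ≤ Γ ∧ finrank ℝ Γ = finrank ℝ L + r ∧
      Submodule.span ℝ (lineSet U Γ : Set V) = Γ) :
    T.card ≤ levels U L ^ r := by
  classical
  rw [levels_eq]
  have h1 : T.card = (T.image (fun Γ => Γ.map L.mkQ)).card := by
    rw [card_image_of_injOn]
    intro Γ₁ h₁ Γ₂ h₂ heq
    exact map_mkQ_inj (h _ h₁).1 (h _ h₂).1 heq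
  rw [h1]
  apply card_spanned_le
  intro Γ' hΓ'
  obtain ⟨Γ, hΓ, rfl⟩ := mem_image.1 hΓ'
  obtain ⟨hL, hfr, hsp⟩ := h Γ hΓ
  refine ⟨?_, ?_⟩
  · have := finrank_map_mkQ hL
    omega
  · apply le_antisymm
    · rw [Submodule.span_le]
      exact Set.inter_subset_right
    · conv_lhs => rw [← span_lineSet_map U L hsp]
      apply Submodule.span_mono
      intro x hx
      obtain ⟨h2, _, h3⟩ := mem_lineSet.1 (mem_coe.1 hx)
      exact ⟨mem_coe.2 h2, h3⟩

end Quot

end Vale.Agent.Lib.P054
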