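import Vale.Agent.Lib.P054.Gen0

/-!
# Counting rich subspaces spanned by differences of a set of small doubling
-/

open scoped Pointwise
open Finset
open Module (finrank)

namespace Vale.Agent.Lib.P054

set_option linter.unusedSectionVars false
set_option linter.style.haveILetI false

/-- Polynomial growth in the doubling constant, with values at least one. -/
def PolyK (F : ℝ → ℝ) : Prop :=
  (∃ C E : ℕ, ∀ K : ℝ, 1 ≤ K → F K ≤ C * K ^ E) ∧ ∀ K : ℝ, 1 ≤ K → 1 ≤ F K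

lemma PolyK.const (c : ℕ) (hc : 1 ≤ c) : PolyK (fun _ => (c : ℝ)) := by
  refine ⟨⟨c, 0, fun K _ => by simp⟩, fun K _ => ?_⟩
  show (1 : ℝ) ≤ (c : ℝ)
  exact_mod_cast hc

lemma PolyK.cst (c : ℝ) (hc : 1 ≤ c) : PolyK (fun _ => c) := by
  refine ⟨⟨⌈c⌉₊, 0, fun K _ => ?_⟩, fun K _ => hc⟩
  simpa using Nat.le_ceil c

lemma PolyK.pow_id (e : ℕ) : PolyK (fun K => K ^ e) := by
  refine ⟨⟨1, e, fun K _ => by simp⟩, fun K hK => one_le_pow₀ hK⟩

lemma PolyK.add {F G : ℝ → ℝ} (hF : PolyK F) (hG : PolyK G) : PolyK (fun K => F K + G K) := by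
  obtain ⟨⟨C₁, E₁, h₁⟩, h₁'⟩ := hF
  obtain ⟨⟨C₂, E₂, h₂⟩, h₂'⟩ := hG
  refine ⟨⟨C₁ + C₂, E₁ + E₂, fun K hK => ?_⟩, fun K hK => by linarith [h₁' K hK, h₂' K hK]⟩
  have h3 : K ^ E₁ ≤ K ^ (E₁ + E₂) := pow_le_pow_right₀ hK (by omega)
  have h4 : K ^ E₂ ≤ K ^ (E₁ + E₂) := pow_le_pow_right₀ hK (by omega)
  have h5 : (C₁ : ℝ) * K ^ E₁ ≤ C₁ * K ^ (E₁ + E₂) := by gcongr
  have h6 : (C₂ : ℝ) * K ^ E₂ ≤ C₂ * K ^ (E₁ + E₂) := by gcongr
  push_cast
  linarith [h₁ K hK, h₂ K hK]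

lemma PolyK.mul {F G : ℝ → ℝ} (hF : PolyK F) (hG : PolyK G) : PolyK (fun K => F K * G K) := by
  obtain ⟨⟨C₁, E₁, h₁⟩, h₁'⟩ := hF
  obtain ⟨⟨C₂, E₂, h₂⟩, h₂'⟩ := hG
  refine ⟨⟨C₁ * C₂, E₁ + E₂, fun K hK => ?_⟩, fun K hK => ?_⟩
  · have h3 := h₁ K hK
    have h4 := h₂ K hK
    have h5 := h₁' K hK
    have h6 := h₂' K hK
    have hK0 : 0 < K := by linarith
    calc F K * G K ≤ (C₁ * K ^ E₁) * (C₂ * K ^ E₂) := by
          apply mul_le_mul h3 h4 (by linarith) (by positivity)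
      _ = _ := by push_cast; ring
  · have h5 := h₁' K hK
    have h6 := h₂' K hK
    nlinarith

lemma PolyK.npow {F : ℝ → ℝ} (hF : PolyK F) (e : ℕ) : PolyK (fun K => F K ^ e) := by
  induction e with
  | zero =>
    have := PolyK.const 1 (le_refl 1)
    simpa using this
  | succ e ih =>
    have := ih.mul hF
    simpa [pow_succ] using this

lemma PolyK.comp3 {F : ℝ → ℝ} (hF : PolyK F) : PolyK (fun K => F (K ^ 3)) := by
  obtain ⟨⟨C, E, h⟩, h'⟩ := hF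
  refine ⟨⟨C, 3 * E, fun K hK => ?_⟩, fun K hK => h' _ (one_le_pow₀ hK)⟩
  have := h (K ^ 3) (one_le_pow₀ hK)
  rw [pow_mul]
  exact this

/-- The count of rich spanned subspaces of a given dimension. -/
def FC (i : ℕ) (F : ℝ → ℝ) : Prop :=
  ∀ (V : Type) [AddCommGroup V] [Module ℝ V] [FiniteDimensional ℝ V] [DecidableEq V]
    (B : Finset V) (K y : ℝ), Doubling B K → 0 < y → ∀ T : Finset (Submodule ℝ V),
    (∀ Γ ∈ T, finrank ℝ Γ = i ∧ Submodule.span ℝ (lineSet (B - B) Γ : Set V) = Γ ∧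
      y ≤ ((lineSet (B - B) Γ).card : ℝ)) →
    (T.card : ℝ) ≤ F K * ((B.card : ℝ) / y) ^ (i - 1) * (1 + (B.card : ℝ) / y ^ 2)

/-- The sum over rich spanned subspaces of a given dimension, at least two. -/
def FS (j : ℕ) (F : ℝ → ℝ) : Prop :=
  ∀ (V : Type) [AddCommGroup V] [Module ℝ V] [FiniteDimensional ℝ V] [DecidableEq V]
    (B : Finset V) (K y : ℝ), Doubling B K → 0 < y → ∀ T : Finset (Submodule ℝ V),
    (∀ Γ ∈ T, finrank ℝ Γ = j + 2 ∧ Submodule.span ℝ (lineSet (B - B) Γ : Set V) = Γ ∧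
      y ≤ ((lineSet (B - B) Γ).card : ℝ)) →
    ∑ Γ ∈ T, ((lineSet (B - B) Γ).card : ℝ) ≤
      F K * (y * ((B.card : ℝ) / y) ^ (j + 1) * (1 + (B.card : ℝ) / y ^ 2))

lemma FC.mono {i : ℕ} {F G : ℝ → ℝ} (h : FC i F) (hFG : ∀ K, 1 ≤ K → F K ≤ G K) : FC i G := by
  intro V _ _ _ _ B K y hd hy T hT
  refine (h V B K y hd hy T hT).trans ?_
  have := hFG K hd.one_le
  gcongr

lemma FS.mono {j : ℕ} {F G : ℝ → ℝ} (h : FS j F) (hFG : ∀ K, 1 ≤ K → F K ≤ G K) : FS j G := by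
  intro V _ _ _ _ B K y hd hy T hT
  refine (h V B K y hd hy T hT).trans ?_
  have := hFG K hd.one_le
  gcongr

section Flats

variable {V : Type} [AddCommGroup V] [Module ℝ V] [FiniteDimensional ℝ V] [DecidableEq V]

lemma finrank_span_single {u : V} (hu : u ≠ 0) : finrank ℝ (Submodule.span ℝ {u}) = 1 :=
  finrank_span_singleton hu

/-- Lines are counted by the Solymosi bound. -/
theorem fc_one : FC 1 (fun K => 4 * K ^ 4) := by
  intro V _ _ _ _ B K y hd hy T hT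
  have hK1 := hd.one_le
  have hline : ∀ l ∈ T, ∃ v : V, v ≠ 0 ∧ l = Submodule.span ℝ {v} := by
    intro l hl
    obtain ⟨hfr, _, hrich⟩ := hT l hl
    have hc : 0 < ((lineSet (B - B) l).card : ℝ) := by linarith
    have hc' : (lineSet (B - B) l).Nonempty := card_pos.1 (by exact_mod_cast hc)
    obtain ⟨v, hv⟩ := hc'
    obtain ⟨_, hv0, hvl⟩ := mem_lineSet.1 hv
    refine ⟨v, hv0, ?_⟩
    symm
    apply Submodule.eq_of_le_of_finrank_eq ((Submodule.span_singleton_le_iff_mem v l).2 hvl)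
    rw [finrank_span_single hv0, hfr]
  have h1 := rich_filter_card_le (B - B) (sub_self_neg_mem B) T hline y hy
  rw [filter_true_of_mem (fun l hl => (hT l hl).2.2)] at h1
  have h2 := hd.card_Z
  have h3 : 4 * (((B - B) + (B - B)).card : ℝ) / y ^ 2 ≤ 4 * K ^ 4 * ((B.card : ℝ) / y ^ 2) := by
    rw [mul_div_assoc', div_le_div_iff_of_pos_right (by positivity)]
    linarith
  have h4 : 1 ≤ 4 * K ^ 4 := by
    have : 1 ≤ K ^ 4 := one_le_pow₀ hK1
    linarith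
  simp only [Nat.sub_self, pow_zero, mul_one]
  have h5 : 0 ≤ (B.card : ℝ) / y ^ 2 := by positivity
  nlinarith

/-- The subspaces through a light point. -/
theorem count_J_gen {B : Finset V} {K : ℝ} (hd : Doubling B K) (f y : ℝ) (hf : 0 ≤ f)
    (hy : 8 * f ≤ y) (hy0 : 0 < y) (j : ℕ) (F' : ℝ → ℝ) (hF' : FC (j + 1) F')
    (hF'0 : 0 ≤ F' (K ^ 3)) (u : V) (hu : u ≠ 0)
    (hlight : ((lineSet ((B - B) + (B - B)) (Submodule.span ℝ {u})).card : ℝ) ≤ f)
    (J : Finset (Submodule ℝ V))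
    (hJ : ∀ Γ ∈ J, finrank ℝ Γ = j + 2 ∧ Submodule.span ℝ (lineSet (B - B) Γ : Set V) = Γ ∧
      u ∈ Γ ∧ y / 4 ≤ ((lightIn ((B - B) + (B - B)) f (lineSet (B - B) Γ)).card : ℝ)) :
    (J.card : ℝ) ≤ F' (K ^ 3) * ((B.card : ℝ) / (y / (8 * (f + 1)))) ^ j *
      (1 + (B.card : ℝ) / (y / (8 * (f + 1))) ^ 2) := by
  classical
  set U := B - B with hU
  set Z := U + U with hZ
  set L := Submodule.span ℝ {u} with hL
  set B' := B.image L.mkQ with hB'
  have hd' : Doubling B' (K ^ 3) := hd.quot L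
  have hU' : B' - B' = U.image L.mkQ := (image_sub_linear L.mkQ B).symm
  set y' := y / (8 * (f + 1)) with hy'
  have hf1 : 0 < f + 1 := by linarith
  have hy'0 : 0 < y' := by rw [hy']; positivity
  have hUZ : U ⊆ Z := sub_subset_Z hd.ne
  have hLfr : finrank ℝ L = 1 := finrank_span_single hu
  have huL : ∀ Γ ∈ J, L ≤ Γ := fun Γ hΓ =>
    (Submodule.span_singleton_le_iff_mem u Γ).2 (hJ Γ hΓ).2.2.1
  have hcard : J.card = (J.image (fun Γ => Γ.map L.mkQ)).card := by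
    rw [card_image_of_injOn]
    intro Γ₁ h₁ Γ₂ h₂ heq
    exact map_mkQ_inj (huL _ h₁) (huL _ h₂) heq
  have hrich : ∀ Γ ∈ J, y' ≤ ((lineSet (U.image L.mkQ) (Γ.map L.mkQ)).card : ℝ) := by
    intro Γ hΓ
    obtain ⟨_, _, hu3, hY⟩ := hJ Γ hΓ
    set Y := lightIn Z f (lineSet U Γ) with hYdef
    have hYprop : ∀ a ∈ Y, a ∈ U ∧ a ≠ 0 ∧ a ∈ Γ := fun a ha =>
      mem_lineSet.1 (mem_lightIn'.1 ha).1
    set Y' := Y.filter (fun a => a ∉ L) with hY'
    set Ln := lineSet Z L with hLn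
    have hY'c : y / 4 - f ≤ (Y'.card : ℝ) := by
      have h1 : (Y.filter (fun a => a ∈ L)).card + Y'.card = Y.card := by
        rw [hY']
        exact card_filter_add_card_filter_not _
      have h2 : Y.filter (fun a => a ∈ L) ⊆ Ln := by
        intro a ha
        obtain ⟨h3, h4⟩ := mem_filter.1 ha
        obtain ⟨h5, h6, _⟩ := hYprop a h3
        exact mem_lineSet.2 ⟨hUZ h5, h6, h4⟩
      have h3 : ((Y.filter (fun a => a ∈ L)).card : ℝ) ≤ (Ln.card : ℝ) := by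
        exact_mod_cast card_le_card h2
      have h4 : ((Y.filter (fun a => a ∈ L)).card : ℝ) + (Y'.card : ℝ) = (Y.card : ℝ) := by
        exact_mod_cast h1
      linarith
    have himg : Y'.image L.mkQ ⊆ lineSet (U.image L.mkQ) (Γ.map L.mkQ) := by
      intro z hz
      obtain ⟨a, ha, rfl⟩ := mem_image.1 hz
      obtain ⟨ha1, ha2⟩ := mem_filter.1 ha
      obtain ⟨h1, _, h3⟩ := hYprop a ha1
      refine mem_lineSet.2 ⟨mem_image_of_mem _ h1, ?_, Submodule.mem_map_of_mem h3⟩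
      intro h0
      apply ha2
      have h4 : L.mkQ a = L.mkQ 0 := by rw [h0, map_zero]
      simpa using mkQ_eq_iff.1 h4
    have hfibre : Y'.card ≤ (Ln.card + 1) * (Y'.image L.mkQ).card := by
      apply card_le_mul_card_image
      intro z hz
      obtain ⟨a0, ha0, rfl⟩ := mem_image.1 hz
      have hsub : (Y'.filter (fun a => L.mkQ a = L.mkQ a0)).image (fun a => a - a0) ⊆
          insert 0 Ln := by
        intro t ht
        obtain ⟨a, ha, rfl⟩ := mem_image.1 ht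
        obtain ⟨ha1, ha2⟩ := mem_filter.1 ha
        by_cases h0 : a - a0 = 0
        · rw [h0]; exact mem_insert_self _ _
        · apply mem_insert_of_mem
          refine mem_lineSet.2 ⟨?_, h0, mkQ_eq_iff.1 ha2⟩
          rw [sub_eq_add_neg]
          have h1 := (hYprop a (mem_filter.1 ha1).1).1
          have h2 := (hYprop a0 (mem_filter.1 ha0).1).1
          exact add_mem_add h1 (sub_self_neg_mem B a0 h2)
      have h1 := card_le_card hsub
      rw [card_image_of_injective _ sub_left_injective] at h1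
      exact h1.trans (card_insert_le _ _)
    have h5 : (Y'.card : ℝ) ≤ (f + 1) * ((Y'.image L.mkQ).card : ℝ) := by
      have h6 : (Y'.card : ℝ) ≤ ((Ln.card : ℝ) + 1) * ((Y'.image L.mkQ).card : ℝ) := by
        exact_mod_cast hfibre
      have h7 : ((Ln.card : ℝ) + 1) ≤ f + 1 := by linarith
      exact h6.trans (mul_le_mul_of_nonneg_right h7 (by positivity))
    have h8 : ((Y'.image L.mkQ).card : ℝ) ≤
        ((lineSet (U.image L.mkQ) (Γ.map L.mkQ)).card : ℝ) := by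
      exact_mod_cast card_le_card himg
    have h9 : y / 8 ≤ (Y'.card : ℝ) := by linarith
    have h10 : y' ≤ ((Y'.image L.mkQ).card : ℝ) := by
      rw [hy', div_le_iff₀ (by positivity)]
      nlinarith
    linarith
  have hmain := hF' (V ⧸ L) B' (K ^ 3) y' hd' hy'0 (J.image (fun Γ => Γ.map L.mkQ)) (by
    intro Γ' hΓ'
    obtain ⟨Γ, hΓ, rfl⟩ := mem_image.1 hΓ'
    obtain ⟨hfr, hsp, _, _⟩ := hJ Γ hΓ
    rw [hU']
    refine ⟨?_, span_lineSet_map U L hsp, hrich Γ hΓ⟩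
    have := finrank_map_mkQ (huL Γ hΓ)
    omega)
  rw [← hcard] at hmain
  refine hmain.trans ?_
  have hB'le : (B'.card : ℝ) ≤ (B.card : ℝ) := by exact_mod_cast card_image_le
  simp only [Nat.add_sub_cancel]
  gcongr

/-- The sum over subspaces with many light points. -/
theorem sum_L_gen {B : Finset V} {K : ℝ} (hd : Doubling B K) (f y : ℝ) (hf : 0 ≤ f)
    (hy : 8 * f ≤ y) (hy0 : 0 < y) (j : ℕ) (F' : ℝ → ℝ) (hF' : FC (j + 1) F')
    (hF'0 : 0 ≤ F' (K ^ 3)) (T : Finset (Submodule ℝ V))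
    (hT : ∀ Γ ∈ T, finrank ℝ Γ = j + 2 ∧ Submodule.span ℝ (lineSet (B - B) Γ : Set V) = Γ ∧
      y ≤ ((lineSet (B - B) Γ).card : ℝ) ∧
      ((lineSet (B - B) Γ).card : ℝ) / 4 ≤
        ((lightIn ((B - B) + (B - B)) f (lineSet (B - B) Γ)).card : ℝ)) :
    ∑ Γ ∈ T, ((lineSet (B - B) Γ).card : ℝ) ≤
      4 * (((B - B).card : ℝ) * (F' (K ^ 3) * ((B.card : ℝ) / (y / (8 * (f + 1)))) ^ j *
        (1 + (B.card : ℝ) / (y / (8 * (f + 1))) ^ 2))) := by
  classical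
  set U := B - B with hU
  set Z := U + U with hZ
  set LU := lightIn Z f (U.erase 0) with hLU
  set Q := F' (K ^ 3) * ((B.card : ℝ) / (y / (8 * (f + 1)))) ^ j *
        (1 + (B.card : ℝ) / (y / (8 * (f + 1))) ^ 2) with hQ
  have hQ0 : 0 ≤ Q := by
    have hf1 : 0 < f + 1 := by linarith
    positivity
  set r : Submodule ℝ V → V → Prop := fun Γ u => u ∈ Γ with hr
  have hcount := sum_card_bipartiteAbove_eq_sum_card_bipartiteBelow (s := T) (t := LU) r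
  have h1 : ∑ Γ ∈ T, ((lineSet U Γ).card : ℝ) ≤ 4 * ∑ Γ ∈ T, ((LU.bipartiteAbove r Γ).card : ℝ) := by
    rw [mul_sum]
    apply sum_le_sum
    intro Γ hΓ
    obtain ⟨_, _, _, h2⟩ := hT Γ hΓ
    have hsub : lightIn Z f (lineSet U Γ) ⊆ LU.bipartiteAbove r Γ := by
      intro u hu
      obtain ⟨h3, h4⟩ := mem_lightIn'.1 hu
      obtain ⟨h5, h6, h7⟩ := mem_lineSet.1 h3
      exact mem_filter.2 ⟨mem_lightIn'.2 ⟨mem_erase.2 ⟨h6, h5⟩, h4⟩, h7⟩
    have h3 : ((lightIn Z f (lineSet U Γ)).card : ℝ) ≤ ((LU.bipartiteAbove r Γ).card : ℝ) := by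
      exact_mod_cast card_le_card hsub
    linarith
  have h2 : ∀ u ∈ LU, ((T.bipartiteBelow r u).card : ℝ) ≤ Q := by
    intro u hu
    obtain ⟨h3, h4⟩ := mem_lightIn'.1 hu
    have hu0 : u ≠ 0 := (mem_erase.1 h3).1
    apply count_J_gen hd f y hf hy hy0 j F' hF' hF'0 u hu0 h4
    intro Γ hΓ
    obtain ⟨hΓ1, hΓ2⟩ := mem_filter.1 hΓ
    obtain ⟨h5, h6, h7, h8⟩ := hT Γ hΓ1
    exact ⟨h5, h6, hΓ2, by linarith⟩
  have h3 : ∑ Γ ∈ T, ((LU.bipartiteAbove r Γ).card : ℝ) =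
      ∑ u ∈ LU, ((T.bipartiteBelow r u).card : ℝ) := by
    exact_mod_cast hcount
  have h4 : (LU.card : ℝ) ≤ (U.card : ℝ) := by
    have h5 : LU ⊆ U := fun u hu => mem_of_mem_erase (mem_lightIn'.1 hu).1
    exact_mod_cast card_le_card h5
  calc ∑ Γ ∈ T, ((lineSet U Γ).card : ℝ) ≤ _ := h1
    _ = 4 * ∑ u ∈ LU, ((T.bipartiteBelow r u).card : ℝ) := by rw [h3]
    _ ≤ 4 * ∑ _u ∈ LU, Q := by
        apply mul_le_mul_of_nonneg_left (sum_le_sum h2) (by norm_num)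
    _ = 4 * ((LU.card : ℝ) * Q) := by rw [sum_const, nsmul_eq_mul]
    _ ≤ 4 * ((U.card : ℝ) * Q) := by gcongr

/-- The sum over subspaces carrying a rich line. -/
theorem sum_D_gen {B : Finset V} {K : ℝ} (hd : Doubling B K) (y : ℝ) (hy0 : 0 < y) (j : ℕ)
    (T : Finset (Submodule ℝ V))
    (hT : ∀ Γ ∈ T, finrank ℝ Γ = j + 2 ∧ Submodule.span ℝ (lineSet (B - B) Γ : Set V) = Γ ∧
      y ≤ ((lineSet (B - B) Γ).card : ℝ) ∧ ∃ v ∈ lineSet (B - B) Γ,
        ((lineSet (B - B) Γ).card : ℝ) / 4 ≤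
          ((lineSet (B - B) (Submodule.span ℝ {v})).card : ℝ)) :
    ∑ Γ ∈ T, ((lineSet (B - B) Γ).card : ℝ) ≤
      (1 + 64 * (K ^ 4 * B.card) / y ^ 2) *
        (4 * (K ^ 4 * B.card) * (4 * (K ^ 4 * B.card) / y) ^ j) := by
  classical
  set U := B - B with hU
  set X : ℝ := K ^ 4 * B.card with hX
  have hK1 := hd.one_le
  have hX0 : 0 ≤ X := by positivity
  set R := (spanLines U).filter (fun l => y / 4 ≤ ((lineSet U l).card : ℝ)) with hR
  have hy4 : 0 < y / 4 := by positivity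
  have hRcard : (R.card : ℝ) ≤ 1 + 64 * X / y ^ 2 := by
    have h1 := rich_filter_card_le U (sub_self_neg_mem B) (spanLines U) spanLines_line (y / 4) hy4
    have h2 := hd.card_Z
    have h3 : 4 * ((U + U).card : ℝ) / (y / 4) ^ 2 ≤ 64 * X / y ^ 2 := by
      rw [show (y / 4) ^ 2 = y ^ 2 / 16 by ring, div_div_eq_mul_div]
      rw [show 4 * ((U + U).card : ℝ) * 16 = 64 * ((U + U).card : ℝ) by ring]
      gcongr
    linarith
  have hch : ∀ Γ ∈ T, ∃ l ∈ R, l ≤ Γ ∧ ((lineSet U Γ).card : ℝ) / 4 ≤ ((lineSet U l).card : ℝ) := by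
    intro Γ hΓ
    obtain ⟨_, _, h3, v, hv, h4⟩ := hT Γ hΓ
    obtain ⟨hv1, hv2, hv3⟩ := mem_lineSet.1 hv
    refine ⟨Submodule.span ℝ {v}, mem_filter.2 ⟨mem_spanLines.2 ⟨v, hv1, hv2, rfl⟩, by linarith⟩,
      (Submodule.span_singleton_le_iff_mem v Γ).2 hv3, h4⟩
  choose! ℓ hℓ1 hℓ2 hℓ3 using hch
  have hfib := sum_fiberwise_of_maps_to hℓ1 (fun Γ => ((lineSet U Γ).card : ℝ))
  rw [← hfib]
  have hbound : ∀ l ∈ R, ∑ Γ ∈ T.filter (fun Γ => ℓ Γ = l), ((lineSet U Γ).card : ℝ) ≤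
      4 * X * (4 * X / y) ^ j := by
    intro l hl
    obtain ⟨hl1, hl2⟩ := mem_filter.1 hl
    obtain ⟨w, _, hw0, rfl⟩ := mem_spanLines.1 hl1
    set l := Submodule.span ℝ {w} with hldef
    set a : ℝ := ((lineSet U l).card : ℝ) with ha
    have ha0 : 0 < a := by linarith
    have hlfr : finrank ℝ l = 1 := finrank_span_single hw0
    have hcardT : ((T.filter (fun Γ => ℓ Γ = l)).card : ℝ) ≤ (levels U l : ℝ) ^ (j + 1) := by
      have := card_through_le U l (T.filter (fun Γ => ℓ Γ = l)) (j + 1) (by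
        intro Γ hΓ
        obtain ⟨h1, h2⟩ := mem_filter.1 hΓ
        obtain ⟨h3, h4, _, _⟩ := hT Γ h1
        refine ⟨?_, ?_, h4⟩
        · rw [← h2]; exact hℓ2 Γ h1
        · rw [h3, hlfr]; ring)
      exact_mod_cast this
    have hlev : (levels U l : ℝ) * a ≤ X := by
      have h1 := levels_mul_card_le U (lineSet U l) l (fun a ha b hb =>
        l.sub_mem (mem_lineSet.1 ha).2.2 (mem_lineSet.1 hb).2.2)
      have h2 : U + lineSet U l ⊆ U + U :=
        add_subset_add_left (fun x hx => (mem_lineSet.1 hx).1)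
      have h3 : (levels U l : ℝ) * a ≤ ((U + U).card : ℝ) := by
        rw [ha]
        exact_mod_cast h1.trans (card_le_card h2)
      exact h3.trans hd.card_Z
    have hlev2 : (levels U l : ℝ) ≤ 4 * X / y := by
      rw [le_div_iff₀ hy0]
      have h1 : (levels U l : ℝ) * (y / 4) ≤ (levels U l : ℝ) * a :=
        mul_le_mul_of_nonneg_left hl2 (by positivity)
      linarith
    calc ∑ Γ ∈ T.filter (fun Γ => ℓ Γ = l), ((lineSet U Γ).card : ℝ)
        ≤ ∑ _Γ ∈ T.filter (fun Γ => ℓ Γ = l), (4 * a) := by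
          apply sum_le_sum
          intro Γ hΓ
          obtain ⟨h1, h2⟩ := mem_filter.1 hΓ
          have h3 := hℓ3 Γ h1
          rw [h2] at h3
          linarith
      _ = ((T.filter (fun Γ => ℓ Γ = l)).card : ℝ) * (4 * a) := by
          rw [sum_const, nsmul_eq_mul]
      _ ≤ (levels U l : ℝ) ^ (j + 1) * (4 * a) := by gcongr
      _ = 4 * ((levels U l : ℝ) * a) * (levels U l : ℝ) ^ j := by ring
      _ ≤ 4 * X * (4 * X / y) ^ j := by gcongr
  calc ∑ l ∈ R, ∑ Γ ∈ T.filter (fun Γ => ℓ Γ = l), ((lineSet U Γ).card : ℝ)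
      ≤ ∑ _l ∈ R, (4 * X * (4 * X / y) ^ j) := sum_le_sum hbound
    _ = (R.card : ℝ) * (4 * X * (4 * X / y) ^ j) := by rw [sum_const, nsmul_eq_mul]
    _ ≤ _ := by gcongr

/-- The sum when the richness threshold is small. -/
theorem sum_small_gen {B : Finset V} (j : ℕ) (T : Finset (Submodule ℝ V))
    (hT : ∀ Γ ∈ T, finrank ℝ Γ = j + 2 ∧ Submodule.span ℝ (lineSet (B - B) Γ : Set V) = Γ) :
    ∑ Γ ∈ T, ((lineSet (B - B) Γ).card : ℝ) ≤ ((B - B).card : ℝ) ^ (j + 2) := by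
  classical
  set U := B - B with hU
  set r : Submodule ℝ V → V → Prop := fun Γ u => u ∈ Γ with hr
  have hcount := sum_card_bipartiteAbove_eq_sum_card_bipartiteBelow (s := T) (t := U.erase 0) r
  have h1 : ∀ Γ, lineSet U Γ = (U.erase 0).bipartiteAbove r Γ := by
    intro Γ
    ext x
    rw [mem_lineSet]
    simp only [bipartiteAbove, mem_filter, mem_erase, hr]
    tauto
  have h2 : ∀ u ∈ U.erase 0, ((T.bipartiteBelow r u).card : ℝ) ≤ (U.card : ℝ) ^ (j + 1) := by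
    intro u hu
    have hu0 : u ≠ 0 := (mem_erase.1 hu).1
    have h3 := card_through_le U (Submodule.span ℝ {u}) (T.bipartiteBelow r u) (j + 1) (by
      intro Γ hΓ
      obtain ⟨h4, h5⟩ := mem_filter.1 hΓ
      obtain ⟨h6, h7⟩ := hT Γ h4
      refine ⟨(Submodule.span_singleton_le_iff_mem u Γ).2 h5, ?_, h7⟩
      rw [h6, finrank_span_single hu0]
      ring)
    have h4 : levels U (Submodule.span ℝ {u}) ≤ U.card := by
      classical
      rw [levels_eq]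
      exact card_image_le
    have h5 : ((T.bipartiteBelow r u).card : ℝ) ≤ (levels U (Submodule.span ℝ {u}) : ℝ) ^ (j + 1) := by
      exact_mod_cast h3
    refine h5.trans ?_
    have h6 : (levels U (Submodule.span ℝ {u}) : ℝ) ≤ (U.card : ℝ) := by exact_mod_cast h4
    gcongr
  have h3 : ∑ Γ ∈ T, ((lineSet U Γ).card : ℝ) =
      ∑ u ∈ U.erase 0, ((T.bipartiteBelow r u).card : ℝ) := by
    simp only [h1]
    exact_mod_cast hcount
  rw [h3]
  calc ∑ u ∈ U.erase 0, ((T.bipartiteBelow r u).card : ℝ)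
      ≤ ∑ _u ∈ U.erase 0, (U.card : ℝ) ^ (j + 1) := sum_le_sum h2
    _ = ((U.erase 0).card : ℝ) * (U.card : ℝ) ^ (j + 1) := by rw [sum_const, nsmul_eq_mul]
    _ ≤ (U.card : ℝ) * (U.card : ℝ) ^ (j + 1) := by
        gcongr
        exact erase_subset _ _
    _ = _ := by ring

/-- The constant produced by one step. -/
noncomputable def stepF (j : ℕ) (F' : ℝ → ℝ) (K : ℝ) : ℝ :=
  4 * K ^ 2 * F' (K ^ 3) * (8 * (64 * K ^ 9 + 1)) ^ (j + 2) + 256 * K ^ 8 * (4 * K ^ 4) ^ j +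
    (8 * (64 * K ^ 9) * K ^ 2) ^ (j + 2)

lemma stepF_poly (j : ℕ) {F' : ℝ → ℝ} (h : PolyK F') : PolyK (stepF j F') := by
  have c : ∀ a : ℝ, 1 ≤ a → PolyK (fun _ => a) := PolyK.cst
  have p := PolyK.pow_id
  exact (((((c 4 (by norm_num)).mul (p 2)).mul h.comp3).mul
    (((c 8 (by norm_num)).mul (((c 64 (by norm_num)).mul (p 9)).add (c 1 (by norm_num)))).npow (j + 2))).add
    (((c 256 (by norm_num)).mul (p 8)).mul (((c 4 (by norm_num)).mul (p 4)).npow j))).add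
    ((((c 8 (by norm_num)).mul ((c 64 (by norm_num)).mul (p 9))).mul (p 2)).npow (j + 2))

lemma arith_gW (g y t : ℝ) (hy : 0 < y) (j : ℕ) :
    g * (g / y) ^ j * (1 + t) = y * (g / y) ^ (j + 1) * (1 + t) := by
  rw [pow_succ]
  have : y * (g / y) = g := by field_simp
  calc g * (g / y) ^ j * (1 + t) = (y * (g / y)) * (g / y) ^ j * (1 + t) := by rw [this]
    _ = _ := by ring

lemma arith_small (K f g y Uc : ℝ) (hK : 1 ≤ K) (hf : 0 ≤ f) (hg : 0 < g) (hy : 0 < y)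
    (hcase : y < 8 * f) (hU : Uc ≤ K ^ 2 * g) (hU0 : 0 ≤ Uc) (j : ℕ) :
    Uc ^ (j + 2) ≤ (8 * f * K ^ 2) ^ (j + 2) * (y * (g / y) ^ (j + 1) * (1 + g / y ^ 2)) := by
  have hK0 : 0 < K := by linarith
  have h3 : K ^ 2 * g ≤ (8 * f * K ^ 2) * (g / y) := by
    rw [mul_div_assoc', le_div_iff₀ hy]
    have h4 : 0 ≤ K ^ 2 * g := by positivity
    nlinarith
  have h4 : Uc ^ (j + 2) ≤ (8 * f * K ^ 2) ^ (j + 2) * (g / y) ^ (j + 2) := by
    rw [← mul_pow]
    gcongr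
    exact hU.trans h3
  have h5 : (g / y) ^ (j + 2) ≤ y * (g / y) ^ (j + 1) * (1 + g / y ^ 2) := by
    have h6 : y * (g / y) ^ (j + 1) * (g / y ^ 2) = (g / y) ^ (j + 2) := by
      rw [pow_succ (g / y) (j + 1)]
      field_simp
    have h7 : 0 ≤ y * (g / y) ^ (j + 1) := by positivity
    rw [← h6]
    nlinarith
  refine h4.trans (mul_le_mul_of_nonneg_left h5 (by positivity))

lemma arith_L (K F lam g y Uc : ℝ) (hK : 1 ≤ K) (hF : 0 ≤ F) (hlam : 1 ≤ lam) (hg : 0 < g)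
    (hy : 0 < y) (hU : Uc ≤ K ^ 2 * g) (hU0 : 0 ≤ Uc) (j : ℕ) :
    4 * (Uc * (F * (g / (y / lam)) ^ j * (1 + g / (y / lam) ^ 2))) ≤
      (4 * K ^ 2 * F * lam ^ (j + 2)) * (y * (g / y) ^ (j + 1) * (1 + g / y ^ 2)) := by
  have hK0 : 0 < K := by linarith
  have hlam0 : 0 < lam := by linarith
  have e1 : g / (y / lam) = lam * (g / y) := by field_simp
  have e2 : g / (y / lam) ^ 2 = lam ^ 2 * (g / y ^ 2) := by field_simp
  have ht0 : 0 ≤ g / y ^ 2 := by positivity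
  have h2 : 1 + lam ^ 2 * (g / y ^ 2) ≤ lam ^ 2 * (1 + g / y ^ 2) := by
    have : 1 ≤ lam ^ 2 := one_le_pow₀ hlam
    nlinarith
  rw [e1, e2, ← arith_gW g y (g / y ^ 2) hy j]
  calc 4 * (Uc * (F * (lam * (g / y)) ^ j * (1 + lam ^ 2 * (g / y ^ 2))))
      ≤ 4 * ((K ^ 2 * g) * (F * (lam * (g / y)) ^ j * (lam ^ 2 * (1 + g / y ^ 2)))) := by
        gcongr
    _ = _ := by rw [mul_pow]; ring

lemma arith_D (K g y : ℝ) (hK : 1 ≤ K) (hg : 0 < g) (hy : 0 < y) (j : ℕ) :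
    (1 + 64 * (K ^ 4 * g) / y ^ 2) * (4 * (K ^ 4 * g) * (4 * (K ^ 4 * g) / y) ^ j) ≤
      (256 * K ^ 8 * (4 * K ^ 4) ^ j) * (y * (g / y) ^ (j + 1) * (1 + g / y ^ 2)) := by
  have hK0 : 0 < K := by linarith
  have e1 : 4 * (K ^ 4 * g) / y = 4 * K ^ 4 * (g / y) := by ring
  have e2 : 64 * (K ^ 4 * g) / y ^ 2 = 64 * K ^ 4 * (g / y ^ 2) := by ring
  have ht0 : 0 ≤ g / y ^ 2 := by positivity
  have h1 : 1 + 64 * K ^ 4 * (g / y ^ 2) ≤ 64 * K ^ 4 * (1 + g / y ^ 2) := by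
    have : 1 ≤ K ^ 4 := one_le_pow₀ hK
    nlinarith
  rw [e1, e2, ← arith_gW g y (g / y ^ 2) hy j]
  calc (1 + 64 * K ^ 4 * (g / y ^ 2)) * (4 * (K ^ 4 * g) * (4 * K ^ 4 * (g / y)) ^ j)
      ≤ (64 * K ^ 4 * (1 + g / y ^ 2)) * (4 * (K ^ 4 * g) * (4 * K ^ 4 * (g / y)) ^ j) := by
        gcongr
    _ = _ := by rw [mul_pow]; ring

theorem fs_step (j : ℕ) (F' : ℝ → ℝ) (hF' : FC (j + 1) F') (hpos : ∀ K : ℝ, 1 ≤ K → 0 ≤ F' K) :
    FS j (stepF j F') := by
  intro V _ _ _ _ B K y hd hy T hT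
  have hK1 := hd.one_le
  have hK0 : 0 < K := by linarith
  have hg0 : (0 : ℝ) < (B.card : ℝ) := hd.card_pos
  have hW0 : 0 ≤ y * ((B.card : ℝ) / y) ^ (j + 1) * (1 + (B.card : ℝ) / y ^ 2) := by positivity
  have hK9 : 1 ≤ K ^ 9 := one_le_pow₀ hK1
  have hf64 : 64 ≤ 64 * K ^ 9 := by linarith
  have hlam1 : 1 ≤ 8 * (64 * K ^ 9 + 1) := by linarith
  have hFp : 0 ≤ F' (K ^ 3) := hpos _ (one_le_pow₀ hK1)
  have hA1 : 0 ≤ 4 * K ^ 2 * F' (K ^ 3) * (8 * (64 * K ^ 9 + 1)) ^ (j + 2) := by positivity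
  have hA2 : 0 ≤ 256 * K ^ 8 * (4 * K ^ 4) ^ j := by positivity
  have hA3 : 0 ≤ (8 * (64 * K ^ 9) * K ^ 2) ^ (j + 2) := by positivity
  have hU0 : (0 : ℝ) ≤ ((B - B).card : ℝ) := by positivity
  unfold stepF
  rw [add_mul, add_mul]
  have p1 := mul_nonneg hA1 hW0
  have p2 := mul_nonneg hA2 hW0
  have p3 := mul_nonneg hA3 hW0
  by_cases hcase : y < 8 * (64 * K ^ 9)
  · have h1 := sum_small_gen (B := B) j T (fun Γ hΓ => ⟨(hT Γ hΓ).1, (hT Γ hΓ).2.1⟩)
    have h2 := arith_small K (64 * K ^ 9) (B.card : ℝ) y ((B - B).card : ℝ) hK1 (by linarith) hg0 hy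
      hcase hd.card_sub hU0 j
    linarith
  · push Not at hcase
    classical
    have hsplit := (sum_filter_add_sum_filter_not T (fun Γ => ((lineSet (B - B) Γ).card : ℝ) / 4 ≤
      ((lightIn ((B - B) + (B - B)) (64 * K ^ 9) (lineSet (B - B) Γ)).card : ℝ))
      (fun Γ => ((lineSet (B - B) Γ).card : ℝ))).symm
    have hL := sum_L_gen hd (64 * K ^ 9) y (by linarith) hcase hy j F' hF' hFp
      (T.filter (fun Γ => ((lineSet (B - B) Γ).card : ℝ) / 4 ≤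
      ((lightIn ((B - B) + (B - B)) (64 * K ^ 9) (lineSet (B - B) Γ)).card : ℝ))) (by
      intro Γ hΓ
      obtain ⟨h1, h2⟩ := mem_filter.1 hΓ
      obtain ⟨h3, h4, h5⟩ := hT Γ h1
      exact ⟨h3, h4, h5, h2⟩)
    have hD := sum_D_gen hd y hy j
      (T.filter (fun Γ => ¬ ((lineSet (B - B) Γ).card : ℝ) / 4 ≤
      ((lightIn ((B - B) + (B - B)) (64 * K ^ 9) (lineSet (B - B) Γ)).card : ℝ))) (by
      intro Γ hΓ
      obtain ⟨h1, h2⟩ := mem_filter.1 hΓ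
      obtain ⟨h3, h4, h5⟩ := hT Γ h1
      refine ⟨h3, h4, h5, ?_⟩
      have h6 : 1 ≤ (lineSet (B - B) Γ).card := by
        have : (1 : ℝ) ≤ ((lineSet (B - B) Γ).card : ℝ) := by linarith
        exact_mod_cast this
      rcases dichotomy hd.dbl Γ h6 with h7 | h7
      · exact absurd h7 h2
      · exact h7)
    have hL2 := arith_L K (F' (K ^ 3)) (8 * (64 * K ^ 9 + 1)) (B.card : ℝ) y ((B - B).card : ℝ) hK1
      hFp hlam1 hg0 hy hd.card_sub hU0 j
    have hD2 := arith_D K (B.card : ℝ) y hK1 hg0 hy j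
    rw [hsplit]
    linarith

lemma fc_of_fs {j : ℕ} {F : ℝ → ℝ} (h : FS j F) : FC (j + 2) F := by
  intro V _ _ _ _ B K y hd hy T hT
  have h1 := h V B K y hd hy T hT
  have h2 : (T.card : ℝ) * y ≤ ∑ Γ ∈ T, ((lineSet (B - B) Γ).card : ℝ) := by
    rw [← nsmul_eq_mul, ← sum_const]
    exact sum_le_sum (fun Γ hΓ => (hT Γ hΓ).2.2)
  have h3 : (T.card : ℝ) * y ≤ (F K * (((B.card : ℝ) / y) ^ (j + 1) *
      (1 + (B.card : ℝ) / y ^ 2))) * y := by
    calc _ ≤ _ := h2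
      _ ≤ _ := h1
      _ = _ := by ring
  have h4 := le_of_mul_le_mul_right h3 hy
  simp only [show j + 2 - 1 = j + 1 by omega]
  linarith

/-- All the counting bounds up to a given dimension with one polynomial constant. -/
theorem flat_all (s : ℕ) : ∃ F : ℝ → ℝ, PolyK F ∧ (∀ j ≤ s, FC (j + 1) F) ∧ ∀ j < s, FS j F := by
  induction s with
  | zero =>
    refine ⟨fun K => 4 * K ^ 4, ?_, ?_, ?_⟩
    · exact (PolyK.cst 4 (by norm_num)).mul (PolyK.pow_id 4)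
    · intro j hj
      obtain rfl : j = 0 := by omega
      exact fc_one
    · intro j hj
      omega
  | succ s ih =>
    obtain ⟨F, hF, h1, h2⟩ := ih
    have hstep := stepF_poly s hF
    have hpos : ∀ K : ℝ, 1 ≤ K → 0 ≤ F K := fun K hK => by linarith [hF.2 K hK]
    have hs := fs_step s F (h1 s (le_refl s)) hpos
    have hle1 : ∀ K, 1 ≤ K → F K ≤ F K + stepF s F K := fun K hK => by
      linarith [hstep.2 K hK]
    have hle2 : ∀ K, 1 ≤ K → stepF s F K ≤ F K + stepF s F K := fun K hK => by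
      linarith [hF.2 K hK]
    refine ⟨fun K => F K + stepF s F K, hF.add hstep, ?_, ?_⟩
    · intro j hj
      by_cases hjs : j ≤ s
      · exact (h1 j hjs).mono hle1
      · obtain rfl : j = s + 1 := by omega
        exact (fc_of_fs hs).mono hle2
    · intro j hj
      by_cases hjs : j < s
      · exact (h2 j hjs).mono hle1
      · obtain rfl : j = s := by omega
        exact hs.mono hle2

end Flats

end Vale.Agent.Lib.P054
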