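import Vale.Agent.Lib.P054.Gen1

/-!
# Hyperplane families spanned by differences: cutting by cosets, comparison with slices
-/

open scoped Pointwise
open Finset
open Module (finrank)

namespace Vale.Agent.Lib.P054

set_option linter.unusedSectionVars false
set_option linter.style.haveILetI false

section Cut

variable {V : Type*} [AddCommGroup V] [Module ℝ V] [DecidableEq V] [FiniteDimensional ℝ V]

/-- Cutting a set by the cosets of the members of a family of subspaces. -/
theorem list_lemma (U : Finset V) (hsym : ∀ a ∈ U, -a ∈ U) (G : Finset (Submodule ℝ V)) (m : ℝ)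
    (hm : 1 ≤ m) (hlev : ∀ H ∈ G, (levels U H : ℝ) ≤ m) :
    ∀ (r : ℕ) (Ξ : Submodule ℝ V) (S : Finset V), finrank ℝ Ξ ≤ r → S ⊆ U →
      (∀ a ∈ S, ∀ b ∈ S, a - b ∈ Ξ) →
      (S.card : ℝ) ≤ m ^ (finrank ℝ Ξ - finrank ℝ (Ξ ⊓ G.inf id : Submodule ℝ V)) *
        ((partIn (U + U) (Ξ ⊓ G.inf id)).card : ℝ) := by
  classical
  have hm0 : 0 < m := by linarith
  intro r
  induction r with
  | zero =>
    intro Ξ S hr hSU hd
    have h0 : Ξ = ⊥ := by
      have : finrank ℝ Ξ = 0 := by omega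
      exact Submodule.finrank_eq_zero.1 this
    subst h0
    have hS : S.card ≤ (partIn (U + U) ((⊥ : Submodule ℝ V) ⊓ G.inf id)).card := by
      rw [bot_inf_eq]
      refine (card_le_partIn_sub (Subset.refl S) hd).trans (card_le_card ?_)
      intro x hx
      obtain ⟨h1, h2⟩ := mem_partIn.1 hx
      refine mem_partIn.2 ⟨?_, h2⟩
      obtain ⟨a, ha, b, hb, rfl⟩ := mem_sub.1 h1
      rw [sub_eq_add_neg]
      exact add_mem_add (hSU ha) (hsym _ (hSU hb))
    have h1 : (S.card : ℝ) ≤ ((partIn (U + U) ((⊥ : Submodule ℝ V) ⊓ G.inf id)).card : ℝ) := by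
      exact_mod_cast hS
    have h2 : finrank ℝ (⊥ : Submodule ℝ V) - finrank ℝ ((⊥ : Submodule ℝ V) ⊓ G.inf id : Submodule ℝ V) = 0 := by
      rw [bot_inf_eq]; omega
    rw [h2, pow_zero, one_mul]
    exact h1
  | succ r ih =>
    intro Ξ S hr hSU hd
    by_cases hΞ : Ξ ≤ G.inf id
    · have h1 : Ξ ⊓ G.inf id = Ξ := inf_eq_left.2 hΞ
      rw [h1]
      simp only [Nat.sub_self, pow_zero, one_mul]
      have hS : S.card ≤ (partIn (U + U) Ξ).card := by
        refine (card_le_partIn_sub (Subset.refl S) hd).trans (card_le_card ?_)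
        intro x hx
        obtain ⟨h2, h3⟩ := mem_partIn.1 hx
        refine mem_partIn.2 ⟨?_, h3⟩
        obtain ⟨a, ha, b, hb, rfl⟩ := mem_sub.1 h2
        rw [sub_eq_add_neg]
        exact add_mem_add (hSU ha) (hsym _ (hSU hb))
      exact_mod_cast hS
    · have hex : ∃ H ∈ G, ¬ Ξ ≤ H := by
        by_contra hcon
        push Not at hcon
        exact hΞ (Finset.le_inf hcon)
      obtain ⟨H, hH, hΞH⟩ := hex
      have hlt : Ξ ⊓ H < Ξ := inf_lt_left.2 hΞH
      have hfr : finrank ℝ (Ξ ⊓ H : Submodule ℝ V) < finrank ℝ Ξ :=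
        Submodule.finrank_lt_finrank_of_lt hlt
      have hinf : (Ξ ⊓ H) ⊓ G.inf id = Ξ ⊓ G.inf id := by
        have hle : G.inf id ≤ H := Finset.inf_le (f := id) hH
        rw [inf_assoc, inf_eq_right.2 hle]
      have hj : finrank ℝ (Ξ ⊓ G.inf id : Submodule ℝ V) ≤ finrank ℝ (Ξ ⊓ H : Submodule ℝ V) := by
        rw [← hinf]
        exact Submodule.finrank_mono inf_le_left
      set R : ℝ := ((partIn (U + U) (Ξ ⊓ G.inf id)).card : ℝ) with hR
      have hR0 : 0 ≤ R := by positivity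
      have hfib : ∀ z ∈ S.image H.mkQ, (((S.filter (fun a => H.mkQ a = z)).card : ℕ) : ℝ) ≤
          m ^ (finrank ℝ (Ξ ⊓ H : Submodule ℝ V) - finrank ℝ (Ξ ⊓ G.inf id : Submodule ℝ V)) * R := by
        intro z _
        have h1 := ih (Ξ ⊓ H) (S.filter (fun a => H.mkQ a = z)) (by omega)
          ((filter_subset _ _).trans hSU) (by
            intro a ha b hb
            obtain ⟨ha1, ha2⟩ := mem_filter.1 ha
            obtain ⟨hb1, hb2⟩ := mem_filter.1 hb
            exact ⟨hd a ha1 b hb1, mkQ_eq_iff.1 (ha2.trans hb2.symm)⟩)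
        rw [hinf] at h1
        exact h1
      have h2 : (S.card : ℝ) = ∑ z ∈ S.image H.mkQ, ((S.filter (fun a => H.mkQ a = z)).card : ℝ) := by
        rw [card_eq_sum_card_image H.mkQ S]
        push_cast
        rfl
      have h3 : ((S.image H.mkQ).card : ℝ) ≤ m := by
        have h4 : (S.image H.mkQ).card ≤ levels U H := by
          rw [levels_eq]
          exact card_le_card (image_subset_image hSU)
        have h5 : ((S.image H.mkQ).card : ℝ) ≤ (levels U H : ℝ) := by exact_mod_cast h4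
        exact h5.trans (hlev H hH)
      set e' := finrank ℝ (Ξ ⊓ H : Submodule ℝ V) - finrank ℝ (Ξ ⊓ G.inf id : Submodule ℝ V) with he'
      set e := finrank ℝ Ξ - finrank ℝ (Ξ ⊓ G.inf id : Submodule ℝ V) with he
      have hee : e' + 1 ≤ e := by omega
      calc (S.card : ℝ) = _ := h2
        _ ≤ ∑ _z ∈ S.image H.mkQ, (m ^ e' * R) := sum_le_sum hfib
        _ = ((S.image H.mkQ).card : ℝ) * (m ^ e' * R) := by rw [sum_const, nsmul_eq_mul]
        _ ≤ m * (m ^ e' * R) := by gcongr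
        _ = m ^ (e' + 1) * R := by ring
        _ ≤ m ^ e * R := by
            gcongr

/-- If the family has trivial intersection then each subspace contains few differences. -/
theorem partIn_le_pow (U : Finset V) (hsym : ∀ a ∈ U, -a ∈ U) (G : Finset (Submodule ℝ V)) (m : ℝ)
    (hm : 1 ≤ m) (hlev : ∀ H ∈ G, (levels U H : ℝ) ≤ m) (hbot : G.inf id = ⊥) (Ξ : Submodule ℝ V) :
    ((partIn U Ξ).card : ℝ) ≤ m ^ finrank ℝ Ξ := by
  classical
  have h1 := list_lemma U hsym G m hm hlev (finrank ℝ Ξ) Ξ (partIn U Ξ) (le_refl _)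
    (fun x hx => (mem_partIn.1 hx).1)
    (fun a ha b hb => Ξ.sub_mem (mem_partIn.1 ha).2 (mem_partIn.1 hb).2)
  rw [hbot, inf_bot_eq] at h1
  have h2 : ((partIn (U + U) (⊥ : Submodule ℝ V)).card : ℝ) ≤ 1 := by
    have h3 : partIn (U + U) (⊥ : Submodule ℝ V) ⊆ {0} := by
      intro x hx
      have := (mem_partIn.1 hx).2
      rw [Submodule.mem_bot] at this
      exact mem_singleton.2 this
    have h4 := card_le_card h3
    rw [card_singleton] at h4
    exact_mod_cast h4
  have h3 : finrank ℝ Ξ - finrank ℝ (⊥ : Submodule ℝ V) = finrank ℝ Ξ := by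
    rw [finrank_bot]; omega
  rw [h3] at h1
  have hm0 : 0 ≤ m ^ finrank ℝ Ξ := by positivity
  calc _ ≤ _ := h1
    _ ≤ m ^ finrank ℝ Ξ * 1 := mul_le_mul_of_nonneg_left h2 hm0
    _ = _ := mul_one _

/-- Differences in a subspace of a slice direction are comparable with those of the slice. -/
theorem compare_slice {B F : Finset V} {K : ℝ} (hd : Doubling B K) {P : Submodule ℝ V}
    (hFB : F ⊆ B) (hFne : F.Nonempty) (hdF : ∀ a ∈ F, ∀ b ∈ F, a - b ∈ P)
    (hc : B.card ≤ F.card * levels B P) {Ξ : Submodule ℝ V} (hΞ : Ξ ≤ P) :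
    ((partIn ((B - B) + (B - B)) Ξ).card : ℝ) ≤ K ^ 6 * ((partIn (F - F) Ξ).card : ℝ) := by
  classical
  set Z := (B - B) + (B - B) with hZ
  set Y := partIn Z P with hY
  have hK1 := hd.one_le
  have hL : (0 : ℝ) < levels B P := by exact_mod_cast levels_pos hd.ne P
  have hF0 : (0 : ℝ) < F.card := by exact_mod_cast Finset.card_pos.2 hFne
  have h1 := covering Y F Ξ
  have h2 : partIn Z Ξ ⊆ partIn Y Ξ := by
    intro x hx
    obtain ⟨h3, h4⟩ := mem_partIn.1 hx
    exact mem_partIn.2 ⟨mem_partIn.2 ⟨h3, hΞ h4⟩, h4⟩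
  have hYF : (((Y + F).card : ℕ) : ℝ) ≤ K ^ 6 * F.card := by
    have hd2 : ∀ a ∈ Y + F, ∀ b ∈ Y + F, a - b ∈ P := by
      intro a ha b hb
      obtain ⟨a1, ha1, a2, ha2, rfl⟩ := mem_add.1 ha
      obtain ⟨b1, hb1, b2, hb2, rfl⟩ := mem_add.1 hb
      have : a1 + a2 - (b1 + b2) = (a1 - b1) + (a2 - b2) := by abel
      rw [this]
      exact P.add_mem (P.sub_mem (mem_partIn.1 ha1).2 (mem_partIn.1 hb1).2) (hdF _ ha2 _ hb2)
    have h3 : (levels B P : ℝ) * ((Y + F).card : ℝ) ≤ ((B + (Y + F)).card : ℝ) := by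
      exact_mod_cast levels_mul_card_le B (Y + F) P hd2
    have h4 : ((B + (Y + F)).card : ℝ) ≤ ((Z + (B + B)).card : ℝ) := by
      have h5 : B + (Y + F) ⊆ Z + (B + B) := by
        intro x hx
        obtain ⟨a, ha, y, hy, rfl⟩ := mem_add.1 hx
        obtain ⟨b, hb, c, hc', rfl⟩ := mem_add.1 hy
        have : a + (b + c) = b + (a + c) := by abel
        rw [this]
        exact add_mem_add (mem_partIn.1 hb).1 (add_mem_add ha (hFB hc'))
      exact_mod_cast card_le_card h5
    have h5 : (B.card : ℝ) ≤ F.card * levels B P := by exact_mod_cast hc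
    have hK6 : (0 : ℝ) ≤ K ^ 6 := by positivity
    have h6 : (levels B P : ℝ) * ((Y + F).card : ℝ) ≤ (levels B P : ℝ) * (K ^ 6 * F.card) := by
      calc _ ≤ _ := h3
        _ ≤ _ := h4
        _ ≤ K ^ 6 * B.card := hd.card_ZBB
        _ ≤ K ^ 6 * (F.card * levels B P) := mul_le_mul_of_nonneg_left h5 hK6
        _ = _ := by ring
    exact le_of_mul_le_mul_left h6 hL
  have h3 : ((partIn Z Ξ).card : ℝ) * F.card ≤ ((Y + F).card : ℝ) * ((partIn (F - F) Ξ).card : ℝ) := by
    have h4 : (partIn Z Ξ).card * F.card ≤ (Y + F).card * (partIn (F - F) Ξ).card :=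
      (Nat.mul_le_mul_right _ (card_le_card h2)).trans h1
    exact_mod_cast h4
  have h4 : ((partIn Z Ξ).card : ℝ) * F.card ≤ (K ^ 6 * ((partIn (F - F) Ξ).card : ℝ)) * F.card := by
    calc _ ≤ _ := h3
      _ ≤ (K ^ 6 * F.card) * ((partIn (F - F) Ξ).card : ℝ) := by gcongr
      _ = _ := by ring
  exact le_of_mul_le_mul_right h4 hF0

open scoped Classical in
/-- A family closed under intersection: recovering a member of the closure as an intersection. -/
lemma closed_inf (G S : Finset (Submodule ℝ V)) (hS : S ⊆ G) {H₁ : Submodule ℝ V} (hH₁ : H₁ ∈ G) :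
    (G.filter (fun H => H₁ ⊓ S.inf id ≤ H)).inf id = H₁ ⊓ S.inf id := by
  apply le_antisymm
  · apply le_inf
    · exact Finset.inf_le (f := id) (mem_filter.2 ⟨hH₁, inf_le_left⟩)
    · apply Finset.le_inf
      intro H hH
      exact Finset.inf_le (f := id) (mem_filter.2 ⟨hS hH, inf_le_right.trans (Finset.inf_le (f := id) hH)⟩)
  · apply Finset.le_inf
    intro H hH
    exact (mem_filter.1 hH).2

end Cut

/-- The statement on hyperplane families with trivial intersection. -/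
def TS (s : ℕ) (F : ℝ → ℝ) : Prop :=
  ∀ (V : Type) [AddCommGroup V] [Module ℝ V] [FiniteDimensional ℝ V] [DecidableEq V]
    (B : Finset V) (K M : ℝ), finrank ℝ V = s → Doubling B K → 1 ≤ M →
    ∀ G : Finset (Submodule ℝ V), G.Nonempty →
    (∀ H ∈ G, finrank ℝ H + 1 = s ∧ (levels B H : ℝ) ≤ M ∧
      Submodule.span ℝ (lineSet (B - B) H : Set V) = H) →
    G.inf id = ⊥ → (G.card : ℝ) * B.card ≤ F K * M ^ s

lemma TS.mono {s : ℕ} {F G : ℝ → ℝ} (h : TS s F) (hFG : ∀ K, 1 ≤ K → F K ≤ G K) : TS s G := by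
  intro V _ _ _ _ B K M hV hd hM 𝓖 hne hfam hbot
  refine (h V B K M hV hd hM 𝓖 hne hfam hbot).trans ?_
  have := hFG K hd.one_le
  have hM0 : 0 ≤ M := by linarith
  gcongr

section Family

variable {V : Type} [AddCommGroup V] [Module ℝ V] [FiniteDimensional ℝ V] [DecidableEq V]

/-- One dimension. -/
theorem ts_one : TS 1 (fun _ => 1) := by
  intro V _ _ _ _ B K M hV hd hM G hne hfam hbot
  classical
  have hbotH : ∀ H ∈ G, H = ⊥ := by
    intro H hH
    have h1 := (hfam H hH).1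
    exact Submodule.finrank_eq_zero.1 (by omega)
  have hcard : G.card ≤ 1 := by
    apply card_le_one.2
    intro a ha b hb
    rw [hbotH a ha, hbotH b hb]
  obtain ⟨H, hH⟩ := hne
  have hB : (B.card : ℝ) ≤ M := by
    have h1 := (hfam H hH).2.1
    rw [hbotH H hH] at h1
    have h2 : levels B (⊥ : Submodule ℝ V) = B.card := by
      rw [levels_eq]
      apply card_image_of_injective
      intro x y hxy
      have := mkQ_eq_iff.1 hxy
      rw [Submodule.mem_bot] at this
      exact sub_eq_zero.1 this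
    rw [h2] at h1
    exact h1
  have h1 : (G.card : ℝ) ≤ 1 := by exact_mod_cast hcard
  have hB0 : (0 : ℝ) ≤ B.card := by positivity
  simp only [one_mul, pow_one]
  calc (G.card : ℝ) * B.card ≤ 1 * B.card := by gcongr
    _ ≤ M := by linarith

/-- Reduction to the quotient by the common intersection. -/
theorem T_prime (s : ℕ) (F : ℝ → ℝ) (hF : ∀ s', 1 ≤ s' → s' < s → TS s' F)
    (B : Finset V) (K M : ℝ) (hV : finrank ℝ V = s) (hd : Doubling B K) (hM : 1 ≤ M)
    (G : Finset (Submodule ℝ V)) (hG : G.Nonempty)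
    (hfam : ∀ H ∈ G, finrank ℝ H + 1 = s ∧ (levels B H : ℝ) ≤ M ∧
      Submodule.span ℝ (lineSet (B - B) H : Set V) = H)
    (hj : 1 ≤ finrank ℝ (G.inf id : Submodule ℝ V)) :
    (G.card : ℝ) * B.card ≤ F (K ^ 3) * M ^ (s - finrank ℝ (G.inf id : Submodule ℝ V)) *
      ((partIn (B - B) (G.inf id)).card : ℝ) := by
  classical
  set Γ : Submodule ℝ V := G.inf id with hΓ
  set j := finrank ℝ Γ with hjdef
  set B' := B.image Γ.mkQ with hB'
  have hd' : Doubling B' (K ^ 3) := hd.quot Γ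
  have hU' : B' - B' = (B - B).image Γ.mkQ := (image_sub_linear Γ.mkQ B).symm
  have hΓle : ∀ H ∈ G, Γ ≤ H := fun H hH => Finset.inf_le (f := id) hH
  have hquot : finrank ℝ (V ⧸ Γ) + j = s := by
    rw [← hV]
    exact Γ.finrank_quotient_add_finrank
  obtain ⟨H₀, hH₀⟩ := hG
  have hjs : j + 1 ≤ s := by
    have h1 := (hfam H₀ hH₀).1
    have h2 : j ≤ finrank ℝ H₀ := Submodule.finrank_mono (hΓle H₀ hH₀)
    omega
  have hcard : G.card = (G.image (fun H => H.map Γ.mkQ)).card := by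
    rw [card_image_of_injOn]
    intro H₁ h₁ H₂ h₂ heq
    exact map_mkQ_inj (hΓle _ h₁) (hΓle _ h₂) heq
  have hmain := hF (s - j) (by omega) (by omega) (V ⧸ Γ) B' (K ^ 3) M (by omega) hd' hM
    (G.image (fun H => H.map Γ.mkQ)) ⟨_, mem_image_of_mem _ hH₀⟩ (by
      intro H' hH'
      obtain ⟨H, hH, rfl⟩ := mem_image.1 hH'
      obtain ⟨h1, h2, h3⟩ := hfam H hH
      refine ⟨?_, ?_, ?_⟩
      · have := finrank_map_mkQ (hΓle H hH)
        omega
      · rw [hB', levels_image_map B (hΓle H hH)]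
        exact h2
      · rw [hU']
        exact span_lineSet_map (B - B) Γ h3) (by
      rw [eq_bot_iff]
      intro x hx
      obtain ⟨v, rfl⟩ := Submodule.Quotient.mk_surjective Γ x
      have h1 : ∀ H ∈ G, v ∈ H := by
        intro H hH
        have h2 := (Submodule.mem_finsetInf.1 hx) (H.map Γ.mkQ) (mem_image_of_mem _ hH)
        obtain ⟨w, hw, hw2⟩ := Submodule.mem_map.1 h2
        have h3 : w - v ∈ Γ := mkQ_eq_iff.1 hw2
        have h4 : w - (w - v) ∈ H := H.sub_mem hw (hΓle H hH h3)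
        simpa using h4
      have h2 : v ∈ Γ := by
        rw [hΓ]
        exact Submodule.mem_finsetInf.2 h1
      rw [Submodule.mem_bot]
      exact (Submodule.Quotient.mk_eq_zero Γ).2 h2)
  rw [← hcard] at hmain
  have h1 := card_le_levels_mul_partIn B hd.ne Γ
  have h2 : levels B Γ = B'.card := levels_eq B Γ
  rw [h2] at h1
  have h3 : (B.card : ℝ) ≤ (B'.card : ℝ) * ((partIn (B - B) Γ).card : ℝ) := by
    exact_mod_cast h1
  calc (G.card : ℝ) * B.card ≤ (G.card : ℝ) * ((B'.card : ℝ) * ((partIn (B - B) Γ).card : ℝ)) := by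
        gcongr
    _ = ((G.card : ℝ) * B'.card) * ((partIn (B - B) Γ).card : ℝ) := by ring
    _ ≤ (F (K ^ 3) * M ^ (s - j)) * ((partIn (B - B) Γ).card : ℝ) := by
        gcongr

/-- Every member of the family contains many differences. -/
lemma rich_of_levels {B : Finset V} (hB : B.Nonempty) {H : Submodule ℝ V} {M : ℝ} (hM : 1 ≤ M)
    (hlev : (levels B H : ℝ) ≤ M) (h2 : 2 * M ≤ (B.card : ℝ)) :
    (B.card : ℝ) / (2 * M) ≤ ((lineSet (B - B) H).card : ℝ) := by
  have hM0 : 0 < M := by linarith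
  have h1 := card_le_levels_mul_partIn B hB H
  have h3 : (B.card : ℝ) ≤ (levels B H : ℝ) * ((partIn (B - B) H).card : ℝ) := by
    exact_mod_cast h1
  have h4 : (B.card : ℝ) ≤ M * ((partIn (B - B) H).card : ℝ) :=
    h3.trans (mul_le_mul_of_nonneg_right hlev (by positivity))
  have h5 : ((partIn (B - B) H).card : ℝ) ≤ ((lineSet (B - B) H).card : ℝ) + 1 := by
    exact_mod_cast partIn_card_le (B - B) H
  rw [div_le_iff₀ (by positivity)]
  nlinarith

/-- The case when the set is not large compared with the square of `M`. -/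
theorem T_caseA (r : ℕ) (Ff : ℝ → ℝ) (hFC : FC (r + 1) Ff) (B : Finset V) (K M : ℝ)
    (hd : Doubling B K) (hM : 1 ≤ M) (G : Finset (Submodule ℝ V))
    (hfam : ∀ H ∈ G, finrank ℝ H + 1 = r + 2 ∧ (levels B H : ℝ) ≤ M ∧
      Submodule.span ℝ (lineSet (B - B) H : Set V) = H)
    (hFf : 0 ≤ Ff K) (hsmall : (B.card : ℝ) ≤ (4 * K ^ 3 + 1) * M ^ 2) :
    (G.card : ℝ) * B.card ≤ (2 * (2 * K ^ 2) ^ (r + 1) + Ff K * 2 ^ r * (4 * K ^ 3 + 5)) * M ^ (r + 2) := by
  have hK1 := hd.one_le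
  have hK0 : 0 < K := by linarith
  have hM0 : 0 < M := by linarith
  have hg0 := hd.card_pos
  set g : ℝ := (B.card : ℝ) with hg
  have hA1 : 0 ≤ 2 * (2 * K ^ 2) ^ (r + 1) * M ^ (r + 2) := by positivity
  have hA2 : 0 ≤ Ff K * 2 ^ r * (4 * K ^ 3 + 5) * M ^ (r + 2) := by positivity
  rw [add_mul]
  by_cases hcase : g < 2 * M
  · have h1 := card_through_le (B - B) ⊥ G (r + 1) (by
      intro H hH
      obtain ⟨h1, _, h3⟩ := hfam H hH
      refine ⟨bot_le, ?_, h3⟩
      rw [finrank_bot]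
      omega)
    have h2 : levels (B - B) (⊥ : Submodule ℝ V) ≤ (B - B).card := by
      classical
      rw [levels_eq]
      exact card_image_le
    have h3 : (G.card : ℝ) ≤ (K ^ 2 * g) ^ (r + 1) := by
      have h4 : (G.card : ℝ) ≤ (levels (B - B) (⊥ : Submodule ℝ V) : ℝ) ^ (r + 1) := by
        exact_mod_cast h1
      refine h4.trans ?_
      have h5 : (levels (B - B) (⊥ : Submodule ℝ V) : ℝ) ≤ K ^ 2 * g :=
        le_trans (by exact_mod_cast h2) hd.card_sub
      gcongr
    have h4 : (K ^ 2 * g) ^ (r + 1) ≤ (K ^ 2 * (2 * M)) ^ (r + 1) := by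
      gcongr
    calc (G.card : ℝ) * g ≤ (K ^ 2 * (2 * M)) ^ (r + 1) * (2 * M) := by
          apply mul_le_mul (h3.trans h4) hcase.le (by positivity) (by positivity)
      _ = 2 * (2 * K ^ 2) ^ (r + 1) * M ^ (r + 2) := by
          rw [show (K ^ 2 * (2 * M)) = (2 * K ^ 2) * M by ring, mul_pow]
          ring
      _ ≤ _ := by linarith
  · push Not at hcase
    have hy : 0 < g / (2 * M) := by positivity
    have h1 := hFC V B K (g / (2 * M)) hd hy G (by
      intro H hH
      obtain ⟨h1, h2, h3⟩ := hfam H hH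
      exact ⟨by omega, h3, rich_of_levels hd.ne hM h2 hcase⟩)
    simp only [Nat.add_sub_cancel] at h1
    have e1 : g / (g / (2 * M)) = 2 * M := by field_simp
    have e2 : g / (g / (2 * M)) ^ 2 = 4 * M ^ 2 / g := by field_simp; ring
    rw [e1, e2] at h1
    have h2 : g + 4 * M ^ 2 ≤ (4 * K ^ 3 + 5) * M ^ 2 := by nlinarith
    have h3 : (1 + 4 * M ^ 2 / g) * g = g + 4 * M ^ 2 := by field_simp
    have hP : 0 ≤ Ff K * (2 * M) ^ r := by positivity
    calc (G.card : ℝ) * g ≤ (Ff K * (2 * M) ^ r * (1 + 4 * M ^ 2 / g)) * g := by gcongr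
      _ = Ff K * (2 * M) ^ r * ((1 + 4 * M ^ 2 / g) * g) := by ring
      _ = Ff K * (2 * M) ^ r * (g + 4 * M ^ 2) := by rw [h3]
      _ ≤ Ff K * (2 * M) ^ r * ((4 * K ^ 3 + 5) * M ^ 2) := mul_le_mul_of_nonneg_left h2 hP
      _ = Ff K * 2 ^ r * (4 * K ^ 3 + 5) * M ^ (r + 2) := by rw [mul_pow]; ring
      _ ≤ _ := by linarith

end Family

end Vale.Agent.Lib.P054
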