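import Vale.Agent.Lib.P054.Gen2

/-!
# Hyperplane families spanned by differences: the bound by induction on the dimension
-/

open scoped Pointwise
open Finset
open Module (finrank)

namespace Vale.Agent.Lib.P054

set_option linter.unusedSectionVars false
set_option linter.style.haveILetI false

section Family

variable {V : Type} [AddCommGroup V] [Module ℝ V] [FiniteDimensional ℝ V] [DecidableEq V]

/-- The sum over rich subspaces of dimension at least two, with the threshold adapted to `M`. -/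
theorem sum_level_high (Ff : ℝ → ℝ) (j₀ : ℕ) (hFS : FS j₀ Ff) {F : Finset V} {K' M C : ℝ}
    (hdF : Doubling F K') (hM : 1 ≤ M) (hFf : 0 ≤ Ff K') (hg2 : (F.card : ℝ) ≤ C * M ^ 2)
    (T : Finset (Submodule ℝ V))
    (hT : ∀ Γ ∈ T, finrank ℝ Γ = j₀ + 2 ∧ Submodule.span ℝ (lineSet (F - F) Γ : Set V) = Γ ∧
      (F.card : ℝ) / (2 * M) ≤ ((lineSet (F - F) Γ).card : ℝ)) :
    ∑ Γ ∈ T, ((lineSet (F - F) Γ).card : ℝ) ≤ Ff K' * (2 ^ j₀ * (C + 4)) * M ^ (j₀ + 2) := by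
  have hM0 : 0 < M := by linarith
  have hg0 := hdF.card_pos
  set g : ℝ := (F.card : ℝ) with hg
  have hy : 0 < g / (2 * M) := by positivity
  have h1 := hFS V F K' (g / (2 * M)) hdF hy T hT
  have e1 : g / (g / (2 * M)) = 2 * M := by field_simp
  have e2 : g / (g / (2 * M)) ^ 2 = 4 * M ^ 2 / g := by field_simp; ring
  rw [e1, e2] at h1
  have e3 : g / (2 * M) * (2 * M) ^ (j₀ + 1) * (1 + 4 * M ^ 2 / g) = (2 * M) ^ j₀ * (g + 4 * M ^ 2) := by
    rw [pow_succ]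
    field_simp
  rw [e3] at h1
  refine h1.trans ?_
  have h2 : g + 4 * M ^ 2 ≤ (C + 4) * M ^ 2 := by nlinarith
  calc Ff K' * ((2 * M) ^ j₀ * (g + 4 * M ^ 2)) ≤ Ff K' * ((2 * M) ^ j₀ * ((C + 4) * M ^ 2)) := by
        gcongr
    _ = _ := by rw [mul_pow]; ring

/-- The sum over rich lines. -/
theorem sum_level_one {F : Finset V} {K' M m : ℝ} (hdF : Doubling F K') (hM : 1 ≤ M) (hm : 0 ≤ m)
    (T : Finset (Submodule ℝ V))
    (hT : ∀ Γ ∈ T, finrank ℝ Γ = 1 ∧ (F.card : ℝ) / (2 * M) ≤ ((lineSet (F - F) Γ).card : ℝ) ∧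
      ((lineSet (F - F) Γ).card : ℝ) ≤ m) :
    ∑ Γ ∈ T, ((lineSet (F - F) Γ).card : ℝ) ≤ 16 * K' ^ 4 * M + m := by
  have hM0 : 0 < M := by linarith
  have hg0 := hdF.card_pos
  have hK' : 0 < K' := hdF.K_pos
  have hy : 0 < (F.card : ℝ) / (2 * M) := by positivity
  by_cases h2 : 2 ≤ T.card
  · have hline : ∀ l ∈ T, ∃ v : V, v ≠ 0 ∧ l = Submodule.span ℝ {v} := by
      intro l hl
      obtain ⟨hfr, hrich, _⟩ := hT l hl
      have hc : 0 < ((lineSet (F - F) l).card : ℝ) := by linarith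
      have hc' : (lineSet (F - F) l).Nonempty := card_pos.1 (by exact_mod_cast hc)
      obtain ⟨v, hv⟩ := hc'
      obtain ⟨_, hv0, hvl⟩ := mem_lineSet.1 hv
      refine ⟨v, hv0, ?_⟩
      symm
      apply Submodule.eq_of_le_of_finrank_eq ((Submodule.span_singleton_le_iff_mem v l).2 hvl)
      rw [finrank_span_single hv0, hfr]
    have h3 := rich_lines_sum (F - F) (sub_self_neg_mem F) T hline _ hy
      (fun l hl => (hT l hl).2.1) h2
    have h4 : (((F - F) + (F - F)).card : ℝ) ≤ K' ^ 4 * F.card := hdF.card_Z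
    set Sg := ∑ l ∈ T, ((lineSet (F - F) l).card : ℝ) with hSg
    have h5 : (F.card : ℝ) / (2 * M) / 8 * Sg ≤ K' ^ 4 * F.card := h3.trans h4
    have h6 : Sg ≤ 16 * K' ^ 4 * M := by
      have h7 : (F.card : ℝ) * Sg ≤ (F.card : ℝ) * (16 * K' ^ 4 * M) := by
        have h8 : (F.card : ℝ) / (2 * M) / 8 * Sg = (F.card : ℝ) * Sg / (16 * M) := by
          field_simp
          ring
        rw [h8, div_le_iff₀ (by positivity)] at h5
        nlinarith
      exact le_of_mul_le_mul_left h7 hg0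
    linarith
  · push Not at h2
    have hK4 : 0 ≤ 16 * K' ^ 4 * M := by positivity
    have hcard : T.card ≤ 1 := by omega
    rcases card_le_one_iff_subset_singleton.1 hcard with ⟨Γ, hΓ⟩
    have h3 : ∑ l ∈ T, ((lineSet (F - F) l).card : ℝ) ≤ m := by
      by_cases hΓT : Γ ∈ T
      · have hTe : T = {Γ} := Subset.antisymm hΓ (singleton_subset_iff.2 hΓT)
        rw [hTe, sum_singleton]
        exact (hT Γ hΓT).2.2
      · have hTe : T = ∅ := by
          apply eq_empty_of_forall_notMem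
          intro x hx
          have := mem_singleton.1 (hΓ hx)
          exact hΓT (this ▸ hx)
        rw [hTe, sum_empty]
        exact hm
    linarith

/-- Choosing the pivot: a closed flat of smallest dimension which contains many differences. -/
theorem pivot_exists (B : Finset V) (K M : ℝ) (hd : Doubling B K) (hM : 1 ≤ M)
    (G : Finset (Submodule ℝ V)) (hne : G.Nonempty)
    (hlev : ∀ H ∈ G, (levels B H : ℝ) ≤ M) (hbot : G.inf id = ⊥)
    (hlarge : (4 * K ^ 3 + 1) * M ^ 2 < (B.card : ℝ)) :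
    ∃ S₀ ⊆ G, ∃ F ⊆ B, F.Nonempty ∧ (∀ a ∈ F, ∀ b ∈ F, a - b ∈ S₀.inf id) ∧
      B.card ≤ F.card * levels B (S₀.inf id) ∧ 4 * M ≤ (F.card : ℝ) ∧
      (F.card : ℝ) ≤ 8 * K ^ 3 * M ^ 2 ∧ S₀.inf id ≠ ⊥ := by
  classical
  have hK1 := hd.one_le
  have hK0 : 0 < K := by linarith
  have hM0 : 0 < M := by linarith
  have hK3 : 0 < K ^ 3 := by positivity
  set U := B - B with hU
  set R := (G.powerset.image (fun S => S.inf id)).filter
    (fun P : Submodule ℝ V => 4 * K ^ 3 * M ≤ ((lineSet U P).card : ℝ)) with hR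
  obtain ⟨H₀, hH₀⟩ := hne
  have hH₀R : H₀ ∈ R := by
    refine mem_filter.2 ⟨mem_image.2 ⟨{H₀}, ?_, by simp⟩, ?_⟩
    · exact mem_powerset.2 (singleton_subset_iff.2 hH₀)
    · have h1 := card_le_levels_mul_partIn B hd.ne H₀
      have h3 : (B.card : ℝ) ≤ (levels B H₀ : ℝ) * ((partIn U H₀).card : ℝ) := by
        exact_mod_cast h1
      have h4 : (B.card : ℝ) ≤ M * ((partIn U H₀).card : ℝ) :=
        h3.trans (mul_le_mul_of_nonneg_right (hlev H₀ hH₀) (by positivity))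
      have h5 : ((partIn U H₀).card : ℝ) ≤ ((lineSet U H₀).card : ℝ) + 1 := by
        exact_mod_cast partIn_card_le U H₀
      have h6 : (4 * K ^ 3 + 1) * M ^ 2 < M * (((lineSet U H₀).card : ℝ) + 1) := by
        calc _ < _ := hlarge
          _ ≤ _ := h4
          _ ≤ _ := by gcongr
      have h7 : (4 * K ^ 3 + 1) * M < ((lineSet U H₀).card : ℝ) + 1 := by
        have : M * ((4 * K ^ 3 + 1) * M) < M * (((lineSet U H₀).card : ℝ) + 1) := by nlinarith
        exact lt_of_mul_lt_mul_left this hM0.le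
      nlinarith
  obtain ⟨P, hP, hmin⟩ := exists_min_image R (fun P : Submodule ℝ V => finrank ℝ P) ⟨H₀, hH₀R⟩
  obtain ⟨hP1, hP2⟩ := mem_filter.1 hP
  obtain ⟨S₀, hS₀, rfl⟩ := mem_image.1 hP1
  have hS₀G : S₀ ⊆ G := mem_powerset.1 hS₀
  set P := S₀.inf id with hPdef
  obtain ⟨F, hFB, hFne, hdF, hc⟩ := exists_slice B hd.ne P
  have hpart := hd.partIn_le_slice hc
  have hP3 : ((lineSet U P).card : ℝ) ≤ ((partIn U P).card : ℝ) := by
    have : lineSet U P ⊆ partIn U P := fun x hx => by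
      obtain ⟨h1, _, h3⟩ := mem_lineSet.1 hx
      exact mem_partIn.2 ⟨h1, h3⟩
    exact_mod_cast card_le_card this
  have hFM : 4 * M ≤ (F.card : ℝ) := by
    have h1 : K ^ 3 * (4 * M) ≤ K ^ 3 * (F.card : ℝ) := by
      calc K ^ 3 * (4 * M) = 4 * K ^ 3 * M := by ring
        _ ≤ _ := hP2
        _ ≤ _ := hP3
        _ ≤ _ := hpart
    exact le_of_mul_le_mul_left h1 hK3
  have hPbot : P ≠ ⊥ := by
    intro h0
    have h1 : lineSet U P = ∅ := by
      apply eq_empty_of_forall_notMem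
      intro x hx
      obtain ⟨_, h3, h4⟩ := mem_lineSet.1 hx
      rw [h0, Submodule.mem_bot] at h4
      exact h3 h4
    rw [h1, card_empty] at hP2
    have : 0 < 4 * K ^ 3 * M := by positivity
    simp only [Nat.cast_zero] at hP2
    linarith
  have hex : ∃ H₁ ∈ G, ¬ P ≤ H₁ := by
    by_contra hcon
    push Not at hcon
    have : P ≤ G.inf id := Finset.le_inf hcon
    rw [hbot] at this
    exact hPbot (le_bot_iff.1 this)
  obtain ⟨H₁, hH₁, hPH₁⟩ := hex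
  refine ⟨S₀, hS₀G, F, hFB, hFne, hdF, hc, hFM, ?_, hPbot⟩
  -- The upper bound on the slice.
  have hmem : H₁ ⊓ P ∈ G.powerset.image (fun S => S.inf id) := by
    refine mem_image.2 ⟨insert H₁ S₀, mem_powerset.2 (insert_subset hH₁ hS₀G), ?_⟩
    simp [Finset.inf_insert, hPdef]
  have hlt : finrank ℝ (H₁ ⊓ P : Submodule ℝ V) < finrank ℝ P := by
    apply Submodule.finrank_lt_finrank_of_lt
    rw [inf_comm]
    exact inf_lt_left.2 hPH₁
  have hnotrich : ((lineSet U (H₁ ⊓ P)).card : ℝ) < 4 * K ^ 3 * M := by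
    by_contra hcon
    push Not at hcon
    have := hmin (H₁ ⊓ P) (mem_filter.2 ⟨hmem, hcon⟩)
    omega
  have hlevF : (levels F H₁ : ℝ) ≤ M := by
    have h1 : (levels F H₁ : ℝ) ≤ (levels B H₁ : ℝ) := by
      exact_mod_cast levels_mono hFB H₁
    exact h1.trans (hlev H₁ hH₁)
  have hrich := rich_of_levels hFne hM hlevF (by linarith)
  have hsub : lineSet (F - F) H₁ ⊆ lineSet U (H₁ ⊓ P) := by
    intro x hx
    obtain ⟨h1, h2, h3⟩ := mem_lineSet.1 hx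
    refine mem_lineSet.2 ⟨sub_subset_sub hFB hFB h1, h2, h3, ?_⟩
    obtain ⟨a, ha, b, hb, rfl⟩ := mem_sub.1 h1
    exact hdF a ha b hb
  have h2 : ((lineSet (F - F) H₁).card : ℝ) ≤ ((lineSet U (H₁ ⊓ P)).card : ℝ) := by
    exact_mod_cast card_le_card hsub
  have h3 : (F.card : ℝ) / (2 * M) ≤ 4 * K ^ 3 * M := by linarith
  rw [div_le_iff₀ (by positivity)] at h3
  nlinarith

/-- The bound for the members with a given span of slice differences. -/
theorem fibre_bound (s : ℕ) (FT : ℝ → ℝ) (hT : ∀ s', 1 ≤ s' → s' < s → TS s' FT)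
    (B : Finset V) (K M : ℝ) (hV : finrank ℝ V = s) (hd : Doubling B K) (hM : 1 ≤ M)
    (hF0 : 0 ≤ FT (K ^ 3)) (G : Finset (Submodule ℝ V))
    (hfam : ∀ H ∈ G, finrank ℝ H + 1 = s ∧ (levels B H : ℝ) ≤ M ∧
      Submodule.span ℝ (lineSet (B - B) H : Set V) = H)
    (S₀ : Finset (Submodule ℝ V)) (hS₀ : S₀ ⊆ G) (F : Finset V) (hFB : F ⊆ B) (hFne : F.Nonempty)
    (hdF : ∀ a ∈ F, ∀ b ∈ F, a - b ∈ S₀.inf id) (hc : B.card ≤ F.card * levels B (S₀.inf id))
    (H₁ : Submodule ℝ V) (hH₁ : H₁ ∈ G) (Γ : Submodule ℝ V) (hΓH₁ : Γ ≤ H₁) (hΓP : Γ ≤ S₀.inf id)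
    (hline : lineSet (F - F) H₁ ⊆ lineSet (F - F) Γ) (hi : 1 ≤ finrank ℝ Γ)
    (Gf : Finset (Submodule ℝ V)) (hGf : Gf ⊆ G) (hne : Gf.Nonempty) (hΓGf : ∀ H ∈ Gf, Γ ≤ H) :
    (Gf.card : ℝ) * B.card ≤ FT (K ^ 3) * M ^ (s - finrank ℝ Γ) * K ^ (3 * s) * K ^ 6 *
      (((lineSet (F - F) Γ).card : ℝ) + 1) := by
  classical
  have hK1 := hd.one_le
  have hK0 : 0 < K := by linarith
  have hM0 : 0 < M := by linarith
  set U := B - B with hU
  set P := S₀.inf id with hP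
  set Γh : Submodule ℝ V := Gf.inf id with hΓh
  have hΓle : Γ ≤ Γh := Finset.le_inf hΓGf
  have hij : finrank ℝ Γ ≤ finrank ℝ Γh := Submodule.finrank_mono hΓle
  obtain ⟨H₂, hH₂⟩ := hne
  have hjs : finrank ℝ Γh + 1 ≤ s := by
    have h1 := (hfam H₂ (hGf hH₂)).1
    have h2 : finrank ℝ Γh ≤ finrank ℝ H₂ := Submodule.finrank_mono (Finset.inf_le (f := id) hH₂)
    omega
  have h1 := T_prime s FT hT B K M hV hd hM Gf ⟨H₂, hH₂⟩ (fun H hH => hfam H (hGf hH)) (hi.trans hij)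
  set m : ℝ := K ^ 3 * M with hm
  have hm1 : 1 ≤ m := by
    have : 1 ≤ K ^ 3 := one_le_pow₀ hK1
    rw [hm]
    nlinarith
  have hlevU : ∀ H ∈ G, (levels U H : ℝ) ≤ m := by
    intro H hH
    refine (hd.levels_sub_le H).trans ?_
    rw [hm]
    have := (hfam H hH).2.1
    gcongr
  set HH := G.filter (fun H => H₁ ⊓ P ≤ H) with hHH
  have hinf : HH.inf id = H₁ ⊓ P := closed_inf G S₀ hS₀ hH₁
  have h2 := list_lemma U (sub_self_neg_mem B) HH m hm1
    (fun H hH => hlevU H (mem_filter.1 hH).1) (finrank ℝ Γh) Γh (partIn U Γh) (le_refl _)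
    (fun x hx => (mem_partIn.1 hx).1)
    (fun a ha b hb => Γh.sub_mem (mem_partIn.1 ha).2 (mem_partIn.1 hb).2)
  rw [hinf] at h2
  set Ξ : Submodule ℝ V := Γh ⊓ (H₁ ⊓ P) with hΞ
  have hΓΞ : Γ ≤ Ξ := le_inf hΓle (le_inf hΓH₁ hΓP)
  have hΞfr : finrank ℝ Γ ≤ finrank ℝ Ξ := Submodule.finrank_mono hΓΞ
  have hΞP : Ξ ≤ P := inf_le_right.trans inf_le_right
  have hΞH₁ : Ξ ≤ H₁ := inf_le_right.trans inf_le_left
  have h3 := compare_slice hd hFB hFne hdF hc hΞP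
  have h4 : ((partIn (F - F) Ξ).card : ℝ) ≤ ((lineSet (F - F) Γ).card : ℝ) + 1 := by
    have h5 : partIn (F - F) Ξ ⊆ insert 0 (lineSet (F - F) Γ) := by
      intro x hx
      obtain ⟨h6, h7⟩ := mem_partIn.1 hx
      by_cases h0 : x = 0
      · rw [h0]; exact mem_insert_self _ _
      · exact mem_insert_of_mem (hline (mem_lineSet.2 ⟨h6, h0, hΞH₁ h7⟩))
    exact_mod_cast (card_le_card h5).trans (card_insert_le _ _)
  set c : ℝ := ((lineSet (F - F) Γ).card : ℝ) + 1 with hcdef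
  have hc0 : 0 ≤ c := by positivity
  have hK6 : 0 ≤ K ^ 6 := by positivity
  have h5 : ((partIn U Γh).card : ℝ) ≤ m ^ (finrank ℝ Γh - finrank ℝ Γ) * (K ^ 6 * c) := by
    calc ((partIn U Γh).card : ℝ) ≤ _ := h2
      _ ≤ m ^ (finrank ℝ Γh - finrank ℝ Γ) * (K ^ 6 * c) := by
          apply mul_le_mul
          · apply pow_le_pow_right₀ hm1
            omega
          · exact h3.trans (mul_le_mul_of_nonneg_left h4 hK6)
          · positivity
          · positivity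
  have h6 : M ^ (s - finrank ℝ Γh) * m ^ (finrank ℝ Γh - finrank ℝ Γ) ≤
      M ^ (s - finrank ℝ Γ) * K ^ (3 * s) := by
    have e1 : s - finrank ℝ Γ = (s - finrank ℝ Γh) + (finrank ℝ Γh - finrank ℝ Γ) := by omega
    rw [hm, mul_pow, e1, pow_add]
    have h7 : (K ^ 3) ^ (finrank ℝ Γh - finrank ℝ Γ) ≤ K ^ (3 * s) := by
      rw [← pow_mul]
      apply pow_le_pow_right₀ hK1
      have : finrank ℝ Γh - finrank ℝ Γ ≤ s := by omega
      nlinarith
    have h8 : 0 ≤ M ^ (s - finrank ℝ Γh) * M ^ (finrank ℝ Γh - finrank ℝ Γ) := by positivity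
    calc M ^ (s - finrank ℝ Γh) * ((K ^ 3) ^ (finrank ℝ Γh - finrank ℝ Γ) * M ^ (finrank ℝ Γh - finrank ℝ Γ))
        = (M ^ (s - finrank ℝ Γh) * M ^ (finrank ℝ Γh - finrank ℝ Γ)) * (K ^ 3) ^ (finrank ℝ Γh - finrank ℝ Γ) := by ring
      _ ≤ _ := mul_le_mul_of_nonneg_left h7 h8
  calc (Gf.card : ℝ) * B.card ≤ _ := h1
    _ ≤ FT (K ^ 3) * M ^ (s - finrank ℝ Γh) * (m ^ (finrank ℝ Γh - finrank ℝ Γ) * (K ^ 6 * c)) := by
        gcongr
    _ = FT (K ^ 3) * (M ^ (s - finrank ℝ Γh) * m ^ (finrank ℝ Γh - finrank ℝ Γ)) * (K ^ 6 * c) := by ring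
    _ ≤ FT (K ^ 3) * (M ^ (s - finrank ℝ Γ) * K ^ (3 * s)) * (K ^ 6 * c) := by
        gcongr
    _ = _ := by ring

/-- The span of the points of `X` in `H`. -/
lemma gamma_props (X : Finset V) (H : Submodule ℝ V) (y : ℝ) (hy : 0 < y)
    (hrich : y ≤ ((lineSet X H).card : ℝ)) :
    lineSet X H ⊆ lineSet X (Submodule.span ℝ (lineSet X H : Set V)) ∧
    Submodule.span ℝ (lineSet X (Submodule.span ℝ (lineSet X H : Set V)) : Set V) =
      Submodule.span ℝ (lineSet X H : Set V) ∧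
    Submodule.span ℝ (lineSet X H : Set V) ≤ H ∧
    1 ≤ finrank ℝ (Submodule.span ℝ (lineSet X H : Set V)) ∧
    y ≤ ((lineSet X (Submodule.span ℝ (lineSet X H : Set V))).card : ℝ) := by
  have h1 : lineSet X H ⊆ lineSet X (Submodule.span ℝ (lineSet X H : Set V)) := by
    intro x hx
    obtain ⟨h2, h3, _⟩ := mem_lineSet.1 hx
    exact mem_lineSet.2 ⟨h2, h3, Submodule.subset_span (mem_coe.2 hx)⟩
  refine ⟨h1, ?_, ?_, ?_, ?_⟩
  · apply le_antisymm
    · rw [Submodule.span_le]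
      intro x hx
      exact (mem_lineSet.1 (mem_coe.1 hx)).2.2
    · apply Submodule.span_mono
      exact_mod_cast h1
  · rw [Submodule.span_le]
    intro x hx
    exact (mem_lineSet.1 (mem_coe.1 hx)).2.2
  · have hc : 0 < ((lineSet X H).card : ℝ) := by linarith
    have hc' : (lineSet X H).Nonempty := card_pos.1 (by exact_mod_cast hc)
    obtain ⟨v, hv⟩ := hc'
    have hv0 := (mem_lineSet.1 hv).2.1
    have hle : Submodule.span ℝ {v} ≤ Submodule.span ℝ (lineSet X H : Set V) :=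
      (Submodule.span_singleton_le_iff_mem v _).2 (Submodule.subset_span (mem_coe.2 hv))
    have h2 := Submodule.finrank_mono hle
    rw [finrank_span_single hv0] at h2
    exact h2
  · have h2 : ((lineSet X H).card : ℝ) ≤
        ((lineSet X (Submodule.span ℝ (lineSet X H : Set V))).card : ℝ) := by
      exact_mod_cast card_le_card h1
    linarith

/-- The sum over rich spanned subspaces of a given dimension, weighted by a power of `M`. -/
theorem level_bound (r : ℕ) (Ff : ℝ → ℝ) (hFS : ∀ j < r, FS j Ff) (F : Finset V) (K M : ℝ)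
    (hdF : Doubling F (K ^ 3)) (hK : 1 ≤ K) (hM : 1 ≤ M) (hFf : 0 ≤ Ff (K ^ 3))
    (hFup : (F.card : ℝ) ≤ 8 * K ^ 3 * M ^ 2) (i : ℕ) (hi : i < r + 2)
    (T : Finset (Submodule ℝ V))
    (hT : ∀ Γ ∈ T, finrank ℝ Γ = i ∧ Submodule.span ℝ (lineSet (F - F) Γ : Set V) = Γ ∧
      (F.card : ℝ) / (2 * M) ≤ ((lineSet (F - F) Γ).card : ℝ) ∧
      (i = 1 → ((lineSet (F - F) Γ).card : ℝ) ≤ K ^ 3 * M)) :
    ∑ Γ ∈ T, M ^ (r + 2 - finrank ℝ Γ) * ((lineSet (F - F) Γ).card : ℝ) ≤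
      (Ff (K ^ 3) * (2 ^ (r + 2) * (8 * K ^ 3 + 4)) + 16 * K ^ 12 + K ^ 3) * M ^ (r + 2) := by
  have hK0 : 0 < K := by linarith
  have hM0 : 0 < M := by linarith
  have hg0 := hdF.card_pos
  have hy : 0 < (F.card : ℝ) / (2 * M) := by positivity
  have e0 : ∑ Γ ∈ T, M ^ (r + 2 - finrank ℝ Γ) * ((lineSet (F - F) Γ).card : ℝ) =
      M ^ (r + 2 - i) * ∑ Γ ∈ T, ((lineSet (F - F) Γ).card : ℝ) := by
    rw [mul_sum]
    apply sum_congr rfl
    intro Γ hΓ
    rw [(hT Γ hΓ).1]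
  rw [e0]
  have hP1 : 0 ≤ Ff (K ^ 3) * (2 ^ (r + 2) * (8 * K ^ 3 + 4)) := by positivity
  have hP2 : 0 ≤ 16 * K ^ 12 := by positivity
  have hP3 : 0 ≤ K ^ 3 := by positivity
  have hMr : 0 ≤ M ^ (r + 2) := by positivity
  match i, hi, hT with
  | 0, _, hT =>
    have hTe : T = ∅ := by
      apply eq_empty_of_forall_notMem
      intro Γ hΓ
      obtain ⟨h1, _, h3, _⟩ := hT Γ hΓ
      have h0 : Γ = ⊥ := Submodule.finrank_eq_zero.1 h1
      have h4 : lineSet (F - F) Γ = ∅ := by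
        apply eq_empty_of_forall_notMem
        intro x hx
        obtain ⟨_, h5, h6⟩ := mem_lineSet.1 hx
        rw [h0, Submodule.mem_bot] at h6
        exact h5 h6
      rw [h4, card_empty] at h3
      simp only [Nat.cast_zero] at h3
      linarith
    rw [hTe, sum_empty, mul_zero]
    positivity
  | 1, _, hT =>
    have h1 := sum_level_one (m := K ^ 3 * M) hdF hM (by positivity) T (fun Γ hΓ =>
      ⟨(hT Γ hΓ).1, (hT Γ hΓ).2.2.1, (hT Γ hΓ).2.2.2 rfl⟩)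
    have h2 : M ^ (r + 2 - 1) * (16 * (K ^ 3) ^ 4 * M + K ^ 3 * M) =
        (16 * K ^ 12 + K ^ 3) * M ^ (r + 2) := by
      rw [show r + 2 - 1 = r + 1 by omega, pow_succ M (r + 1)]
      ring
    calc M ^ (r + 2 - 1) * ∑ Γ ∈ T, ((lineSet (F - F) Γ).card : ℝ)
        ≤ M ^ (r + 2 - 1) * (16 * (K ^ 3) ^ 4 * M + K ^ 3 * M) := by gcongr
      _ = _ := h2
      _ ≤ _ := by
          apply mul_le_mul_of_nonneg_right _ hMr
          linarith
  | j₀ + 2, hi, hT =>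
    have hj : j₀ < r := by omega
    have h1 := sum_level_high Ff j₀ (hFS j₀ hj) hdF hM hFf hFup T (fun Γ hΓ =>
      ⟨(hT Γ hΓ).1, (hT Γ hΓ).2.1, (hT Γ hΓ).2.2.1⟩)
    have h2 : M ^ (r + 2 - (j₀ + 2)) * (Ff (K ^ 3) * (2 ^ j₀ * (8 * K ^ 3 + 4)) * M ^ (j₀ + 2)) =
        Ff (K ^ 3) * (2 ^ j₀ * (8 * K ^ 3 + 4)) * M ^ (r + 2) := by
      have e1 : r + 2 = (r + 2 - (j₀ + 2)) + (j₀ + 2) := by omega
      conv_rhs => rw [e1, pow_add]
      ring
    have h3 : (2 : ℝ) ^ j₀ ≤ 2 ^ (r + 2) := pow_le_pow_right₀ (by norm_num) (by omega)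
    calc M ^ (r + 2 - (j₀ + 2)) * ∑ Γ ∈ T, ((lineSet (F - F) Γ).card : ℝ)
        ≤ M ^ (r + 2 - (j₀ + 2)) * (Ff (K ^ 3) * (2 ^ j₀ * (8 * K ^ 3 + 4)) * M ^ (j₀ + 2)) := by
          gcongr
      _ = _ := h2
      _ ≤ _ := by
          apply mul_le_mul_of_nonneg_right _ hMr
          have : Ff (K ^ 3) * (2 ^ j₀ * (8 * K ^ 3 + 4)) ≤ Ff (K ^ 3) * (2 ^ (r + 2) * (8 * K ^ 3 + 4)) := by
            gcongr
          linarith

/-- The members of the family not containing the pivot. -/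
theorem G1_bound (r : ℕ) (FT : ℝ → ℝ) (hT : ∀ s', 1 ≤ s' → s' < r + 2 → TS s' FT)
    (Ff : ℝ → ℝ) (hFS : ∀ j < r, FS j Ff)
    (B : Finset V) (K M : ℝ) (hV : finrank ℝ V = r + 2) (hd : Doubling B K) (hM : 1 ≤ M)
    (hF0 : 0 ≤ FT (K ^ 3)) (hFf : 0 ≤ Ff (K ^ 3)) (G : Finset (Submodule ℝ V))
    (hfam : ∀ H ∈ G, finrank ℝ H + 1 = r + 2 ∧ (levels B H : ℝ) ≤ M ∧
      Submodule.span ℝ (lineSet (B - B) H : Set V) = H) (hbot : G.inf id = ⊥)
    (S₀ : Finset (Submodule ℝ V)) (hS₀ : S₀ ⊆ G) (F : Finset V) (hFB : F ⊆ B) (hFne : F.Nonempty)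
    (hdF : ∀ a ∈ F, ∀ b ∈ F, a - b ∈ S₀.inf id) (hc : B.card ≤ F.card * levels B (S₀.inf id))
    (hFM : 4 * M ≤ (F.card : ℝ)) (hFup : (F.card : ℝ) ≤ 8 * K ^ 3 * M ^ 2)
    (G1 : Finset (Submodule ℝ V)) (hG1 : G1 ⊆ G) (hG1P : ∀ H ∈ G1, ¬ S₀.inf id ≤ H) :
    (G1.card : ℝ) * B.card ≤
      2 * FT (K ^ 3) * K ^ (3 * (r + 2)) * K ^ 6 *
        ((r + 2) * ((Ff (K ^ 3) * (2 ^ (r + 2) * (8 * K ^ 3 + 4)) + 16 * K ^ 12 + K ^ 3) * M ^ (r + 2))) := by
  classical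
  have hK1 := hd.one_le
  have hK0 : 0 < K := by linarith
  have hM0 : 0 < M := by linarith
  set s := r + 2 with hs
  set U := B - B with hU
  set P := S₀.inf id with hP
  set X := F - F with hX
  have hdF' : Doubling F (K ^ 3) := hd.slice hFB hFne hdF hc
  set m : ℝ := K ^ 3 * M with hm
  have hm1 : 1 ≤ m := by
    have : 1 ≤ K ^ 3 := one_le_pow₀ hK1
    rw [hm]
    nlinarith
  have hlevU : ∀ H ∈ G, (levels U H : ℝ) ≤ m := by
    intro H hH
    refine (hd.levels_sub_le H).trans ?_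
    rw [hm]
    have := (hfam H hH).2.1
    gcongr
  have hpart := partIn_le_pow U (sub_self_neg_mem B) G m hm1 hlevU hbot
  have hXU : X ⊆ U := sub_subset_sub hFB hFB
  have hXP : ∀ x ∈ X, x ∈ P := by
    intro x hx
    obtain ⟨a, ha, b, hb, rfl⟩ := mem_sub.1 hx
    exact hdF a ha b hb
  set y : ℝ := (F.card : ℝ) / (2 * M) with hy
  have hy2 : 2 ≤ y := by
    rw [hy, le_div_iff₀ (by positivity)]
    linarith
  have hy0 : 0 < y := by linarith
  have hrich : ∀ H ∈ G, y ≤ ((lineSet X H).card : ℝ) := by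
    intro H hH
    have hlevF : (levels F H : ℝ) ≤ M := by
      have h1 : (levels F H : ℝ) ≤ (levels B H : ℝ) := by
        exact_mod_cast levels_mono hFB H
      exact h1.trans (hfam H hH).2.1
    exact rich_of_levels hFne hM hlevF (by linarith)
  set Γf : Submodule ℝ V → Submodule ℝ V := fun H => Submodule.span ℝ (lineSet X H : Set V) with hΓf
  set T0 := G1.image Γf with hT0
  have hprops : ∀ Γ ∈ T0, ∃ H ∈ G1, Γ = Γf H ∧ lineSet X H ⊆ lineSet X Γ ∧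
      Submodule.span ℝ (lineSet X Γ : Set V) = Γ ∧ Γ ≤ H ∧ 1 ≤ finrank ℝ Γ ∧
      y ≤ ((lineSet X Γ).card : ℝ) := by
    intro Γ hΓ
    obtain ⟨H, hH, rfl⟩ := mem_image.1 hΓ
    exact ⟨H, hH, rfl, gamma_props X H y hy0 (hrich H (hG1 hH))⟩
  have hfinrank : ∀ Γ ∈ T0, finrank ℝ Γ < s := by
    intro Γ hΓ
    obtain ⟨H, hH, _, _, _, h3, _, _⟩ := hprops Γ hΓ
    have h4 := (hfam H (hG1 hH)).1
    have h5 := Submodule.finrank_mono h3
    omega
  have hcΓ : ∀ Γ ∈ T0, ((lineSet X Γ).card : ℝ) ≤ m ^ finrank ℝ Γ := by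
    intro Γ _
    refine le_trans ?_ (hpart Γ)
    have : lineSet X Γ ⊆ partIn U Γ := fun x hx => by
      obtain ⟨h1, _, h3⟩ := mem_lineSet.1 hx
      exact mem_partIn.2 ⟨hXU h1, h3⟩
    exact_mod_cast card_le_card this
  set D : ℝ := 2 * FT (K ^ 3) * K ^ (3 * s) * K ^ 6 with hD
  have hD0 : 0 ≤ D := by positivity
  have hfibre : ∀ Γ ∈ T0, ((G1.filter (fun H => Γf H = Γ)).card : ℝ) * B.card ≤
      D * (M ^ (s - finrank ℝ Γ) * ((lineSet X Γ).card : ℝ)) := by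
    intro Γ hΓ
    obtain ⟨H, hH, hΓH, hline, _, h3, hi, hyΓ⟩ := hprops Γ hΓ
    have hΓP : Γ ≤ P := by
      rw [hΓH]
      simp only [hΓf]
      rw [Submodule.span_le]
      intro x hx
      exact hXP x (mem_lineSet.1 (mem_coe.1 hx)).1
    have h1 := fibre_bound s FT hT B K M hV hd hM hF0 G hfam S₀ hS₀ F hFB hFne hdF hc H (hG1 hH) Γ
      h3 hΓP hline hi (G1.filter (fun H => Γf H = Γ)) ((filter_subset _ _).trans hG1)
      ⟨H, mem_filter.2 ⟨hH, hΓH.symm⟩⟩ (by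
        intro H' hH'
        obtain ⟨h4, h5⟩ := mem_filter.1 hH'
        rw [← h5]
        exact (gamma_props X H' y hy0 (hrich H' (hG1 h4))).2.2.1)
    have hc1 : ((lineSet X Γ).card : ℝ) + 1 ≤ 2 * ((lineSet X Γ).card : ℝ) := by linarith
    refine h1.trans ?_
    have hnn : 0 ≤ FT (K ^ 3) * M ^ (s - finrank ℝ Γ) * K ^ (3 * s) * K ^ 6 := by positivity
    calc FT (K ^ 3) * M ^ (s - finrank ℝ Γ) * K ^ (3 * s) * K ^ 6 * (((lineSet X Γ).card : ℝ) + 1)
        ≤ FT (K ^ 3) * M ^ (s - finrank ℝ Γ) * K ^ (3 * s) * K ^ 6 * (2 * ((lineSet X Γ).card : ℝ)) :=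
          mul_le_mul_of_nonneg_left hc1 hnn
      _ = _ := by rw [hD]; ring
  have hsum1 : (G1.card : ℝ) * B.card ≤
      D * ∑ Γ ∈ T0, M ^ (s - finrank ℝ Γ) * ((lineSet X Γ).card : ℝ) := by
    have h1 : (G1.card : ℝ) = ∑ Γ ∈ T0, ((G1.filter (fun H => Γf H = Γ)).card : ℝ) := by
      rw [card_eq_sum_card_image Γf G1]
      push_cast
      rfl
    rw [h1, sum_mul, mul_sum]
    exact sum_le_sum hfibre
  set C3 : ℝ := Ff (K ^ 3) * (2 ^ (r + 2) * (8 * K ^ 3 + 4)) + 16 * K ^ 12 + K ^ 3 with hC3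
  have hgroup : ∑ Γ ∈ T0, M ^ (s - finrank ℝ Γ) * ((lineSet X Γ).card : ℝ) ≤
      (s : ℝ) * (C3 * M ^ s) := by
    have hmaps : ∀ Γ ∈ T0, finrank ℝ Γ ∈ range s := fun Γ hΓ => mem_range.2 (hfinrank Γ hΓ)
    rw [← sum_fiberwise_of_maps_to hmaps]
    have hper : ∀ i ∈ range s, ∑ Γ ∈ T0.filter (fun Γ : Submodule ℝ V => finrank ℝ Γ = i),
        M ^ (s - finrank ℝ Γ) * ((lineSet X Γ).card : ℝ) ≤ C3 * M ^ s := by
      intro i hi
      apply level_bound r Ff hFS F K M hdF' hK1 hM hFf hFup i (mem_range.1 hi)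
      intro Γ hΓ
      obtain ⟨hΓ1, hΓ2⟩ := mem_filter.1 hΓ
      obtain ⟨_, _, _, _, h2, _, _, h5⟩ := hprops Γ hΓ1
      refine ⟨hΓ2, h2, h5, ?_⟩
      intro hi1
      have h6 := hcΓ Γ hΓ1
      rw [hΓ2, hi1, pow_one] at h6
      exact h6
    calc _ ≤ ∑ _i ∈ range s, (C3 * M ^ s) := sum_le_sum hper
      _ = _ := by rw [sum_const, card_range, nsmul_eq_mul]
  calc (G1.card : ℝ) * B.card ≤ _ := hsum1
    _ ≤ D * ((s : ℝ) * (C3 * M ^ s)) := mul_le_mul_of_nonneg_left hgroup hD0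
    _ = _ := by rw [hD, hs]; push_cast; ring

/-- The members of the family containing the pivot. -/
theorem GP_bound (s : ℕ) (FT : ℝ → ℝ) (hT : ∀ s', 1 ≤ s' → s' < s → TS s' FT)
    (B : Finset V) (K M : ℝ) (hV : finrank ℝ V = s) (hd : Doubling B K) (hM : 1 ≤ M)
    (hF0 : 0 ≤ FT (K ^ 3)) (G : Finset (Submodule ℝ V))
    (hfam : ∀ H ∈ G, finrank ℝ H + 1 = s ∧ (levels B H : ℝ) ≤ M ∧
      Submodule.span ℝ (lineSet (B - B) H : Set V) = H) (hbot : G.inf id = ⊥)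
    (P : Submodule ℝ V) (hP : P ≠ ⊥) (GP : Finset (Submodule ℝ V)) (hGP : GP ⊆ G)
    (hGPP : ∀ H ∈ GP, P ≤ H) :
    (GP.card : ℝ) * B.card ≤ FT (K ^ 3) * K ^ (3 * s) * M ^ s := by
  classical
  have hK1 := hd.one_le
  have hK0 : 0 < K := by linarith
  have hM0 : 0 < M := by linarith
  rcases GP.eq_empty_or_nonempty with rfl | hne
  · simp only [card_empty, Nat.cast_zero, zero_mul]
    positivity
  have hPle : P ≤ GP.inf id := Finset.le_inf hGPP
  have hPfr : 1 ≤ finrank ℝ P := by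
    by_contra hcon
    have : finrank ℝ P = 0 := by omega
    exact hP (Submodule.finrank_eq_zero.1 this)
  have hj : 1 ≤ finrank ℝ (GP.inf id : Submodule ℝ V) :=
    hPfr.trans (Submodule.finrank_mono hPle)
  have h1 := T_prime s FT hT B K M hV hd hM GP hne (fun H hH => hfam H (hGP hH)) hj
  set m : ℝ := K ^ 3 * M with hm
  have hm1 : 1 ≤ m := by
    have : 1 ≤ K ^ 3 := one_le_pow₀ hK1
    rw [hm]
    nlinarith
  have hlevU : ∀ H ∈ G, (levels (B - B) H : ℝ) ≤ m := by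
    intro H hH
    refine (hd.levels_sub_le H).trans ?_
    rw [hm]
    have := (hfam H hH).2.1
    gcongr
  have hpart := partIn_le_pow (B - B) (sub_self_neg_mem B) G m hm1 hlevU hbot (GP.inf id)
  set j := finrank ℝ (GP.inf id : Submodule ℝ V) with hjdef
  obtain ⟨H₂, hH₂⟩ := hne
  have hjs : j ≤ s := by
    have h2 := (hfam H₂ (hGP hH₂)).1
    have h3 : j ≤ finrank ℝ H₂ := Submodule.finrank_mono (Finset.inf_le (f := id) hH₂)
    omega
  calc (GP.card : ℝ) * B.card ≤ _ := h1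
    _ ≤ FT (K ^ 3) * M ^ (s - j) * m ^ j := by gcongr
    _ = FT (K ^ 3) * (K ^ 3) ^ j * (M ^ (s - j) * M ^ j) := by rw [hm, mul_pow]; ring
    _ = FT (K ^ 3) * (K ^ 3) ^ j * M ^ s := by
        rw [← pow_add, show s - j + j = s by omega]
    _ ≤ _ := by
        have h2 : (K ^ 3) ^ j ≤ K ^ (3 * s) := by
          rw [← pow_mul]
          exact pow_le_pow_right₀ hK1 (by nlinarith)
        gcongr

/-- The new constant. -/
noncomputable def newF (r : ℕ) (FT Ff : ℝ → ℝ) (K : ℝ) : ℝ :=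
  (2 * (2 * K ^ 2) ^ (r + 1) + Ff K * 2 ^ r * (4 * K ^ 3 + 5)) +
    FT (K ^ 3) * K ^ (3 * (r + 2)) +
    2 * FT (K ^ 3) * K ^ (3 * (r + 2)) * K ^ 6 *
      (((r : ℝ) + 2) * (Ff (K ^ 3) * (2 ^ (r + 2) * (8 * K ^ 3 + 4)) + 16 * K ^ 12 + K ^ 3))

lemma newF_poly (r : ℕ) {FT Ff : ℝ → ℝ} (h1 : PolyK FT) (h2 : PolyK Ff) : PolyK (newF r FT Ff) := by
  have c : ∀ a : ℝ, 1 ≤ a → PolyK (fun _ => a) := PolyK.cst
  have p := PolyK.pow_id
  have hr : (1 : ℝ) ≤ (r : ℝ) + 2 := by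
    have : (0 : ℝ) ≤ r := Nat.cast_nonneg r
    linarith
  exact (((((c 2 (by norm_num)).mul (((c 2 (by norm_num)).mul (p 2)).npow (r + 1))).add
    ((h2.mul ((c 2 (by norm_num)).npow r)).mul (((c 4 (by norm_num)).mul (p 3)).add (c 5 (by norm_num))))).add
    (h1.comp3.mul (p (3 * (r + 2))))).add
    ((((c 2 (by norm_num)).mul h1.comp3).mul (p (3 * (r + 2)))).mul (p 6) |>.mul
      ((c ((r : ℝ) + 2) hr).mul
        (((h2.comp3.mul (((c 2 (by norm_num)).npow (r + 2)).mul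
          (((c 8 (by norm_num)).mul (p 3)).add (c 4 (by norm_num))))).add
          ((c 16 (by norm_num)).mul (p 12))).add (p 3)))))

/-- The inductive step. -/
theorem T_step (r : ℕ) (FT : ℝ → ℝ) (hFTp : PolyK FT) (hT : ∀ s', 1 ≤ s' → s' < r + 2 → TS s' FT)
    (Ff : ℝ → ℝ) (hFfp : PolyK Ff) (hFC : FC (r + 1) Ff) (hFS : ∀ j < r, FS j Ff) :
    TS (r + 2) (newF r FT Ff) := by
  intro V _ _ _ _ B K M hV hd hM G hne hfam hbot
  classical
  have hK1 := hd.one_le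
  have hK0 : 0 < K := by linarith
  have hM0 : 0 < M := by linarith
  have hK3 : 1 ≤ K ^ 3 := one_le_pow₀ hK1
  have hFT1 := hFTp.2 _ hK3
  have hFf1 := hFfp.2 _ hK3
  have hFfK := hFfp.2 _ hK1
  set C3 : ℝ := Ff (K ^ 3) * (2 ^ (r + 2) * (8 * K ^ 3 + 4)) + 16 * K ^ 12 + K ^ 3 with hC3
  have hC30 : 0 ≤ C3 := by positivity
  set A1 : ℝ := 2 * (2 * K ^ 2) ^ (r + 1) + Ff K * 2 ^ r * (4 * K ^ 3 + 5) with hA1
  set A2 : ℝ := FT (K ^ 3) * K ^ (3 * (r + 2)) with hA2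
  set A3 : ℝ := 2 * FT (K ^ 3) * K ^ (3 * (r + 2)) * K ^ 6 * (((r : ℝ) + 2) * C3) with hA3
  have hnew : newF r FT Ff K = A1 + A2 + A3 := rfl
  have hA10 : 0 ≤ A1 := by positivity
  have hA20 : 0 ≤ A2 := by positivity
  have hA30 : 0 ≤ A3 := by positivity
  have hMs : 0 ≤ M ^ (r + 2) := by positivity
  rw [hnew]
  by_cases hsmall : (B.card : ℝ) ≤ (4 * K ^ 3 + 1) * M ^ 2
  · have h1 := T_caseA r Ff hFC B K M hd hM G hfam (by linarith) hsmall
    have h2 : A1 * M ^ (r + 2) ≤ (A1 + A2 + A3) * M ^ (r + 2) :=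
      mul_le_mul_of_nonneg_right (by linarith) hMs
    exact h1.trans h2
  · push Not at hsmall
    obtain ⟨S₀, hS₀, F, hFB, hFne, hdF, hc, hFM, hFup, hPbot⟩ :=
      pivot_exists B K M hd hM G hne (fun H hH => (hfam H hH).2.1) hbot hsmall
    have hsplit := card_filter_add_card_filter_not (s := G) (fun H => S₀.inf id ≤ H)
    have hsplit' : (G.card : ℝ) = ((G.filter (fun H => S₀.inf id ≤ H)).card : ℝ) +
        ((G.filter (fun H => ¬ S₀.inf id ≤ H)).card : ℝ) := by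
      exact_mod_cast hsplit.symm
    have hGP := GP_bound (r + 2) FT hT B K M hV hd hM (by linarith) G hfam hbot (S₀.inf id) hPbot
      (G.filter (fun H => S₀.inf id ≤ H)) (filter_subset _ _) (fun H hH => (mem_filter.1 hH).2)
    have hG1 := G1_bound r FT hT Ff hFS B K M hV hd hM (by linarith) (by linarith) G hfam hbot S₀ hS₀
      F hFB hFne hdF hc hFM hFup (G.filter (fun H => ¬ S₀.inf id ≤ H)) (filter_subset _ _)
      (fun H hH => (mem_filter.1 hH).2)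
    rw [hsplit', add_mul]
    have e1 : 2 * FT (K ^ 3) * K ^ (3 * (r + 2)) * K ^ 6 *
        (((r : ℝ) + 2) * (C3 * M ^ (r + 2))) = A3 * M ^ (r + 2) := by
      rw [hA3]; ring
    have e2 : FT (K ^ 3) * K ^ (3 * (r + 2)) * M ^ (r + 2) = A2 * M ^ (r + 2) := rfl
    rw [e2] at hGP
    rw [e1] at hG1
    have h3 : 0 ≤ A1 * M ^ (r + 2) := by positivity
    calc _ ≤ A2 * M ^ (r + 2) + A3 * M ^ (r + 2) := add_le_add hGP hG1
      _ ≤ _ := by
          rw [add_mul, add_mul]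
          linarith

/-- The hyperplane bound in all dimensions with a polynomial constant. -/
theorem T_all (s : ℕ) : ∃ F : ℝ → ℝ, PolyK F ∧ ∀ s', 1 ≤ s' → s' ≤ s → TS s' F := by
  induction s with
  | zero =>
    exact ⟨fun _ => 1, PolyK.cst 1 (le_refl 1), fun s' h1 h2 => by omega⟩
  | succ s ih =>
    obtain ⟨F, hF, h⟩ := ih
    rcases Nat.eq_zero_or_pos s with rfl | hs
    · refine ⟨fun _ => 1, PolyK.cst 1 (le_refl 1), fun s' h1 h2 => ?_⟩
      obtain rfl : s' = 1 := by omega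
      exact ts_one
    · obtain ⟨r, rfl⟩ : ∃ r, s = r + 1 := ⟨s - 1, by omega⟩
      obtain ⟨Ff, hFf, hFC, hFS⟩ := flat_all r
      have hstep := T_step r F hF (fun s' h1 h2 => h s' h1 (by omega)) Ff hFf (hFC r (le_refl r)) hFS
      have hnew := newF_poly r hF hFf
      refine ⟨fun K => F K + newF r F Ff K, hF.add hnew, fun s' h1 h2 => ?_⟩
      by_cases h3 : s' ≤ r + 1
      · exact (h s' h1 h3).mono (fun K hK => by linarith [hnew.2 K hK])
      · obtain rfl : s' = r + 2 := by omega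
        exact hstep.mono (fun K hK => by linarith [hF.2 K hK])

end Family

end Vale.Agent.Lib.P054
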