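import Vale.Agent.Lib.P054.Lines

/-!
# Summation from weak-type counting bounds, with power savings
-/

open Finset

namespace Vale.Agent.Lib.P054

/-- The sixth root of a natural number. -/
noncomputable def tau6 (j : ℕ) : ℝ := (j : ℝ) ^ ((1 : ℝ) / 6)

lemma tau6_nonneg (j : ℕ) : 0 ≤ tau6 j := Real.rpow_nonneg (Nat.cast_nonneg j) _

lemma tau6_pow (j : ℕ) : tau6 j ^ 6 = j := by
  unfold tau6
  rw [← Real.rpow_natCast, ← Real.rpow_mul (Nat.cast_nonneg j)]
  norm_num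

lemma tau6_pos {j : ℕ} (hj : 1 ≤ j) : 0 < tau6 j := by
  apply lt_of_le_of_ne (tau6_nonneg j)
  intro h
  have h2 := tau6_pow j
  rw [← h] at h2
  have h3 : (j : ℝ) = 0 := by
    rw [← h2]; norm_num
  have h4 : j = 0 := by exact_mod_cast h3
  omega

lemma tau6_mono {i j : ℕ} (h : i ≤ j) : tau6 i ≤ tau6 j := by
  unfold tau6
  apply Real.rpow_le_rpow (Nat.cast_nonneg i) (by exact_mod_cast h) (by norm_num)

/-- The telescoping step for the exponent five sixths. -/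
lemma tau_step_five (J : ℕ) : 1 / tau6 (J + 1) ^ 5 ≤ 6 * (tau6 (J + 1) - tau6 J) := by
  have hy0 : 0 < tau6 (J + 1) := tau6_pos (by omega)
  have hy'0 := tau6_nonneg J
  have hle : tau6 J ≤ tau6 (J + 1) := tau6_mono (by omega)
  set y := tau6 (J + 1) with hy
  set y' := tau6 J with hy'
  have h6 : y ^ 6 - y' ^ 6 = 1 := by
    rw [hy, hy', tau6_pow, tau6_pow]; push_cast; ring
  set P := y ^ 5 + y ^ 4 * y' + y ^ 3 * y' ^ 2 + y ^ 2 * y' ^ 3 + y * y' ^ 4 + y' ^ 5 with hP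
  have hfac : (y - y') * P = 1 := by
    rw [← h6, hP]; ring
  have hP6 : P ≤ 6 * y ^ 5 := by
    have h1 : y ^ 4 * y' ≤ y ^ 4 * y := by gcongr
    have h2 : y ^ 3 * y' ^ 2 ≤ y ^ 3 * y ^ 2 := by gcongr
    have h3 : y ^ 2 * y' ^ 3 ≤ y ^ 2 * y ^ 3 := by gcongr
    have h4 : y * y' ^ 4 ≤ y * y ^ 4 := by gcongr
    have h5 : y' ^ 5 ≤ y ^ 5 := by gcongr
    rw [hP]
    nlinarith
  have hd : 0 ≤ y - y' := by linarith
  have h1 : 1 ≤ (y - y') * (6 * y ^ 5) := by
    calc 1 = (y - y') * P := hfac.symm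
      _ ≤ _ := mul_le_mul_of_nonneg_left hP6 hd
  rw [div_le_iff₀ (by positivity)]
  nlinarith

/-- The telescoping step for the exponent three halves. -/
lemma tau_step_nine (J : ℕ) (hJ : 1 ≤ J) :
    1 / tau6 (J + 1) ^ 9 ≤ 2 * (1 / tau6 J ^ 3 - 1 / tau6 (J + 1) ^ 3) := by
  have hy0 : 0 < tau6 (J + 1) := tau6_pos (by omega)
  have hy'0 : 0 < tau6 J := tau6_pos hJ
  have hle : tau6 J ≤ tau6 (J + 1) := tau6_mono (by omega)
  set a := tau6 J ^ 3 with ha
  set b := tau6 (J + 1) ^ 3 with hb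
  have ha0 : 0 < a := by positivity
  have hb0 : 0 < b := by positivity
  have hab : a ≤ b := by rw [ha, hb]; gcongr
  have h2 : b ^ 2 - a ^ 2 = 1 := by
    have h3 : b ^ 2 = tau6 (J + 1) ^ 6 := by rw [hb]; ring
    have h4 : a ^ 2 = tau6 J ^ 6 := by rw [ha]; ring
    rw [h3, h4, tau6_pow, tau6_pow]; push_cast; ring
  have h9 : tau6 (J + 1) ^ 9 = b ^ 3 := by rw [hb]; ring
  rw [h9]
  have h3 : 1 / a - 1 / b = (b - a) / (a * b) := by
    field_simp
  rw [h3, div_le_iff₀ (by positivity)]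
  have h4 : (b - a) * (b + a) = 1 := by nlinarith
  have hd : 0 ≤ b - a := by linarith
  rw [mul_div_assoc', div_mul_eq_mul_div, le_div_iff₀ (by positivity)]
  -- Goal: `a * b ≤ 2 * (b - a) * b ^ 3`.
  have h5 : b ≤ 2 * (b - a) * b ^ 2 := by
    have h6 : (b - a) * (b + a) * b ≤ (b - a) * (2 * b) * b := by
      gcongr
      linarith
    nlinarith
  have h7 : a * b ≤ b * b := by gcongr
  nlinarith

/-- The arithmetic of one counting step. -/
lemma count_arith (K ρ τ z : ℝ) (hK : 0 < K) (hρ : 0 < ρ) (hτ : 0 < τ) (hz : 0 < z)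
    (hz1 : 16640 * K ^ 12 * ρ ^ 9 / τ ^ 9 < z) (hz2 : 2072 * K ^ 10 * ρ ^ 7 / τ ^ 5 < z) :
    12 * K ^ 4 * ρ ^ 6 / (8 * K ^ 2 * ρ ^ 3 / τ ^ 3) ^ 2 = 3 / 16 * τ ^ 6 ∧
    520 * K ^ 10 * ρ ^ 6 / (z / (8 * K ^ 2 * ρ ^ 3 / τ ^ 3)) ≤ τ ^ 6 / 4 ∧
    4326656 * K ^ 24 * ρ ^ 12 / (z / (8 * K ^ 2 * ρ ^ 3 / τ ^ 3)) ^ 3 ≤ τ ^ 6 / 4 := by
  refine ⟨?_, ?_, ?_⟩
  · field_simp
    ring
  · rw [div_lt_iff₀ (by positivity)] at hz1
    have h1 : 520 * K ^ 10 * ρ ^ 6 / (z / (8 * K ^ 2 * ρ ^ 3 / τ ^ 3)) =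
        (16640 * K ^ 12 * ρ ^ 9) / (4 * z * τ ^ 3) := by
      field_simp
      ring
    rw [h1, div_le_iff₀ (by positivity)]
    nlinarith
  · rw [div_lt_iff₀ (by positivity)] at hz2
    have h1 : 4326656 * K ^ 24 * ρ ^ 12 / (z / (8 * K ^ 2 * ρ ^ 3 / τ ^ 3)) ^ 3 =
        (2215247872 * K ^ 30 * ρ ^ 21) / (z ^ 3 * τ ^ 9) := by
      field_simp
      ring
    rw [h1, div_le_iff₀ (by positivity)]
    have h2 : (2072 * K ^ 10 * ρ ^ 7) ^ 3 ≤ (z * τ ^ 5) ^ 3 := by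
      gcongr
    have h3 : (2072 * K ^ 10 * ρ ^ 7) ^ 3 = 8895477248 * (K ^ 30 * ρ ^ 21) := by ring
    have h4 : (z * τ ^ 5) ^ 3 = z ^ 3 * τ ^ 15 := by ring
    rw [h3, h4] at h2
    have h5 : τ ^ 6 / 4 * (z ^ 3 * τ ^ 9) = z ^ 3 * τ ^ 15 / 4 := by ring
    rw [h5]
    have h6 : 0 ≤ K ^ 30 * ρ ^ 21 := by positivity
    nlinarith

/-- From the three counting bounds to the sum of the products. -/
theorem sum_from_counts {ι : Type*} [DecidableEq ι] (I : Finset ι) (b c : ι → ℝ)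
    (hb : ∀ i, 0 ≤ b i) (hc : ∀ i, 0 ≤ c i) (K ρ : ℝ) (hK : 1 ≤ K) (hρ : 1 ≤ ρ)
    (hJ : (I.card : ℝ) ≤ K * ρ ^ 6)
    (hcap : ∀ i ∈ I, b i * c i ≤ K ^ 4 * ρ ^ 6)
    (hbc : ∀ x : ℝ, 0 < x → ((I.filter (fun i => x ≤ b i)).card : ℝ) ≤ 1 + 12 * K ^ 4 * ρ ^ 6 / x ^ 2)
    (hcc : ∀ κ : ℝ, 0 < κ → ((I.filter (fun i => κ ≤ c i)).card : ℝ) ≤
      520 * K ^ 10 * ρ ^ 6 / κ + 4326656 * K ^ 24 * ρ ^ 12 / κ ^ 3) :
    ∑ i ∈ I, b i * c i ≤ 45717 * K ^ 12 * ρ ^ 8 := by
  have hK0 : 0 < K := by linarith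
  have hρ0 : 0 < ρ := by linarith
  set G : ℝ := K ^ 4 * ρ ^ 6 with hG
  have hG0 : 0 ≤ G := by positivity
  set B1 : ℝ := 16640 * K ^ 12 * ρ ^ 9 with hB1
  set B2 : ℝ := 2072 * K ^ 10 * ρ ^ 7 with hB2
  have hB10 : 0 ≤ B1 := by positivity
  have hB20 : 0 ≤ B2 := by positivity
  set j0 : ℕ := ⌈ρ ^ 2⌉₊ + 3 with hj0
  have hj03 : 3 ≤ j0 := by omega
  have hj0le : (j0 : ℝ) ≤ ρ ^ 2 + 4 := by
    rw [hj0]
    push_cast
    have := Nat.ceil_lt_add_one (by positivity : 0 ≤ ρ ^ 2)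
    linarith
  have hj0ge : ρ ^ 2 ≤ (j0 : ℝ) := by
    rw [hj0]
    push_cast
    have := Nat.le_ceil (ρ ^ 2)
    linarith
  set h : ℕ → ℝ := fun j => if j ≤ j0 then G else B1 / tau6 j ^ 9 + B2 / tau6 j ^ 5 with hh
  have hmain := sum_le_sum_of_count I (fun i => b i * c i) h (by
    intro j z hj hz
    by_cases hj2 : j ≤ j0
    · have hz' : G < z := by simpa [hh, hj2] using hz
      have : I.filter (fun i => z ≤ b i * c i) = ∅ := by
        apply filter_eq_empty_iff.2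
        intro i hi
        exact not_le.2 (lt_of_le_of_lt (hcap i hi) hz')
      rw [this, card_empty]
      omega
    · have hz' : B1 / tau6 j ^ 9 + B2 / tau6 j ^ 5 < z := by simpa [hh, hj2] using hz
      have hτ : 0 < tau6 j := tau6_pos (by omega)
      have ht1 : 0 ≤ B1 / tau6 j ^ 9 := by positivity
      have ht2 : 0 ≤ B2 / tau6 j ^ 5 := by positivity
      have hz0 : 0 < z := by linarith
      obtain ⟨h1, h2, h3⟩ := count_arith K ρ (tau6 j) z hK0 hρ0 hτ hz0 (by linarith) (by linarith)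
      set x : ℝ := 8 * K ^ 2 * ρ ^ 3 / tau6 j ^ 3 with hx
      have hx0 : 0 < x := by positivity
      have hκ0 : 0 < z / x := by positivity
      have hsub : I.filter (fun i => z ≤ b i * c i) ⊆
          I.filter (fun i => x ≤ b i) ∪ I.filter (fun i => z / x ≤ c i) := by
        intro i hi
        obtain ⟨hi1, hi2⟩ := mem_filter.1 hi
        rw [mem_union, mem_filter, mem_filter]
        by_contra hcon
        push Not at hcon
        have h4 := hcon.1 hi1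
        have h5 := hcon.2 hi1
        have h6 : b i * c i < x * (z / x) := by
          calc b i * c i ≤ x * c i := mul_le_mul_of_nonneg_right h4.le (hc i)
            _ < x * (z / x) := mul_lt_mul_of_pos_left h5 hx0
        have h7 : x * (z / x) = z := by field_simp
        linarith
      have h4 : ((I.filter (fun i => z ≤ b i * c i)).card : ℝ) ≤
          ((I.filter (fun i => x ≤ b i)).card : ℝ) + ((I.filter (fun i => z / x ≤ c i)).card : ℝ) := by
        exact_mod_cast (card_le_card hsub).trans (card_union_le _ _)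
      have h5 := hbc x hx0
      have h6 := hcc (z / x) hκ0
      rw [h1] at h5
      have h7 : tau6 j ^ 6 = (j : ℝ) := tau6_pow j
      rw [h7] at h5 h2 h3
      have hj4 : (4 : ℝ) ≤ j := by exact_mod_cast (by omega : 4 ≤ j)
      have h8 : ((I.filter (fun i => z ≤ b i * c i)).card : ℝ) < j := by linarith
      exact_mod_cast h8)
  refine hmain.trans ?_
  -- The telescoping induction.
  have hind : ∀ J : ℕ, ∑ j ∈ range J, h (j + 1) ≤
      ((min J j0 : ℕ) : ℝ) * G +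
        2 * B1 * (1 / tau6 j0 ^ 3 - 1 / tau6 (max J j0) ^ 3) + 6 * B2 * tau6 J := by
    intro J
    induction J with
    | zero =>
      have h1 := tau6_nonneg 0
      simp only [range_zero, sum_empty, Nat.zero_min, Nat.cast_zero, zero_mul, zero_add]
      have h2 : max 0 j0 = j0 := by omega
      rw [h2, sub_self, mul_zero, zero_add]
      positivity
    | succ J ih =>
      rw [sum_range_succ]
      by_cases hJ' : J + 1 ≤ j0
      · have e1 : h (J + 1) = G := by simp [hh, hJ']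
        have e2 : min (J + 1) j0 = J + 1 := by omega
        have e3 : min J j0 = J := by omega
        have e4 : max (J + 1) j0 = j0 := by omega
        have e5 : max J j0 = j0 := by omega
        rw [e1, e2]
        rw [e3, e5] at ih
        rw [e4]
        have h1 : tau6 J ≤ tau6 (J + 1) := tau6_mono (by omega)
        have h2 : 6 * B2 * tau6 J ≤ 6 * B2 * tau6 (J + 1) := by gcongr
        push_cast
        nlinarith
      · have hJj : j0 ≤ J := by omega
        have hJ1 : 1 ≤ J := by omega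
        have e1 : h (J + 1) = B1 / tau6 (J + 1) ^ 9 + B2 / tau6 (J + 1) ^ 5 := by simp [hh, hJ']
        have e2 : min (J + 1) j0 = j0 := by omega
        have e3 : min J j0 = j0 := by omega
        have e4 : max (J + 1) j0 = J + 1 := by omega
        have e5 : max J j0 = J := by omega
        rw [e1, e2, e4]
        rw [e3, e5] at ih
        have h1 := tau_step_nine J hJ1
        have h2 := tau_step_five J
        have h3 : B1 / tau6 (J + 1) ^ 9 ≤ B1 * (2 * (1 / tau6 J ^ 3 - 1 / tau6 (J + 1) ^ 3)) := by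
          rw [div_eq_mul_one_div]
          exact mul_le_mul_of_nonneg_left h1 hB10
        have h4 : B2 / tau6 (J + 1) ^ 5 ≤ B2 * (6 * (tau6 (J + 1) - tau6 J)) := by
          rw [div_eq_mul_one_div]
          exact mul_le_mul_of_nonneg_left h2 hB20
        nlinarith
  have hfin := hind I.card
  -- Bounding the three pieces.
  have hτJ : tau6 I.card ≤ K * ρ := by
    have h1 : tau6 I.card ^ 6 ≤ (K * ρ) ^ 6 := by
      rw [tau6_pow]
      calc (I.card : ℝ) ≤ K * ρ ^ 6 := hJ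
        _ ≤ K ^ 6 * ρ ^ 6 := by
          gcongr
          calc K = K ^ 1 := (pow_one K).symm
            _ ≤ K ^ 6 := pow_le_pow_right₀ hK (by norm_num)
        _ = _ := by ring
    exact le_of_pow_le_pow_left₀ (by norm_num) (by positivity) h1
  have hτ0 : ρ ≤ tau6 j0 ^ 3 := by
    have hpos : 0 < tau6 j0 := tau6_pos (by omega)
    have h1 : ρ ^ 2 ≤ (tau6 j0 ^ 3) ^ 2 := by
      have h2 : (tau6 j0 ^ 3) ^ 2 = tau6 j0 ^ 6 := by ring
      rw [h2, tau6_pow]
      exact hj0ge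
    exact le_of_pow_le_pow_left₀ (by norm_num) (by positivity) h1
  have hp1 : 2 * B1 * (1 / tau6 j0 ^ 3 - 1 / tau6 (max I.card j0) ^ 3) ≤ 33280 * K ^ 12 * ρ ^ 8 := by
    have h1 : 1 / tau6 j0 ^ 3 ≤ 1 / ρ := by
      apply one_div_le_one_div_of_le hρ0 hτ0
    have h2 : 0 ≤ 1 / tau6 (max I.card j0) ^ 3 := by
      have := tau6_nonneg (max I.card j0)
      positivity
    have h3 : 1 / tau6 j0 ^ 3 - 1 / tau6 (max I.card j0) ^ 3 ≤ 1 / ρ := by linarith
    calc 2 * B1 * (1 / tau6 j0 ^ 3 - 1 / tau6 (max I.card j0) ^ 3) ≤ 2 * B1 * (1 / ρ) := by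
          gcongr
      _ = _ := by
          rw [hB1]; field_simp; ring
  have hp2 : 6 * B2 * tau6 I.card ≤ 12432 * K ^ 12 * ρ ^ 8 := by
    calc 6 * B2 * tau6 I.card ≤ 6 * B2 * (K * ρ) := by gcongr
      _ = 12432 * K ^ 11 * ρ ^ 8 := by rw [hB2]; ring
      _ ≤ _ := by
        have h3 : K ^ 11 ≤ K ^ 12 := pow_le_pow_right₀ hK (by norm_num)
        have h4 : 0 ≤ ρ ^ 8 := by positivity
        nlinarith
  have hp3 : ((min I.card j0 : ℕ) : ℝ) * G ≤ 5 * K ^ 12 * ρ ^ 8 := by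
    have h1 : ((min I.card j0 : ℕ) : ℝ) ≤ j0 := by
      exact_mod_cast min_le_right _ _
    have h2 : (j0 : ℝ) ≤ 5 * ρ ^ 2 := by
      have : 1 ≤ ρ ^ 2 := one_le_pow₀ hρ
      linarith
    calc ((min I.card j0 : ℕ) : ℝ) * G ≤ (5 * ρ ^ 2) * G := by
          apply mul_le_mul_of_nonneg_right (h1.trans h2) hG0
      _ = 5 * K ^ 4 * ρ ^ 8 := by rw [hG]; ring
      _ ≤ _ := by
        have h3 : K ^ 4 ≤ K ^ 12 := pow_le_pow_right₀ hK (by norm_num)
        have h4 : 0 ≤ ρ ^ 8 := by positivity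
        nlinarith
  have hsumfin : ∑ j ∈ range I.card, h (j + 1) ≤ 45717 * K ^ 12 * ρ ^ 8 := by
    linarith
  exact hsumfin

end Vale.Agent.Lib.P054
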