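import Vale.Agent.Lib.P054.Rich
import Vale.Agent.Lib.P054.Sum3

/-!
# Distinct norms in three dimensions for sets of small doubling
-/

open scoped Pointwise
open Finset

namespace Vale.Agent.Lib.P054

section Generic

variable {E : Type*} [NormedAddCommGroup E] [InnerProductSpace ℝ E] [DecidableEq E]

/-- Orthogonal pairs are counted by lines. -/
lemma orthPairs_le_sum_lines (W U : Finset E) :
    (orthPairs W U).card ≤
      ∑ ℓ ∈ spanLines W, (lineSet W ℓ).card * (lineSet U (ℓᗮ : Submodule ℝ E)).card := by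
  classical
  calc (orthPairs W U).card
      ≤ ((spanLines W).biUnion
          (fun ℓ => lineSet W ℓ ×ˢ lineSet U (ℓᗮ : Submodule ℝ E))).card := by
        apply card_le_card
        intro p hp
        rw [mem_orthPairs] at hp
        obtain ⟨h1, h2, h3, h4, h5⟩ := hp
        rw [mem_biUnion]
        refine ⟨Submodule.span ℝ {p.1}, mem_spanLines.2 ⟨p.1, h1, h3, rfl⟩, ?_⟩
        rw [mem_product]
        refine ⟨mem_lineSet.2 ⟨h1, h3, Submodule.mem_span_singleton_self _⟩,
          mem_lineSet.2 ⟨h2, h4, ?_⟩⟩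
        rw [Submodule.mem_orthogonal_singleton_iff_inner_right]
        exact h5
    _ ≤ ∑ ℓ ∈ spanLines W, (lineSet W ℓ ×ˢ lineSet U (ℓᗮ : Submodule ℝ E)).card := card_biUnion_le
    _ = _ := by simp only [card_product]

end Generic

/-- Three-dimensional Euclidean space. -/
abbrev E3 := EuclideanSpace ℝ (Fin 3)

/-- The cross product with `u`. -/
noncomputable def crs (u : E3) : E3 →ₗ[ℝ] E3 where
  toFun x := WithLp.toLp 2 ![u 1 * x 2 - u 2 * x 1, u 2 * x 0 - u 0 * x 2, u 0 * x 1 - u 1 * x 0]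
  map_add' x y := by
    ext i; fin_cases i <;> simp <;> ring
  map_smul' c x := by
    ext i; fin_cases i <;> simp <;> ring

@[simp] lemma crs_zero (u x : E3) : crs u x 0 = u 1 * x 2 - u 2 * x 1 := by
  simp [crs]

@[simp] lemma crs_one (u x : E3) : crs u x 1 = u 2 * x 0 - u 0 * x 2 := by
  simp [crs]

@[simp] lemma crs_two (u x : E3) : crs u x 2 = u 0 * x 1 - u 1 * x 0 := by
  simp [crs]

lemma inner_e3 (x y : E3) : inner ℝ x y = x 0 * y 0 + x 1 * y 1 + x 2 * y 2 := by
  simp [PiLp.inner_apply, Fin.sum_univ_three]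
  ring

lemma ext_e3 {x y : E3} (h0 : x 0 = y 0) (h1 : x 1 = y 1) (h2 : x 2 = y 2) : x = y := by
  ext i; fin_cases i <;> assumption

lemma crs_eq_zero {u x : E3} (hu : u ≠ 0) (h : crs u x = 0) : x ∈ Submodule.span ℝ {u} := by
  have h0 : u 1 * x 2 - u 2 * x 1 = 0 := by
    have := congrArg (fun v : E3 => v 0) h
    simpa using this
  have h1 : u 2 * x 0 - u 0 * x 2 = 0 := by
    have := congrArg (fun v : E3 => v 1) h
    simpa using this
  have h2 : u 0 * x 1 - u 1 * x 0 = 0 := by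
    have := congrArg (fun v : E3 => v 2) h
    simpa using this
  rw [Submodule.mem_span_singleton]
  by_cases h3 : u 0 = 0
  · by_cases h4 : u 1 = 0
    · have h5 : u 2 ≠ 0 := by
        intro h5
        exact hu (ext_e3 (by simpa using h3) (by simpa using h4) (by simpa using h5))
      have hx0 : x 0 = 0 := by
        rw [h3] at h1
        have h6 : u 2 * x 0 = 0 := by linarith
        exact (mul_eq_zero.1 h6).resolve_left h5
      have hx1 : x 1 = 0 := by
        rw [h4] at h0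
        have h6 : u 2 * x 1 = 0 := by linarith
        exact (mul_eq_zero.1 h6).resolve_left h5
      refine ⟨x 2 / u 2, ?_⟩
      apply ext_e3
      · simp only [PiLp.smul_apply, smul_eq_mul]
        rw [h3, hx0]; ring
      · simp only [PiLp.smul_apply, smul_eq_mul]
        rw [h4, hx1]; ring
      · simp only [PiLp.smul_apply, smul_eq_mul]
        field_simp
    · refine ⟨x 1 / u 1, ?_⟩
      apply ext_e3
      · simp only [PiLp.smul_apply, smul_eq_mul]
        rw [h3] at h2 ⊢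
        have : x 0 = 0 := by
          have h6 : u 1 * x 0 = 0 := by linarith
          exact (mul_eq_zero.1 h6).resolve_left h4
        rw [this]
        ring
      · simp only [PiLp.smul_apply, smul_eq_mul]
        field_simp
      · simp only [PiLp.smul_apply, smul_eq_mul]
        field_simp
        linarith
  · refine ⟨x 0 / u 0, ?_⟩
    apply ext_e3
    · simp only [PiLp.smul_apply, smul_eq_mul]
      field_simp
    · simp only [PiLp.smul_apply, smul_eq_mul]
      field_simp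
      linarith
    · simp only [PiLp.smul_apply, smul_eq_mul]
      field_simp
      linarith

lemma crs_mem_span {δ u x : E3} (hδ : δ ≠ 0) (h1 : inner ℝ δ u = 0) (h2 : inner ℝ δ x = 0) :
    crs u x ∈ Submodule.span ℝ {δ} := by
  apply crs_eq_zero hδ
  rw [inner_e3] at h1 h2
  apply ext_e3
  · simp only [crs_zero, crs_one, crs_two, PiLp.zero_apply]
    linear_combination (u 0) * h2 - (x 0) * h1
  · simp only [crs_zero, crs_one, crs_two, PiLp.zero_apply]
    linear_combination (u 1) * h2 - (x 1) * h1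
  · simp only [crs_zero, crs_one, crs_two, PiLp.zero_apply]
    linear_combination (u 2) * h2 - (x 2) * h1

section Main

variable [DecidableEq E3]

/-- The theorem on distinct norms for a finite set in three dimensions. -/
theorem space_norms (A : Finset E3) (hA : A.Nonempty) :
    (A.card : ℝ) ^ 2 ≤ 10 ^ 14 * ((A.image norm).card : ℝ) ^ 3 *
      (((A + A).card : ℝ) / (A.card : ℝ)) ^ 36 := by
  classical
  have hd := dbl_of_nonempty A hA
  have hn1 : 1 ≤ A.card := card_pos.2 hA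
  set K : ℝ := ((A + A).card : ℝ) / (A.card : ℝ) with hK
  have hK1 : 1 ≤ K := hd.hK
  have hK0 : 0 < K := by linarith
  set n : ℝ := (A.card : ℝ) with hn
  have hn1' : (1 : ℝ) ≤ n := by rw [hn]; exact_mod_cast hn1
  set ρ : ℝ := tau6 A.card with hρ
  have hρ6 : ρ ^ 6 = n := tau6_pow _
  have hρ1 : 1 ≤ ρ := by
    by_contra hcon
    push Not at hcon
    have h0 := tau6_nonneg A.card
    have h1 : ρ ^ 6 < 1 := pow_lt_one₀ h0 hcon (by norm_num)
    linarith
  have hρ0 : 0 < ρ := by linarith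
  set W := A + A with hW
  set U := A - A with hU
  set I := spanLines W with hI
  set b : Submodule ℝ E3 → ℝ := fun ℓ => ((lineSet W ℓ).card : ℝ) with hb
  set c : Submodule ℝ E3 → ℝ := fun ℓ => ((lineSet U (ℓᗮ : Submodule ℝ E3)).card : ℝ) with hc
  have hJ : (I.card : ℝ) ≤ K * ρ ^ 6 := by
    rw [hρ6]
    have h1 : (I.card : ℝ) ≤ (W.card : ℝ) := by exact_mod_cast spanLines_card_le W
    exact h1.trans hd.hW
  have hcap : ∀ ℓ ∈ I, b ℓ * c ℓ ≤ K ^ 4 * ρ ^ 6 := by
    intro ℓ _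
    rw [hρ6]
    have h3 := direct_sum_card (lineSet W ℓ) (lineSet U (ℓᗮ : Submodule ℝ E3)) ℓ ℓᗮ
      (Submodule.inf_orthogonal_eq_bot ℓ)
      (fun x hx => (mem_lineSet.1 hx).2.2) (fun x hx => (mem_lineSet.1 hx).2.2)
    have h4 : lineSet W ℓ + lineSet U (ℓᗮ : Submodule ℝ E3) ⊆ W + U :=
      add_subset_add (fun x hx => (mem_lineSet.1 hx).1) (fun x hx => (mem_lineSet.1 hx).1)
    have h5 : b ℓ * c ℓ ≤ ((W + U).card : ℝ) := by
      simp only [hb, hc]
      exact_mod_cast h3.trans (card_le_card h4)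
    exact h5.trans hd.hWU
  have hbc : ∀ x : ℝ, 0 < x → ((I.filter (fun ℓ => x ≤ b ℓ)).card : ℝ) ≤
      1 + 12 * K ^ 4 * ρ ^ 6 / x ^ 2 := by
    intro x hx
    rw [hρ6]
    set SW := W ∪ -W with hSW
    have h1 := rich_filter_card_le SW (symm_neg_mem W) I spanLines_line x hx
    have h2 : I.filter (fun ℓ => x ≤ b ℓ) ⊆ I.filter (fun ℓ => x ≤ ((lineSet SW ℓ).card : ℝ)) := by
      intro ℓ hℓ
      obtain ⟨h3, h4⟩ := mem_filter.1 hℓ
      refine mem_filter.2 ⟨h3, h4.trans ?_⟩
      simp only [hb]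
      exact_mod_cast card_le_card (lineSet_mono subset_union_left ℓ)
    have h3 : ((I.filter (fun ℓ => x ≤ b ℓ)).card : ℝ) ≤
        ((I.filter (fun ℓ => x ≤ ((lineSet SW ℓ).card : ℝ))).card : ℝ) := by
      exact_mod_cast card_le_card h2
    have h4 : 4 * ((SW + SW).card : ℝ) / x ^ 2 ≤ 12 * K ^ 4 * n / x ^ 2 := by
      have h5 : ((SW + SW).card : ℝ) ≤ 3 * K ^ 4 * n := hd.hSW
      apply div_le_div_of_nonneg_right _ (by positivity)
      linarith
    linarith
  have hcc : ∀ κ : ℝ, 0 < κ → ((I.filter (fun ℓ => κ ≤ c ℓ)).card : ℝ) ≤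
      520 * K ^ 10 * ρ ^ 6 / κ + 4326656 * K ^ 24 * ρ ^ 12 / κ ^ 3 := by
    intro κ hκ
    have h12 : ρ ^ 12 = n ^ 2 := by
      rw [← hρ6]; ring
    rw [hρ6, h12]
    exact rich_count hd crs (fun u x hu h => crs_eq_zero hu h)
      (fun δ u x hδ h1 h2 => crs_mem_span hδ h1 h2) κ hκ
  have hsum := sum_from_counts I b c (fun _ => by positivity) (fun _ => by positivity) K ρ hK1 hρ1
    hJ hcap hbc hcc
  have horth : ((orthPairs W U).card : ℝ) ≤ ∑ ℓ ∈ I, b ℓ * c ℓ := by
    have h1 := orthPairs_le_sum_lines W U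
    have h2 : ((orthPairs W U).card : ℝ) ≤
        ((∑ ℓ ∈ spanLines W, (lineSet W ℓ).card * (lineSet U (ℓᗮ : Submodule ℝ E3)).card : ℕ) : ℝ) := by
      exact_mod_cast h1
    push_cast at h2
    exact h2
  have hE := energy_le A
  have hE2 : (((A ×ˢ A).filter (fun p => ‖p.1‖ = ‖p.2‖)).card : ℝ) ≤
      2 * n + ((orthPairs W U).card : ℝ) := by
    rw [hn]
    exact_mod_cast hE
  have hCS := card_sq_le_image_mul_pairs A norm
  set nu : ℝ := ((A.image norm).card : ℝ) with hnu
  have hCS2 : n ^ 2 ≤ nu * (((A ×ˢ A).filter (fun p => ‖p.1‖ = ‖p.2‖)).card : ℝ) := by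
    rw [hn, hnu]
    exact_mod_cast hCS
  have hnu0 : 0 ≤ nu := by positivity
  have hK12 : 1 ≤ K ^ 12 := one_le_pow₀ hK1
  have hEb : (((A ×ˢ A).filter (fun p => ‖p.1‖ = ‖p.2‖)).card : ℝ) ≤ 45719 * K ^ 12 * ρ ^ 8 := by
    have h1 : 2 * n ≤ 2 * K ^ 12 * ρ ^ 8 := by
      rw [← hρ6]
      have h2 : ρ ^ 6 ≤ ρ ^ 8 := pow_le_pow_right₀ hρ1 (by norm_num)
      have h3 : 0 ≤ ρ ^ 8 := by positivity
      nlinarith
    have h2 : ((orthPairs W U).card : ℝ) ≤ 45717 * K ^ 12 * ρ ^ 8 := horth.trans hsum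
    linarith
  have hmain : ρ ^ 4 ≤ 45719 * nu * K ^ 12 := by
    have h1 : ρ ^ 12 ≤ nu * (45719 * K ^ 12 * ρ ^ 8) := by
      have h2 : ρ ^ 12 = n ^ 2 := by rw [← hρ6]; ring
      rw [h2]
      exact hCS2.trans (mul_le_mul_of_nonneg_left hEb hnu0)
    have h3 : ρ ^ 4 * ρ ^ 8 ≤ (45719 * nu * K ^ 12) * ρ ^ 8 := by
      calc ρ ^ 4 * ρ ^ 8 = ρ ^ 12 := by ring
        _ ≤ _ := h1
        _ = _ := by ring
    exact le_of_mul_le_mul_right h3 (by positivity)
  have hcube : (ρ ^ 4) ^ 3 ≤ (45719 * nu * K ^ 12) ^ 3 := by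
    gcongr
  have h12 : (ρ ^ 4) ^ 3 = n ^ 2 := by
    rw [← hρ6]; ring
  rw [h12] at hcube
  calc n ^ 2 ≤ (45719 * nu * K ^ 12) ^ 3 := hcube
    _ = 45719 ^ 3 * (nu ^ 3 * K ^ 36) := by ring
    _ ≤ 10 ^ 14 * (nu ^ 3 * K ^ 36) := by
        apply mul_le_mul_of_nonneg_right (by norm_num) (by positivity)
    _ = _ := by ring

end Main

end Vale.Agent.Lib.P054
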