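import Vale.Agent.Lib.P054.Gen3
import Vale.Agent.Lib.P054.Space3

/-!
# Slices of a set in a subspace direction, seen inside the subspace
-/

open scoped Pointwise
open Finset
open Module (finrank)

namespace Vale.Agent.Lib.P054

set_option linter.unusedSectionVars false
set_option linter.style.haveILetI false

/-- The statement on distinct norms in a given dimension. -/
def MS (d : ℕ) (C : ℝ → ℝ) : Prop :=
  ∀ (E : Type) [NormedAddCommGroup E] [InnerProductSpace ℝ E] [FiniteDimensional ℝ E]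
    [DecidableEq E] (A : Finset E) (K : ℝ), finrank ℝ E = d → Doubling A K →
    (A.card : ℝ) ^ 2 ≤ C K * ((A.image norm).card : ℝ) ^ d

lemma MS.mono {d : ℕ} {F G : ℝ → ℝ} (h : MS d F) (hFG : ∀ K, 1 ≤ K → F K ≤ G K) : MS d G := by
  intro E _ _ _ _ A K hE hd
  refine (h E A K hE hd).trans ?_
  have := hFG K hd.one_le
  gcongr

section Inner

variable {E : Type} [NormedAddCommGroup E] [InnerProductSpace ℝ E] [FiniteDimensional ℝ E]
  [DecidableEq E]

/-- Orthogonal projection onto `Γ` of a set with differences in `Γ`. -/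
lemma slice_proj (Γ : Submodule ℝ E) (F : Finset E) (hF : ∀ a ∈ F, ∀ b ∈ F, a - b ∈ Γ)
    [DecidableEq Γ] :
    (F.image (fun a => Γ.orthogonalProjectionOnto a)).card = F.card ∧
    ((F.image (fun a => Γ.orthogonalProjectionOnto a)).image norm).card ≤ (F.image norm).card ∧
    ((F.image (fun a => Γ.orthogonalProjectionOnto a)) +
      (F.image (fun a => Γ.orthogonalProjectionOnto a))).card ≤ (F + F).card := by
  classical
  refine ⟨?_, ?_, ?_⟩
  · apply card_image_of_injOn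
    intro a ha b hb hab
    have h1 : a - b ∈ Γ := hF a ha b hb
    have h2 : Γ.orthogonalProjectionOnto (a - b) = ⟨a - b, h1⟩ :=
      Submodule.orthogonalProjectionOnto_mem_subspace_eq_self ⟨a - b, h1⟩
    have h3 : Γ.orthogonalProjectionOnto (a - b) = 0 := by
      rw [map_sub]
      exact sub_eq_zero.2 hab
    rw [h3] at h2
    have h4 : a - b = 0 := by
      have := congrArg Subtype.val h2
      simpa using this.symm
    exact sub_eq_zero.1 h4
  · rw [image_image]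
    apply card_image_le_of_forall
    intro a ha b hb hab
    have h1 : a - b ∈ Γ := hF a ha b hb
    have h2 : Γᗮ.orthogonalProjectionOnto (a - b) = 0 :=
      Submodule.orthogonalProjectionOnto_orthogonal_apply_eq_zero h1
    have h3 : Γᗮ.orthogonalProjectionOnto a = Γᗮ.orthogonalProjectionOnto b := by
      rw [map_sub] at h2
      exact sub_eq_zero.1 h2
    have h4 := Submodule.norm_sq_eq_add_norm_sq_projection a Γ
    have h5 := Submodule.norm_sq_eq_add_norm_sq_projection b Γ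
    rw [h3] at h4
    have hab' : ‖a‖ = ‖b‖ := hab
    have h6 : ‖Γ.orthogonalProjectionOnto a‖ ^ 2 = ‖Γ.orthogonalProjectionOnto b‖ ^ 2 := by
      rw [hab'] at h4
      linarith
    have h7 : ‖Γ.orthogonalProjectionOnto a‖ = ‖Γ.orthogonalProjectionOnto b‖ := by
      exact (pow_left_inj₀ (norm_nonneg _) (norm_nonneg _) (by norm_num)).1 h6
    exact h7
  · have hsub : (F.image (fun a => Γ.orthogonalProjectionOnto a)) +
        (F.image (fun a => Γ.orthogonalProjectionOnto a)) ⊆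
        (F + F).image (fun a => Γ.orthogonalProjectionOnto a) := by
      intro x hx
      obtain ⟨_, h1, _, h2, rfl⟩ := mem_add.1 hx
      obtain ⟨a, ha, rfl⟩ := mem_image.1 h1
      obtain ⟨b, hb, rfl⟩ := mem_image.1 h2
      exact mem_image.2 ⟨a + b, add_mem_add ha hb, map_add _ a b⟩
    exact (card_le_card hsub).trans card_image_le

/-- The theorem in lower dimension applied to a slice. -/
lemma slice_MS {j : ℕ} {C : ℝ → ℝ} (hMS : MS j C) (Γ : Submodule ℝ E) (hΓ : finrank ℝ Γ = j)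
    (F : Finset E) (hF : ∀ a ∈ F, ∀ b ∈ F, a - b ∈ Γ) {K' : ℝ} (hd : Doubling F K')
    (hC : 0 ≤ C K') :
    (F.card : ℝ) ^ 2 ≤ C K' * ((F.image norm).card : ℝ) ^ j := by
  classical
  obtain ⟨h1, h2, h3⟩ := slice_proj Γ F hF
  set F' := F.image (fun a => Γ.orthogonalProjectionOnto a) with hF'
  have hd' : Doubling F' K' := by
    refine ⟨hd.ne.image _, hd.one_le, ?_⟩
    rw [h1]
    refine le_trans ?_ hd.add
    exact_mod_cast h3
  have h4 := hMS Γ F' K' hΓ hd'
  rw [h1] at h4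
  refine h4.trans ?_
  have h5 : ((F'.image norm).card : ℝ) ≤ ((F.image norm).card : ℝ) := by exact_mod_cast h2
  gcongr

/-- Norms on a line. -/
lemma norm_eq_line {Γ : Submodule ℝ E} (hΓ : finrank ℝ Γ = 1) (x y : Γ) (h : ‖x‖ = ‖y‖) :
    x = y ∨ x = -y := by
  obtain ⟨v, hv, hspan⟩ := finrank_eq_one_iff'.1 hΓ
  obtain ⟨s, rfl⟩ := hspan x
  obtain ⟨t, rfl⟩ := hspan y
  rw [norm_smul, norm_smul] at h
  have hv0 : ‖v‖ ≠ 0 := norm_ne_zero_iff.2 hv
  have h1 : ‖s‖ = ‖t‖ := mul_right_cancel₀ hv0 h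
  rw [Real.norm_eq_abs, Real.norm_eq_abs] at h1
  rcases (abs_eq_abs.1 h1) with h2 | h2
  · left; rw [h2]
  · right; rw [h2, neg_smul]

/-- Collinear sets have many norms. -/
lemma slice_line (Γ : Submodule ℝ E) (hΓ : finrank ℝ Γ = 1) (F : Finset E)
    (hF : ∀ a ∈ F, ∀ b ∈ F, a - b ∈ Γ) : F.card ≤ 2 * (F.image norm).card := by
  classical
  obtain ⟨h1, h2, _⟩ := slice_proj Γ F hF
  set F' := F.image (fun a => Γ.orthogonalProjectionOnto a) with hF'
  have h3 : F'.card ≤ 2 * (F'.image norm).card := by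
    apply card_le_mul_card_image
    intro r hr
    obtain ⟨x, hx, rfl⟩ := mem_image.1 hr
    have h4 : F'.filter (fun y => ‖y‖ = ‖x‖) ⊆ {x, -x} := by
      intro y hy
      have h5 := (mem_filter.1 hy).2
      rcases norm_eq_line hΓ y x h5 with h6 | h6
      · rw [h6]; simp
      · rw [h6]; simp
    exact (card_le_card h4).trans (card_le_two)
  rw [h1] at h3
  exact h3.trans (Nat.mul_le_mul_left 2 h2)

/-- The slice of `A` in the direction `Γ`. -/
lemma exists_slice_data {A : Finset E} {K : ℝ} (hd : Doubling A K) (Γ : Submodule ℝ E) :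
    ∃ F ⊆ A, (∀ a ∈ F, ∀ b ∈ F, a - b ∈ Γ) ∧ Doubling F (K ^ 3) ∧
      ((partIn (A - A) Γ).card : ℝ) ≤ K ^ 3 * F.card ∧ (F.image norm).card ≤ (A.image norm).card := by
  obtain ⟨F, hFB, hFne, hdF, hc⟩ := exists_slice A hd.ne Γ
  exact ⟨F, hFB, hdF, hd.slice hFB hFne hdF hc, hd.partIn_le_slice hc,
    card_le_card (image_subset_image hFB)⟩

/-- The differences on a line. -/
lemma partIn_line_le {A : Finset E} {K : ℝ} (hd : Doubling A K) (Γ : Submodule ℝ E)
    (hΓ : finrank ℝ Γ = 1) :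
    ((partIn (A - A) Γ).card : ℝ) ≤ 2 * K ^ 3 * ((A.image norm).card : ℝ) := by
  obtain ⟨F, _, hdF, _, h1, h2⟩ := exists_slice_data hd Γ
  have h3 := slice_line Γ hΓ F hdF
  have h4 : (F.card : ℝ) ≤ 2 * ((A.image norm).card : ℝ) := by
    have : F.card ≤ 2 * (A.image norm).card := h3.trans (Nat.mul_le_mul_left 2 h2)
    exact_mod_cast this
  have hK3 : 0 ≤ K ^ 3 := by have := hd.K_pos; positivity
  calc _ ≤ _ := h1
    _ ≤ K ^ 3 * (2 * ((A.image norm).card : ℝ)) := mul_le_mul_of_nonneg_left h4 hK3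
    _ = _ := by ring

/-- The differences in a subspace of dimension at least three. -/
lemma partIn_high_le {A : Finset E} {K : ℝ} (hd : Doubling A K) {j : ℕ} {C : ℝ → ℝ} (hMS : MS j C)
    (Γ : Submodule ℝ E) (hΓ : finrank ℝ Γ = j) (hC : 1 ≤ C (K ^ 3)) (τ : ℝ) (hτ : 0 ≤ τ)
    (hτ2 : τ ^ 2 = ((A.image norm).card : ℝ)) :
    ((partIn (A - A) Γ).card : ℝ) ≤ K ^ 3 * C (K ^ 3) * τ ^ j := by
  obtain ⟨F, _, hdF, hF, h1, h2⟩ := exists_slice_data hd Γ
  have h3 := slice_MS hMS Γ hΓ F hdF hF (by linarith)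
  have hK0 := hd.K_pos
  have h4 : (F.card : ℝ) ≤ C (K ^ 3) * τ ^ j := by
    have h5 : (F.card : ℝ) ^ 2 ≤ (C (K ^ 3) * τ ^ j) ^ 2 := by
      calc (F.card : ℝ) ^ 2 ≤ _ := h3
        _ ≤ C (K ^ 3) * (τ ^ 2) ^ j := by
            rw [hτ2]
            have : ((F.image norm).card : ℝ) ≤ ((A.image norm).card : ℝ) := by exact_mod_cast h2
            gcongr
        _ = C (K ^ 3) * (τ ^ j) ^ 2 := by ring
        _ ≤ C (K ^ 3) ^ 2 * (τ ^ j) ^ 2 := by
            have h6 : C (K ^ 3) ≤ C (K ^ 3) ^ 2 := by nlinarith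
            gcongr
        _ = _ := by ring
    exact le_of_pow_le_pow_left₀ (by norm_num) (by positivity) h5
  have hK3 : 0 ≤ K ^ 3 := by positivity
  calc _ ≤ _ := h1
    _ ≤ K ^ 3 * (C (K ^ 3) * τ ^ j) := mul_le_mul_of_nonneg_left h4 hK3
    _ = _ := by ring

/-- Enlarging a subspace by one dimension. -/
lemma exists_succ_finrank (Γ : Submodule ℝ E) (h : finrank ℝ Γ < finrank ℝ E) :
    ∃ Γ' : Submodule ℝ E, Γ ≤ Γ' ∧ finrank ℝ Γ' = finrank ℝ Γ + 1 := by
  have hne : Γ ≠ ⊤ := by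
    intro h0
    rw [h0, finrank_top] at h
    exact lt_irrefl _ h
  obtain ⟨v, hv⟩ := SetLike.exists_not_mem_of_ne_top Γ hne rfl
  have hv0 : v ≠ 0 := by
    intro h0
    exact hv (h0 ▸ Γ.zero_mem)
  refine ⟨Γ ⊔ Submodule.span ℝ {v}, le_sup_left, ?_⟩
  have h1 := Submodule.finrank_sup_add_finrank_inf_eq Γ (Submodule.span ℝ {v})
  have h2 : Γ ⊓ Submodule.span ℝ {v} = ⊥ := by
    rw [eq_bot_iff]
    intro x hx
    obtain ⟨h3, h4⟩ := Submodule.mem_inf.1 hx
    obtain ⟨c, rfl⟩ := Submodule.mem_span_singleton.1 h4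
    by_cases hc : c = 0
    · simp [hc]
    · exfalso
      apply hv
      have := Γ.smul_mem c⁻¹ h3
      rwa [smul_smul, inv_mul_cancel₀ hc, one_smul] at this
  rw [h2, finrank_bot, finrank_span_singleton hv0] at h1
  omega

/-- The bound on differences in any proper subspace. -/
lemma r_bound {d : ℕ} (hd4 : 4 ≤ d) (hE : finrank ℝ E = d) {C : ℝ → ℝ}
    (hMS : ∀ j, 3 ≤ j → j < d → MS j C) {A : Finset E} {K : ℝ} (hd : Doubling A K)
    (hC : 1 ≤ C (K ^ 3)) (τ : ℝ) (hτ : 1 ≤ τ) (hτ2 : τ ^ 2 = ((A.image norm).card : ℝ))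
    (Γ : Submodule ℝ E) (h1 : 1 ≤ finrank ℝ Γ) (h2 : finrank ℝ Γ < d) :
    ((partIn (A - A) Γ).card : ℝ) ≤ K ^ 3 * (C (K ^ 3) + 2) * τ ^ (finrank ℝ Γ + 1) := by
  have hK0 := hd.K_pos
  have hτ0 : 0 ≤ τ := by linarith
  have hK3 : 0 ≤ K ^ 3 := by positivity
  have hC0 : 0 ≤ C (K ^ 3) := by linarith
  by_cases h3 : 3 ≤ finrank ℝ Γ
  · have h4 := partIn_high_le hd (hMS _ h3 h2) Γ rfl hC τ hτ0 hτ2
    refine h4.trans ?_
    have h5 : τ ^ finrank ℝ Γ ≤ τ ^ (finrank ℝ Γ + 1) := pow_le_pow_right₀ hτ (by omega)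
    have h6 : K ^ 3 * C (K ^ 3) ≤ K ^ 3 * (C (K ^ 3) + 2) := by gcongr; linarith
    apply mul_le_mul h6 h5 (by positivity) (by positivity)
  · by_cases h4 : finrank ℝ Γ = 1
    · rw [h4]
      have h5 := partIn_line_le hd Γ h4
      rw [← hτ2] at h5
      refine h5.trans ?_
      have h6 : 2 * K ^ 3 ≤ K ^ 3 * (C (K ^ 3) + 2) := by nlinarith
      exact mul_le_mul_of_nonneg_right h6 (by positivity)
    · have h5 : finrank ℝ Γ = 2 := by omega
      rw [h5]
      obtain ⟨Γ', hle, hfr⟩ := exists_succ_finrank Γ (by omega)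
      rw [h5] at hfr
      have h6 := partIn_high_le hd (hMS 3 (le_refl 3) (by omega)) Γ' hfr hC τ hτ0 hτ2
      have h7 : ((partIn (A - A) Γ).card : ℝ) ≤ ((partIn (A - A) Γ').card : ℝ) := by
        have : partIn (A - A) Γ ⊆ partIn (A - A) Γ' := by
          intro x hx
          obtain ⟨h8, h9⟩ := mem_partIn.1 hx
          exact mem_partIn.2 ⟨h8, hle h9⟩
        exact_mod_cast card_le_card this
      refine h7.trans (h6.trans ?_)
      have h8 : K ^ 3 * C (K ^ 3) ≤ K ^ 3 * (C (K ^ 3) + 2) := by gcongr; linarith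
      exact mul_le_mul_of_nonneg_right h8 (by positivity)

/-- The lines of a set partition its nonzero points. -/
lemma sum_lineSet_le (Y Y' : Finset E) (J : Finset (Submodule ℝ E))
    (hJ : ∀ l ∈ J, ∃ v : E, v ≠ 0 ∧ l = Submodule.span ℝ {v})
    (hsub : ∀ l ∈ J, lineSet Y l ⊆ Y') :
    ∑ l ∈ J, (lineSet Y l).card ≤ Y'.card := by
  classical
  rw [← card_biUnion]
  · apply card_le_card
    intro x hx
    obtain ⟨l, hl, hxl⟩ := mem_biUnion.1 hx
    exact hsub l hl hxl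
  · intro l hl l' hl' hne
    rw [Function.onFun, disjoint_left]
    intro x hx hx'
    obtain ⟨_, hx0, hxl⟩ := mem_lineSet.1 hx
    obtain ⟨_, _, hxl'⟩ := mem_lineSet.1 hx'
    apply hne
    obtain ⟨v, hv0, rfl⟩ := hJ l hl
    obtain ⟨v', hv'0, rfl⟩ := hJ l' hl'
    obtain ⟨c, hc⟩ := Submodule.mem_span_singleton.1 hxl
    obtain ⟨c', hc'⟩ := Submodule.mem_span_singleton.1 hxl'
    have hc0 : c ≠ 0 := by
      intro h0
      rw [h0, zero_smul] at hc
      exact hx0 hc.symm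
    have hc'0 : c' ≠ 0 := by
      intro h0
      rw [h0, zero_smul] at hc'
      exact hx0 hc'.symm
    rw [← Submodule.span_singleton_smul_eq (IsUnit.mk0 c hc0) v, hc,
      ← Submodule.span_singleton_smul_eq (IsUnit.mk0 c' hc'0) v', hc']

end Inner

end Vale.Agent.Lib.P054
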