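import Vale.Agent.Lib.P054.Gen4

/-!
# Summation from the rich line count and the rich hyperplane count
-/

open scoped Pointwise
open Finset
open Module (finrank)

namespace Vale.Agent.Lib.P054

set_option linter.unusedSectionVars false
set_option linter.style.haveILetI false

/-- From the two counting bounds to the sum of the products. -/
theorem sum_from_counts2 {ι : Type*} [DecidableEq ι] (I : Finset ι) (b c : ι → ℝ)
    (hc : ∀ i, 0 ≤ c i) (G A D B a β θ : ℝ) (hG : 0 ≤ G) (hD : 0 ≤ D)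
    (ha : 0 < a) (hβ : 0 < β) (hθ : 0 ≤ θ) (hAa : A ≤ a ^ 2) (hBβ : B ≤ β ^ 3)
    (hI : (I.card : ℝ) ≤ θ ^ 6)
    (hcap : ∀ i ∈ I, b i * c i ≤ G)
    (hbc : ∀ x : ℝ, 0 < x → ((I.filter (fun i => x ≤ b i)).card : ℝ) ≤ 1 + A / x ^ 2)
    (hcc : ∀ κ : ℝ, 0 < κ → ((I.filter (fun i => κ ≤ c i)).card : ℝ) ≤ D + B / κ ^ 3) :
    ∑ i ∈ I, b i * c i ≤ (2 * D + 3) * G + 24 * a * β * θ := by
  set j0 : ℕ := ⌈2 * D⌉₊ + 2 with hj0
  have hj0ge : 2 * D + 2 ≤ (j0 : ℝ) := by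
    rw [hj0]
    push_cast
    have := Nat.le_ceil (2 * D)
    linarith
  have hj0le : (j0 : ℝ) ≤ 2 * D + 3 := by
    rw [hj0]
    push_cast
    have := Nat.ceil_lt_add_one (by positivity : 0 ≤ 2 * D)
    linarith
  set E0 : ℝ := 4 * a * β with hE0
  have hE00 : 0 < E0 := by positivity
  set h : ℕ → ℝ := fun j => if j ≤ j0 then G else E0 / tau6 j ^ 5 with hh
  have hmain := sum_le_sum_of_count I (fun i => b i * c i) h (by
    intro j z hj hz
    by_cases hj2 : j ≤ j0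
    · have hz' : G < z := by simpa [hh, hj2] using hz
      have : I.filter (fun i => z ≤ b i * c i) = ∅ := by
        apply filter_eq_empty_iff.2
        intro i hi
        exact not_le.2 (lt_of_le_of_lt (hcap i hi) hz')
      rw [this, card_empty]
      omega
    · have hz' : E0 / tau6 j ^ 5 < z := by simpa [hh, hj2] using hz
      have hτ : 0 < tau6 j := tau6_pos (by omega)
      set τ := tau6 j with hτdef
      have hτ6 : τ ^ 6 = (j : ℝ) := tau6_pow j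
      have hz0 : 0 < z := lt_trans (by positivity) hz'
      set x : ℝ := 2 * a / τ ^ 3 with hx
      have hx0 : 0 < x := by positivity
      have hκ0 : 0 < z / x := by positivity
      have hsub : I.filter (fun i => z ≤ b i * c i) ⊆
          I.filter (fun i => x ≤ b i) ∪ I.filter (fun i => z / x ≤ c i) := by
        intro i hi
        obtain ⟨hi1, hi2⟩ := mem_filter.1 hi
        rw [mem_union, mem_filter, mem_filter]
        by_contra hcon
        push Not at hcon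
        have h4 := hcon.1 hi1
        have h5 := hcon.2 hi1
        have h6 : b i * c i < x * (z / x) := by
          calc b i * c i ≤ x * c i := mul_le_mul_of_nonneg_right h4.le (hc i)
            _ < x * (z / x) := mul_lt_mul_of_pos_left h5 hx0
        have h7 : x * (z / x) = z := by field_simp
        linarith
      have h4 : ((I.filter (fun i => z ≤ b i * c i)).card : ℝ) ≤
          ((I.filter (fun i => x ≤ b i)).card : ℝ) + ((I.filter (fun i => z / x ≤ c i)).card : ℝ) := by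
        exact_mod_cast (card_le_card hsub).trans (card_union_le _ _)
      have h5 := hbc x hx0
      have h6 := hcc (z / x) hκ0
      have h7 : A / x ^ 2 ≤ (j : ℝ) / 4 := by
        have e1 : a ^ 2 / x ^ 2 = τ ^ 6 / 4 := by
          rw [hx]
          field_simp
          ring
        calc A / x ^ 2 ≤ a ^ 2 / x ^ 2 := by gcongr
          _ = _ := by rw [e1, hτ6]
      have h8 : B / (z / x) ^ 3 ≤ (j : ℝ) / 8 := by
        have h9 : 2 * β / τ ^ 2 < z / x := by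
          rw [lt_div_iff₀ hx0]
          have e2 : 2 * β / τ ^ 2 * x = E0 / τ ^ 5 := by
            rw [hx, hE0]
            field_simp
            ring
          rw [e2]
          exact hz'
        have h10 : β ^ 3 / (z / x) ^ 3 ≤ β ^ 3 / (2 * β / τ ^ 2) ^ 3 := by
          gcongr
        have e3 : β ^ 3 / (2 * β / τ ^ 2) ^ 3 = τ ^ 6 / 8 := by
          field_simp
          ring
        calc B / (z / x) ^ 3 ≤ β ^ 3 / (z / x) ^ 3 := by gcongr
          _ ≤ _ := h10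
          _ = _ := by rw [e3, hτ6]
      have hjR : (j0 : ℝ) + 1 ≤ (j : ℝ) := by
        have : j0 + 1 ≤ j := by omega
        exact_mod_cast this
      have h11 : ((I.filter (fun i => z ≤ b i * c i)).card : ℝ) < j := by linarith
      exact_mod_cast h11)
  refine hmain.trans ?_
  have hind : ∀ J : ℕ, ∑ j ∈ range J, h (j + 1) ≤ ((min J j0 : ℕ) : ℝ) * G + 6 * E0 * tau6 J := by
    intro J
    induction J with
    | zero =>
      have h1 := tau6_nonneg 0
      simp only [range_zero, sum_empty, Nat.zero_min, Nat.cast_zero, zero_mul, zero_add]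
      positivity
    | succ J ih =>
      rw [sum_range_succ]
      by_cases hJ' : J + 1 ≤ j0
      · have e1 : h (J + 1) = G := by simp [hh, hJ']
        have e2 : min (J + 1) j0 = J + 1 := by omega
        have e3 : min J j0 = J := by omega
        rw [e1, e2]
        rw [e3] at ih
        have h1 : tau6 J ≤ tau6 (J + 1) := tau6_mono (by omega)
        have h2 : 6 * E0 * tau6 J ≤ 6 * E0 * tau6 (J + 1) := by gcongr
        push_cast
        nlinarith
      · have e1 : h (J + 1) = E0 / tau6 (J + 1) ^ 5 := by simp [hh, hJ']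
        have e2 : min (J + 1) j0 = j0 := by omega
        have e3 : min J j0 = j0 := by omega
        rw [e1, e2]
        rw [e3] at ih
        have h2 := tau_step_five J
        have h4 : E0 / tau6 (J + 1) ^ 5 ≤ E0 * (6 * (tau6 (J + 1) - tau6 J)) := by
          rw [div_eq_mul_one_div]
          exact mul_le_mul_of_nonneg_left h2 hE00.le
        nlinarith
  have hfin := hind I.card
  have hτJ : tau6 I.card ≤ θ := by
    have h1 : tau6 I.card ^ 6 ≤ θ ^ 6 := by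
      rw [tau6_pow]
      exact hI
    exact le_of_pow_le_pow_left₀ (by norm_num) hθ h1
  have hp3 : ((min I.card j0 : ℕ) : ℝ) * G ≤ (2 * D + 3) * G := by
    have h1 : ((min I.card j0 : ℕ) : ℝ) ≤ j0 := by
      exact_mod_cast min_le_right _ _
    exact mul_le_mul_of_nonneg_right (h1.trans hj0le) hG
  have hp4 : 6 * E0 * tau6 I.card ≤ 24 * a * β * θ := by
    calc 6 * E0 * tau6 I.card ≤ 6 * E0 * θ := by gcongr
      _ = _ := by rw [hE0]; ring
  linarith

/-- The arithmetic of powers in the hyperplane count. -/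
lemma alg_pow (M τ n K' : ℝ) (d j : ℕ) (hM : 1 ≤ M) (hMτ : M ≤ K' * τ ^ 2) (hτ : 1 ≤ τ)
    (hK' : 1 ≤ K') (hn : τ ^ d ≤ n) (hd : 4 ≤ d) (hj1 : 1 ≤ j) (hj2 : j + 2 ≤ d) :
    M ^ (d - j) * τ ^ (j + 1) ≤ K' ^ d * (M ^ 3 * τ ^ (2 * d - 6) + n * τ) := by
  have hM0 : 0 < M := by linarith
  have hτ0 : 0 < τ := by linarith
  have hK0 : 0 < K' := by linarith
  have hn0 : 0 < n := lt_of_lt_of_le (by positivity) hn
  have hKd : 1 ≤ K' ^ d := one_le_pow₀ hK'
  have hnn1 : 0 ≤ M ^ 3 * τ ^ (2 * d - 6) := by positivity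
  have hnn2 : 0 ≤ n * τ := by positivity
  by_cases hcase : j + 3 ≤ d
  · obtain ⟨e, he⟩ : ∃ e, d = j + 3 + e := ⟨d - (j + 3), by omega⟩
    have e1 : d - j = 3 + e := by omega
    rw [e1, pow_add]
    have h1 : M ^ e ≤ (K' * τ ^ 2) ^ e := by gcongr
    have h2 : M ^ 3 * M ^ e * τ ^ (j + 1) ≤ M ^ 3 * (K' * τ ^ 2) ^ e * τ ^ (j + 1) := by gcongr
    have h3 : M ^ 3 * (K' * τ ^ 2) ^ e * τ ^ (j + 1) =
        K' ^ e * (M ^ 3 * τ ^ (2 * e + j + 1)) := by
      rw [mul_pow, ← pow_mul]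
      rw [show 2 * e + j + 1 = 2 * e + (j + 1) by ring, pow_add τ (2 * e), mul_comm 2 e]
      ring
    have h4 : τ ^ (2 * e + j + 1) ≤ τ ^ (2 * d - 6) := pow_le_pow_right₀ hτ (by omega)
    have h5 : K' ^ e ≤ K' ^ d := pow_le_pow_right₀ hK' (by omega)
    calc M ^ 3 * M ^ e * τ ^ (j + 1) ≤ _ := h2
      _ = _ := h3
      _ ≤ K' ^ d * (M ^ 3 * τ ^ (2 * d - 6)) := by gcongr
      _ ≤ _ := by
          apply mul_le_mul_of_nonneg_left _ (by positivity)
          linarith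
  · have e1 : d - j = 2 := by omega
    have e2 : j + 1 = d - 1 := by omega
    rw [e1, e2]
    have h0 : M ^ 2 * τ ^ (d - 1) ≤ M ^ 3 * τ ^ (2 * d - 6) + n * τ := by
      by_cases hMτ2 : τ ≤ M
      · have h1 : τ ^ (d - 1) = τ * τ ^ (d - 2) := by
          rw [← pow_succ']
          congr 1
          omega
        have h2 : τ ^ (d - 2) ≤ τ ^ (2 * d - 6) := pow_le_pow_right₀ hτ (by omega)
        have h3 : M ^ 2 * τ ^ (d - 1) ≤ M ^ 3 * τ ^ (2 * d - 6) := by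
          rw [h1]
          calc M ^ 2 * (τ * τ ^ (d - 2)) ≤ M ^ 2 * (M * τ ^ (2 * d - 6)) := by gcongr
            _ = _ := by ring
        linarith
      · push Not at hMτ2
        have h1 : M ^ 2 ≤ τ ^ 2 := by gcongr
        have h2 : τ ^ 2 * τ ^ (d - 1) = τ ^ d * τ := by
          rw [← pow_add, ← pow_succ]
          congr 1
          omega
        have h3 : M ^ 2 * τ ^ (d - 1) ≤ n * τ := by
          calc M ^ 2 * τ ^ (d - 1) ≤ τ ^ 2 * τ ^ (d - 1) := by gcongr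
            _ = τ ^ d * τ := h2
            _ ≤ n * τ := by gcongr
        linarith
    have h1 : 0 ≤ M ^ 3 * τ ^ (2 * d - 6) + n * τ := by positivity
    nlinarith

section Inner

variable {E : Type} [NormedAddCommGroup E] [InnerProductSpace ℝ E] [FiniteDimensional ℝ E]
  [DecidableEq E]

lemma finrank_orth_line {ℓ : Submodule ℝ E} {w : E} (hw : w ≠ 0)
    (hℓ : Submodule.span ℝ {w} = ℓ) : finrank ℝ (ℓᗮ : Submodule ℝ E) + 1 = finrank ℝ E := by
  have h1 := Submodule.finrank_add_finrank_orthogonal ℓ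
  have h2 : finrank ℝ ℓ = 1 := by
    rw [← hℓ]
    exact finrank_span_singleton hw
  omega

/-- The power of `M` when the intersection is trivial. -/
lemma alg_bot (M τ K' : ℝ) (d : ℕ) (hM : 1 ≤ M) (hMτ : M ≤ K' * τ ^ 2) (hτ : 1 ≤ τ)
    (hK' : 1 ≤ K') (hd : 4 ≤ d) : M ^ d ≤ K' ^ d * (M ^ 3 * τ ^ (2 * d - 6)) := by
  have hM0 : 0 < M := by linarith
  have hτ0 : 0 < τ := by linarith
  have hK0 : 0 < K' := by linarith
  obtain ⟨e, he⟩ : ∃ e, d = 3 + e := ⟨d - 3, by omega⟩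
  have e1 : M ^ d = M ^ 3 * M ^ e := by rw [he, pow_add]
  have e2 : 2 * d - 6 = 2 * e := by omega
  rw [e1, e2]
  have h3 : M ^ e ≤ (K' * τ ^ 2) ^ e := by gcongr
  have h4 : (K' * τ ^ 2) ^ e = K' ^ e * τ ^ (2 * e) := by
    rw [mul_pow, ← pow_mul, mul_comm 2 e]
  have h5 : K' ^ e ≤ K' ^ d := pow_le_pow_right₀ hK' (by omega)
  calc M ^ 3 * M ^ e ≤ M ^ 3 * (K' ^ e * τ ^ (2 * e)) := by
        rw [← h4]
        gcongr
    _ = K' ^ e * (M ^ 3 * τ ^ (2 * e)) := by ring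
    _ ≤ _ := by gcongr

/-- The number of cosets of a hyperplane with many differences. -/
lemma levels_le_of_rich {A : Finset E} {K : ℝ} (hd : Doubling A K) (H : Submodule ℝ E) (κ : ℝ)
    (hκ0 : 0 < κ) (hκ : κ ≤ ((lineSet (A - A) H).card : ℝ)) :
    (levels A H : ℝ) ≤ K ^ 3 * (A.card : ℝ) / κ := by
  have h1 := levels_mul_card_le A (partIn (A - A) H) H (fun a ha b hb =>
    H.sub_mem (mem_partIn.1 ha).2 (mem_partIn.1 hb).2)
  have h2 : (levels A H : ℝ) * ((partIn (A - A) H).card : ℝ) ≤ ((A + partIn (A - A) H).card : ℝ) := by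
    exact_mod_cast h1
  have h3 : ((A + partIn (A - A) H).card : ℝ) ≤ K ^ 3 * (A.card : ℝ) := by
    refine le_trans ?_ hd.card_UB
    rw [add_comm (A - A) A]
    exact_mod_cast card_le_card (add_subset_add_left (fun x hx => (mem_partIn.1 hx).1))
  have h4 : κ ≤ ((partIn (A - A) H).card : ℝ) := by
    refine hκ.trans ?_
    have : lineSet (A - A) H ⊆ partIn (A - A) H := fun x hx => by
      obtain ⟨h5, _, h6⟩ := mem_lineSet.1 hx
      exact mem_partIn.2 ⟨h5, h6⟩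
    exact_mod_cast card_le_card this
  rw [le_div_iff₀ hκ0]
  calc (levels A H : ℝ) * κ ≤ (levels A H : ℝ) * ((partIn (A - A) H).card : ℝ) := by gcongr
    _ ≤ _ := h2.trans h3

/-- The core count of a family of hyperplanes with few cosets. -/
theorem family_count {d : ℕ} (hd4 : 4 ≤ d) (hE : finrank ℝ E = d) {C FT : ℝ → ℝ}
    (hMS : ∀ j, 3 ≤ j → j < d → MS j C) (hT : ∀ s', 1 ≤ s' → s' ≤ d → TS s' FT)
    {A : Finset E} {K : ℝ} (hd : Doubling A K) (hC : 1 ≤ C (K ^ 3)) (hFT : 1 ≤ FT K)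
    (hFT3 : 1 ≤ FT (K ^ 3)) (τ : ℝ) (hτ1 : 1 ≤ τ) (hτ2 : τ ^ 2 = ((A.image norm).card : ℝ))
    (hnτ : τ ^ d ≤ (A.card : ℝ)) (M : ℝ) (hM1 : 1 ≤ M) (hMle : M ≤ 8 * K ^ 4 * τ ^ 2)
    (G : Finset (Submodule ℝ E)) (hne : G.Nonempty)
    (hfam : ∀ H ∈ G, finrank ℝ H + 1 = d ∧ (levels A H : ℝ) ≤ M ∧
      Submodule.span ℝ (lineSet (A - A) H : Set E) = H) :
    (G.card : ℝ) * (A.card : ℝ) ≤ (FT K + FT (K ^ 3)) * (K ^ 3 * (C (K ^ 3) + 2)) * (8 * K ^ 4) ^ d *
      (M ^ 3 * τ ^ (2 * d - 6) + (A.card : ℝ) * τ) := by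
  have hK1 := hd.one_le
  have hK0 : 0 < K := by linarith
  have hn0 := hd.card_pos
  have hτ0 : 0 < τ := by linarith
  have hM0 : 0 < M := by linarith
  have hK3 : 1 ≤ K ^ 3 := one_le_pow₀ hK1
  have hK'1 : 1 ≤ 8 * K ^ 4 := by
    have : 1 ≤ K ^ 4 := one_le_pow₀ hK1
    linarith
  have hL1 : 1 ≤ K ^ 3 * (C (K ^ 3) + 2) := by nlinarith
  have hFs1 : 1 ≤ FT K + FT (K ^ 3) := by linarith
  have hnn : 0 ≤ M ^ 3 * τ ^ (2 * d - 6) + (A.card : ℝ) * τ := by positivity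
  have hnn2 : 0 ≤ M ^ 3 * τ ^ (2 * d - 6) := by positivity
  have hnn3 : 0 ≤ (A.card : ℝ) * τ := by positivity
  have hKd : 1 ≤ (8 * K ^ 4) ^ d := one_le_pow₀ hK'1
  have hPi : 1 ≤ (FT K + FT (K ^ 3)) * (K ^ 3 * (C (K ^ 3) + 2)) * (8 * K ^ 4) ^ d := by
    have h6 : 1 ≤ (FT K + FT (K ^ 3)) * (K ^ 3 * (C (K ^ 3) + 2)) := by nlinarith
    nlinarith
  obtain ⟨H₀, hH₀⟩ := hne
  by_cases hj0 : finrank ℝ (G.inf id : Submodule ℝ E) = 0
  · have hbot : G.inf id = ⊥ := Submodule.finrank_eq_zero.1 hj0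
    have h1 := hT d (by omega) (le_refl d) E A K M hE hd hM1 G ⟨H₀, hH₀⟩ hfam hbot
    refine h1.trans ?_
    have h2 := alg_bot M τ (8 * K ^ 4) d hM1 hMle hτ1 hK'1 hd4
    have h3 : FT K * M ^ d ≤ (FT K + FT (K ^ 3)) * (K ^ 3 * (C (K ^ 3) + 2)) *
        (M ^ d) := by
      apply mul_le_mul_of_nonneg_right _ (by positivity)
      nlinarith
    calc FT K * M ^ d ≤ _ := h3
      _ ≤ (FT K + FT (K ^ 3)) * (K ^ 3 * (C (K ^ 3) + 2)) *
          ((8 * K ^ 4) ^ d * (M ^ 3 * τ ^ (2 * d - 6))) := by gcongr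
      _ = (FT K + FT (K ^ 3)) * (K ^ 3 * (C (K ^ 3) + 2)) * (8 * K ^ 4) ^ d *
          (M ^ 3 * τ ^ (2 * d - 6)) := by ring
      _ ≤ _ := by
          apply mul_le_mul_of_nonneg_left _ (by positivity)
          linarith
  · have hjd : finrank ℝ (G.inf id : Submodule ℝ E) + 1 ≤ d := by
      have h1 := (hfam H₀ hH₀).1
      have h2 : finrank ℝ (G.inf id : Submodule ℝ E) ≤ finrank ℝ H₀ :=
        Submodule.finrank_mono (Finset.inf_le (f := id) hH₀)
      omega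
    by_cases hj2 : finrank ℝ (G.inf id : Submodule ℝ E) + 1 = d
    · have h1 : ∀ H ∈ G, H = G.inf id := by
        intro H hH
        symm
        have hle : G.inf id ≤ H := Finset.inf_le (f := id) hH
        apply Submodule.eq_of_le_of_finrank_eq hle
        have := (hfam H hH).1
        omega
      have h2 : G.card ≤ 1 := by
        apply card_le_one.2
        intro a ha b hb
        rw [h1 a ha, h1 b hb]
      have h3 : (G.card : ℝ) ≤ 1 := by exact_mod_cast h2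
      have h8 : (A.card : ℝ) ≤ (A.card : ℝ) * τ := by nlinarith
      calc (G.card : ℝ) * (A.card : ℝ) ≤ 1 * (A.card : ℝ) := by gcongr
        _ ≤ 1 * (M ^ 3 * τ ^ (2 * d - 6) + (A.card : ℝ) * τ) := by linarith
        _ ≤ _ := by gcongr
    · have h1 := T_prime d FT (fun s' h1 h2 => hT s' h1 h2.le) A K M hE hd hM1 G ⟨H₀, hH₀⟩ hfam
        (by omega)
      have h2 := r_bound hd4 hE hMS hd hC τ hτ1 hτ2 (G.inf id) (by omega) (by omega)
      have h3 := alg_pow M τ (A.card : ℝ) (8 * K ^ 4) d (finrank ℝ (G.inf id : Submodule ℝ E)) hM1 hMle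
        hτ1 hK'1 hnτ hd4 (by omega) (by omega)
      have h4 : FT (K ^ 3) ≤ FT K + FT (K ^ 3) := by linarith
      calc (G.card : ℝ) * (A.card : ℝ) ≤ _ := h1
        _ ≤ FT (K ^ 3) * M ^ (d - finrank ℝ (G.inf id : Submodule ℝ E)) *
            ((K ^ 3 * (C (K ^ 3) + 2)) * τ ^ (finrank ℝ (G.inf id : Submodule ℝ E) + 1)) := by gcongr
        _ = FT (K ^ 3) * (K ^ 3 * (C (K ^ 3) + 2)) * (M ^ (d - finrank ℝ (G.inf id : Submodule ℝ E)) *
            τ ^ (finrank ℝ (G.inf id : Submodule ℝ E) + 1)) := by ring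
        _ ≤ FT (K ^ 3) * (K ^ 3 * (C (K ^ 3) + 2)) * ((8 * K ^ 4) ^ d *
            (M ^ 3 * τ ^ (2 * d - 6) + (A.card : ℝ) * τ)) := by gcongr
        _ ≤ (FT K + FT (K ^ 3)) * (K ^ 3 * (C (K ^ 3) + 2)) * ((8 * K ^ 4) ^ d *
            (M ^ 3 * τ ^ (2 * d - 6) + (A.card : ℝ) * τ)) := by gcongr
        _ = _ := by ring

/-- The count of rich spanned hyperplanes orthogonal to lines. -/
theorem spanned_count {d : ℕ} (hd4 : 4 ≤ d) (hE : finrank ℝ E = d) {C FT : ℝ → ℝ}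
    (hMS : ∀ j, 3 ≤ j → j < d → MS j C) (hT : ∀ s', 1 ≤ s' → s' ≤ d → TS s' FT)
    {A : Finset E} {K : ℝ} (hd : Doubling A K) (hC : 1 ≤ C (K ^ 3)) (hFT : 1 ≤ FT K)
    (hFT3 : 1 ≤ FT (K ^ 3)) (τ : ℝ) (hτ1 : 1 ≤ τ) (hτ2 : τ ^ 2 = ((A.image norm).card : ℝ))
    (hnτ : τ ^ d ≤ (A.card : ℝ)) (κ : ℝ)
    (hκ : (A.card : ℝ) / (8 * K * ((A.image norm).card : ℝ)) ≤ κ)
    (S : Finset (Submodule ℝ E)) (hS : S ⊆ spanLines (A + A))
    (hSsp : ∀ ℓ ∈ S, Submodule.span ℝ (lineSet (A - A) (ℓᗮ : Submodule ℝ E) : Set E) = ℓᗮ)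
    (hSκ : ∀ ℓ ∈ S, κ ≤ ((lineSet (A - A) (ℓᗮ : Submodule ℝ E)).card : ℝ)) :
    (S.card : ℝ) ≤
      (FT K + FT (K ^ 3)) * (K ^ 3 * (C (K ^ 3) + 2)) * (8 * K ^ 4) ^ d * τ +
      (FT K + FT (K ^ 3)) * (K ^ 3 * (C (K ^ 3) + 2)) * (8 * K ^ 4) ^ d *
        (K ^ 9 * (A.card : ℝ) ^ 2 * τ ^ (2 * d - 6)) / κ ^ 3 := by
  classical
  have hK1 := hd.one_le
  have hK0 : 0 < K := by linarith
  have hn0 := hd.card_pos
  have hτ0 : 0 < τ := by linarith
  have hν : ((A.image norm).card : ℝ) = τ ^ 2 := hτ2.symm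
  rw [hν] at hκ
  have hκ0 : 0 < κ := lt_of_lt_of_le (by positivity) hκ
  have hFs1 : 1 ≤ FT K + FT (K ^ 3) := by linarith
  have hL1 : 1 ≤ K ^ 3 * (C (K ^ 3) + 2) := by
    have : 1 ≤ K ^ 3 := one_le_pow₀ hK1
    nlinarith
  have hA0 : 0 ≤ (FT K + FT (K ^ 3)) * (K ^ 3 * (C (K ^ 3) + 2)) * (8 * K ^ 4) ^ d := by positivity
  rcases S.eq_empty_or_nonempty with rfl | hSne
  · simp only [card_empty, Nat.cast_zero]
    positivity
  have hMle : K ^ 3 * (A.card : ℝ) / κ ≤ 8 * K ^ 4 * τ ^ 2 := by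
    rw [div_le_iff₀ hκ0]
    rw [div_le_iff₀ (by positivity)] at hκ
    have h3 : 0 < K ^ 3 := by positivity
    nlinarith
  have hcard : (S.image (fun ℓ => (ℓᗮ : Submodule ℝ E))).card = S.card := by
    apply card_image_of_injOn
    intro ℓ _ ℓ' _ h
    have h1 : (ℓᗮ)ᗮ = (ℓ'ᗮ)ᗮ := congrArg _ h
    rwa [Submodule.orthogonal_orthogonal, Submodule.orthogonal_orthogonal] at h1
  have hlev : ∀ H ∈ S.image (fun ℓ => (ℓᗮ : Submodule ℝ E)), (levels A H : ℝ) ≤ K ^ 3 * (A.card : ℝ) / κ := by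
    intro H hH
    obtain ⟨ℓ, hℓ, rfl⟩ := mem_image.1 hH
    exact levels_le_of_rich hd ℓᗮ κ hκ0 (hSκ ℓ hℓ)
  obtain ⟨ℓ₀, hℓ₀⟩ := hSne
  have hM1 : 1 ≤ K ^ 3 * (A.card : ℝ) / κ := by
    have h1 : (1 : ℝ) ≤ (levels A ℓ₀ᗮ : ℝ) := by exact_mod_cast levels_pos hd.ne ℓ₀ᗮ
    exact h1.trans (hlev _ (mem_image_of_mem _ hℓ₀))
  have hbound := family_count hd4 hE hMS hT hd hC hFT hFT3 τ hτ1 hτ2 hnτ (K ^ 3 * (A.card : ℝ) / κ) hM1 hMle
    (S.image (fun ℓ => (ℓᗮ : Submodule ℝ E))) ⟨_, mem_image_of_mem _ hℓ₀⟩ (by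
      intro H hH
      refine ⟨?_, hlev H hH, ?_⟩
      · obtain ⟨ℓ, hℓ, rfl⟩ := mem_image.1 hH
        obtain ⟨w, _, hw0, hw⟩ := mem_spanLines.1 (hS hℓ)
        rw [← hE]
        exact finrank_orth_line hw0 hw
      · obtain ⟨ℓ, hℓ, rfl⟩ := mem_image.1 hH
        exact hSsp ℓ hℓ)
  rw [hcard] at hbound
  have h2 : (S.card : ℝ) ≤ (FT K + FT (K ^ 3)) * (K ^ 3 * (C (K ^ 3) + 2)) * (8 * K ^ 4) ^ d *
      ((K ^ 3 * (A.card : ℝ) / κ) ^ 3 * τ ^ (2 * d - 6) / (A.card : ℝ) + τ) := by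
    have e4 : (K ^ 3 * (A.card : ℝ) / κ) ^ 3 * τ ^ (2 * d - 6) + (A.card : ℝ) * τ =
        ((K ^ 3 * (A.card : ℝ) / κ) ^ 3 * τ ^ (2 * d - 6) / (A.card : ℝ) + τ) * (A.card : ℝ) := by
      field_simp
    rw [e4, ← mul_assoc] at hbound
    exact le_of_mul_le_mul_right hbound hn0
  refine h2.trans (le_of_eq ?_)
  field_simp
  ring

end Inner

end Vale.Agent.Lib.P054
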