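import Vale.Agent.Lib.P054.Gen5

/-!
# Distinct norms in every dimension for sets of small doubling
-/

open scoped Pointwise
open Finset
open Module (finrank)

namespace Vale.Agent.Lib.P054

set_option linter.unusedSectionVars false
set_option linter.style.haveILetI false

section Inner

variable {E : Type} [NormedAddCommGroup E] [InnerProductSpace ℝ E] [FiniteDimensional ℝ E]
  [DecidableEq E]

/-- Lines whose orthogonal hyperplane is poor. -/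
lemma low_part (W U : Finset E) (J : Finset (Submodule ℝ E)) (hJ : J ⊆ spanLines W) (κ : ℝ)
    (hκ : 0 ≤ κ) (h : ∀ ℓ ∈ J, ((lineSet U (ℓᗮ : Submodule ℝ E)).card : ℝ) ≤ κ) :
    ∑ ℓ ∈ J, ((lineSet W ℓ).card : ℝ) * ((lineSet U (ℓᗮ : Submodule ℝ E)).card : ℝ) ≤
      κ * (W.card : ℝ) := by
  have h1 := sum_lineSet_le W W J (fun l hl => spanLines_line l (hJ hl))
    (fun l _ x hx => (mem_lineSet.1 hx).1)
  have h2 : ∑ ℓ ∈ J, ((lineSet W ℓ).card : ℝ) ≤ (W.card : ℝ) := by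
    exact_mod_cast h1
  calc _ ≤ ∑ ℓ ∈ J, ((lineSet W ℓ).card : ℝ) * κ := by
        apply sum_le_sum
        intro ℓ hℓ
        exact mul_le_mul_of_nonneg_left (h ℓ hℓ) (by positivity)
    _ = κ * ∑ ℓ ∈ J, ((lineSet W ℓ).card : ℝ) := by
        rw [mul_sum]
        exact sum_congr rfl (fun _ _ => mul_comm _ _)
    _ ≤ _ := mul_le_mul_of_nonneg_left h2 hκ

/-- Lines whose orthogonal hyperplane has its differences in a plane. -/
theorem plane_part {A : Finset E} {K : ℝ} (hd : Doubling A K) (Ff : ℝ → ℝ) (hFC : FC 2 Ff)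
    (κ : ℝ) (hκ : 0 < κ) (J : Finset (Submodule ℝ E)) (hJ : J ⊆ spanLines (A + A))
    (hJ2 : ∀ ℓ ∈ J, κ ≤ ((lineSet (A - A) (ℓᗮ : Submodule ℝ E)).card : ℝ) ∧
      finrank ℝ (Submodule.span ℝ (lineSet (A - A) (ℓᗮ : Submodule ℝ E) : Set E)) = 2) :
    ∑ ℓ ∈ J, ((lineSet (A + A) ℓ).card : ℝ) * ((lineSet (A - A) (ℓᗮ : Submodule ℝ E)).card : ℝ) ≤
      (Ff K * ((A.card : ℝ) / κ) * (1 + (A.card : ℝ) / κ ^ 2)) * (K ^ 4 * (A.card : ℝ)) := by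
  classical
  set W := A + A with hW
  set U := A - A with hU
  set Γf : Submodule ℝ E → Submodule ℝ E :=
    fun ℓ => Submodule.span ℝ (lineSet U (ℓᗮ : Submodule ℝ E) : Set E) with hΓf
  set T := J.image Γf with hT
  have hprops : ∀ ℓ ∈ J, lineSet U ℓᗮ ⊆ lineSet U (Γf ℓ) ∧
      Submodule.span ℝ (lineSet U (Γf ℓ) : Set E) = Γf ℓ ∧ Γf ℓ ≤ ℓᗮ ∧ 1 ≤ finrank ℝ (Γf ℓ) ∧
      κ ≤ ((lineSet U (Γf ℓ)).card : ℝ) := fun ℓ hℓ =>
    gamma_props U ℓᗮ κ hκ (hJ2 ℓ hℓ).1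
  have hcount := hFC E A K κ hd hκ T (by
    intro Γ hΓ
    obtain ⟨ℓ, hℓ, rfl⟩ := mem_image.1 hΓ
    obtain ⟨_, h2, _, _, h5⟩ := hprops ℓ hℓ
    exact ⟨(hJ2 ℓ hℓ).2, h2, h5⟩)
  simp only [show 2 - 1 = 1 from rfl, pow_one] at hcount
  have hfib : ∀ Γ ∈ T, ∑ ℓ ∈ J.filter (fun ℓ => Γf ℓ = Γ),
      ((lineSet W ℓ).card : ℝ) * ((lineSet U (ℓᗮ : Submodule ℝ E)).card : ℝ) ≤ K ^ 4 * (A.card : ℝ) := by
    intro Γ _
    have h1 : ∀ ℓ ∈ J.filter (fun ℓ => Γf ℓ = Γ),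
        ((lineSet U (ℓᗮ : Submodule ℝ E)).card : ℝ) = ((lineSet U Γ).card : ℝ) := by
      intro ℓ hℓ
      obtain ⟨hℓ1, hℓ2⟩ := mem_filter.1 hℓ
      obtain ⟨h3, _, h5, _, _⟩ := hprops ℓ hℓ1
      rw [hℓ2] at h3 h5
      have h6 : lineSet U Γ ⊆ lineSet U ℓᗮ := by
        intro x hx
        obtain ⟨h7, h8, h9⟩ := mem_lineSet.1 hx
        exact mem_lineSet.2 ⟨h7, h8, h5 h9⟩
      rw [Subset.antisymm h3 h6]
    have h2 : ∑ ℓ ∈ J.filter (fun ℓ => Γf ℓ = Γ), (lineSet W ℓ).card ≤ (lineSet W Γᗮ).card := by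
      apply sum_lineSet_le
      · intro l hl
        exact spanLines_line l (hJ (mem_filter.1 hl).1)
      · intro l hl x hx
        obtain ⟨hl1, hl2⟩ := mem_filter.1 hl
        obtain ⟨_, _, h5, _, _⟩ := hprops l hl1
        rw [hl2] at h5
        obtain ⟨h6, h7, h8⟩ := mem_lineSet.1 hx
        refine mem_lineSet.2 ⟨h6, h7, ?_⟩
        exact Submodule.orthogonal_le h5 (Submodule.le_orthogonal_orthogonal l h8)
    have h3 := direct_sum_card (lineSet W Γᗮ) (lineSet U Γ) Γᗮ Γ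
      (by rw [inf_comm]; exact Submodule.inf_orthogonal_eq_bot Γ)
      (fun x hx => (mem_lineSet.1 hx).2.2) (fun x hx => (mem_lineSet.1 hx).2.2)
    have h4 : lineSet W Γᗮ + lineSet U Γ ⊆ W + U :=
      add_subset_add (fun x hx => (mem_lineSet.1 hx).1) (fun x hx => (mem_lineSet.1 hx).1)
    have h5 : ((lineSet W Γᗮ).card : ℝ) * ((lineSet U Γ).card : ℝ) ≤ ((W + U).card : ℝ) := by
      exact_mod_cast h3.trans (card_le_card h4)
    have h6 : ((W + U).card : ℝ) ≤ K ^ 4 * (A.card : ℝ) := hd.dbl.hWU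
    have h7 : (∑ ℓ ∈ J.filter (fun ℓ => Γf ℓ = Γ), ((lineSet W ℓ).card : ℝ)) ≤
        ((lineSet W Γᗮ).card : ℝ) := by
      exact_mod_cast h2
    calc _ = ∑ ℓ ∈ J.filter (fun ℓ => Γf ℓ = Γ), ((lineSet W ℓ).card : ℝ) * ((lineSet U Γ).card : ℝ) :=
          sum_congr rfl (fun ℓ hℓ => by rw [h1 ℓ hℓ])
      _ = (∑ ℓ ∈ J.filter (fun ℓ => Γf ℓ = Γ), ((lineSet W ℓ).card : ℝ)) * ((lineSet U Γ).card : ℝ) := by
          rw [sum_mul]
      _ ≤ ((lineSet W Γᗮ).card : ℝ) * ((lineSet U Γ).card : ℝ) := by gcongr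
      _ ≤ _ := h5.trans h6
  have hmaps : ∀ ℓ ∈ J, Γf ℓ ∈ T := fun ℓ hℓ => mem_image_of_mem _ hℓ
  rw [← sum_fiberwise_of_maps_to hmaps]
  have hK0 := hd.K_pos
  calc _ ≤ ∑ _Γ ∈ T, (K ^ 4 * (A.card : ℝ)) := sum_le_sum hfib
    _ = (T.card : ℝ) * (K ^ 4 * (A.card : ℝ)) := by rw [sum_const, nsmul_eq_mul]
    _ ≤ _ := by
        apply mul_le_mul_of_nonneg_right hcount (by positivity)

/-- The possible dimensions of the span of the differences in a rich hyperplane. -/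
theorem dims_excluded {d : ℕ} (hd4 : 4 ≤ d) (hE : finrank ℝ E = d) {C : ℝ → ℝ}
    (hMS : ∀ j, 3 ≤ j → j < d → MS j C) {A : Finset E} {K : ℝ} (hd : Doubling A K)
    (hC : 1 ≤ C (K ^ 3)) (τ : ℝ) (hτ : 0 ≤ τ) (hτ2 : τ ^ 2 = ((A.image norm).card : ℝ)) (κ₀ : ℝ)
    (hκ₀ : 0 < κ₀) (h1 : 2 * K ^ 3 * ((A.image norm).card : ℝ) ≤ κ₀)
    (h2 : ∀ j, 3 ≤ j → j + 2 ≤ d → K ^ 3 * C (K ^ 3) * τ ^ j ≤ κ₀)
    (ℓ : Submodule ℝ E) (hℓ : ℓ ∈ spanLines (A + A))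
    (hc : κ₀ < ((lineSet (A - A) (ℓᗮ : Submodule ℝ E)).card : ℝ)) :
    finrank ℝ (Submodule.span ℝ (lineSet (A - A) (ℓᗮ : Submodule ℝ E) : Set E)) = 2 ∨
      Submodule.span ℝ (lineSet (A - A) (ℓᗮ : Submodule ℝ E) : Set E) = ℓᗮ := by
  obtain ⟨h3, _, h5, h6, _⟩ := gamma_props (A - A) ℓᗮ κ₀ hκ₀ hc.le
  set Γ : Submodule ℝ E := Submodule.span ℝ (lineSet (A - A) (ℓᗮ : Submodule ℝ E) : Set E) with hΓ
  have hcle : ((lineSet (A - A) (ℓᗮ : Submodule ℝ E)).card : ℝ) ≤ ((partIn (A - A) Γ).card : ℝ) := by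
    have : lineSet (A - A) ℓᗮ ⊆ partIn (A - A) Γ := fun x hx => by
      obtain ⟨h7, _, h8⟩ := mem_lineSet.1 (h3 hx)
      exact mem_partIn.2 ⟨h7, h8⟩
    exact_mod_cast card_le_card this
  obtain ⟨w, _, hw0, hw⟩ := mem_spanLines.1 hℓ
  have hfr := finrank_orth_line hw0 hw
  have hΓfr : finrank ℝ Γ ≤ finrank ℝ (ℓᗮ : Submodule ℝ E) := Submodule.finrank_mono h5
  by_cases h7 : finrank ℝ Γ = 2
  · exact Or.inl h7
  · right
    by_cases h8 : finrank ℝ Γ = 1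
    · exfalso
      have h9 := partIn_line_le hd Γ h8
      linarith
    · by_cases h9 : finrank ℝ Γ + 2 ≤ d
      · exfalso
        have h10 := partIn_high_le hd (hMS (finrank ℝ Γ) (by omega) (by omega)) Γ rfl hC τ hτ hτ2
        have h11 := h2 (finrank ℝ Γ) (by omega) h9
        linarith
      · apply Submodule.eq_of_le_of_finrank_eq h5
        omega

/-- The sum over lines whose orthogonal hyperplane is rich and spanned by differences. -/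
theorem spanned_part {d : ℕ} (hd4 : 4 ≤ d) (hE : finrank ℝ E = d) {C FT : ℝ → ℝ}
    (hMS : ∀ j, 3 ≤ j → j < d → MS j C) (hT : ∀ s', 1 ≤ s' → s' ≤ d → TS s' FT)
    {A : Finset E} {K : ℝ} (hd : Doubling A K) (hC : 1 ≤ C (K ^ 3)) (hFT : 1 ≤ FT K)
    (hFT3 : 1 ≤ FT (K ^ 3)) (τ : ℝ) (hτ1 : 1 ≤ τ) (hτ2 : τ ^ 2 = ((A.image norm).card : ℝ))
    (hnτ : τ ^ d ≤ (A.card : ℝ)) (κ₀ : ℝ)
    (hκ₀ : κ₀ = (A.card : ℝ) / (8 * K * ((A.image norm).card : ℝ))) (hκ₀0 : 0 < κ₀)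
    (S : Finset (Submodule ℝ E)) (hS : S ⊆ spanLines (A + A))
    (hSsp : ∀ ℓ ∈ S, Submodule.span ℝ (lineSet (A - A) (ℓᗮ : Submodule ℝ E) : Set E) = ℓᗮ)
    (hSκ : ∀ ℓ ∈ S, κ₀ < ((lineSet (A - A) (ℓᗮ : Submodule ℝ E)).card : ℝ))
    (Chat a β θ : ℝ)
    (hChat : Chat = (FT K + FT (K ^ 3)) * (K ^ 3 * (C (K ^ 3) + 2)) * (8 * K ^ 4) ^ d)
    (ha : 0 < a) (hβ : 0 < β) (hθ : 0 ≤ θ) (hAa : 12 * K ^ 4 * (A.card : ℝ) ≤ a ^ 2)
    (hBβ : Chat * (K ^ 9 * (A.card : ℝ) ^ 2 * τ ^ (2 * d - 6)) ≤ β ^ 3)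
    (hI : K * (A.card : ℝ) ≤ θ ^ 6) :
    ∑ ℓ ∈ S, ((lineSet (A + A) ℓ).card : ℝ) * ((lineSet (A - A) (ℓᗮ : Submodule ℝ E)).card : ℝ) ≤
      (2 * (Chat * τ) + 3) * (K ^ 4 * (A.card : ℝ)) + 24 * a * β * θ := by
  classical
  set W := A + A with hW
  set U := A - A with hU
  have hK0 := hd.K_pos
  have hn0 := hd.card_pos
  have hChat0 : 0 ≤ Chat := by
    rw [hChat]
    have : 0 ≤ C (K ^ 3) := by linarith
    positivity
  have hτ0 : 0 ≤ τ := by linarith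
  apply sum_from_counts2 S (fun ℓ => ((lineSet W ℓ).card : ℝ))
    (fun ℓ => ((lineSet U (ℓᗮ : Submodule ℝ E)).card : ℝ)) (fun _ => by positivity)
    (K ^ 4 * (A.card : ℝ)) (12 * K ^ 4 * (A.card : ℝ)) (Chat * τ)
    (Chat * (K ^ 9 * (A.card : ℝ) ^ 2 * τ ^ (2 * d - 6))) a β θ (by positivity) (by positivity) ha hβ hθ
    hAa hBβ
  · have h1 : (S.card : ℝ) ≤ ((spanLines W).card : ℝ) := by
      exact_mod_cast card_le_card hS
    have h2 : ((spanLines W).card : ℝ) ≤ (W.card : ℝ) := by exact_mod_cast spanLines_card_le W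
    exact (h1.trans h2).trans (hd.add.trans hI)
  · intro ℓ _
    have h3 := direct_sum_card (lineSet W ℓ) (lineSet U (ℓᗮ : Submodule ℝ E)) ℓ ℓᗮ
      (Submodule.inf_orthogonal_eq_bot ℓ)
      (fun x hx => (mem_lineSet.1 hx).2.2) (fun x hx => (mem_lineSet.1 hx).2.2)
    have h4 : lineSet W ℓ + lineSet U (ℓᗮ : Submodule ℝ E) ⊆ W + U :=
      add_subset_add (fun x hx => (mem_lineSet.1 hx).1) (fun x hx => (mem_lineSet.1 hx).1)
    have h5 : ((lineSet W ℓ).card : ℝ) * ((lineSet U (ℓᗮ : Submodule ℝ E)).card : ℝ) ≤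
        ((W + U).card : ℝ) := by
      exact_mod_cast h3.trans (card_le_card h4)
    exact h5.trans hd.dbl.hWU
  · intro x hx
    set SW := W ∪ -W with hSW
    have h1 := rich_filter_card_le SW (symm_neg_mem W) S
      (fun l hl => spanLines_line l (hS hl)) x hx
    have h2 : S.filter (fun ℓ => x ≤ ((lineSet W ℓ).card : ℝ)) ⊆
        S.filter (fun ℓ => x ≤ ((lineSet SW ℓ).card : ℝ)) := by
      intro ℓ hℓ
      obtain ⟨h3, h4⟩ := mem_filter.1 hℓ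
      refine mem_filter.2 ⟨h3, h4.trans ?_⟩
      exact_mod_cast card_le_card (lineSet_mono subset_union_left ℓ)
    have h3 : ((S.filter (fun ℓ => x ≤ ((lineSet W ℓ).card : ℝ))).card : ℝ) ≤
        ((S.filter (fun ℓ => x ≤ ((lineSet SW ℓ).card : ℝ))).card : ℝ) := by
      exact_mod_cast card_le_card h2
    have h4 : 4 * ((SW + SW).card : ℝ) / x ^ 2 ≤ 12 * K ^ 4 * (A.card : ℝ) / x ^ 2 := by
      have h5 : ((SW + SW).card : ℝ) ≤ 3 * K ^ 4 * (A.card : ℝ) := hd.dbl.hSW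
      apply div_le_div_of_nonneg_right _ (by positivity)
      linarith
    linarith
  · intro κ hκ
    set κ₁ := max κ κ₀ with hκ₁
    have hκ₁0 : 0 < κ₁ := lt_of_lt_of_le hκ (le_max_left _ _)
    have hsub : S.filter (fun ℓ => κ ≤ ((lineSet U (ℓᗮ : Submodule ℝ E)).card : ℝ)) ⊆
        S.filter (fun ℓ => κ₁ ≤ ((lineSet U (ℓᗮ : Submodule ℝ E)).card : ℝ)) := by
      intro ℓ hℓ
      obtain ⟨h1, h2⟩ := mem_filter.1 hℓ
      exact mem_filter.2 ⟨h1, max_le h2 (hSκ ℓ h1).le⟩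
    have h1 : ((S.filter (fun ℓ => κ ≤ ((lineSet U (ℓᗮ : Submodule ℝ E)).card : ℝ))).card : ℝ) ≤
        ((S.filter (fun ℓ => κ₁ ≤ ((lineSet U (ℓᗮ : Submodule ℝ E)).card : ℝ))).card : ℝ) := by
      exact_mod_cast card_le_card hsub
    have h2 := spanned_count hd4 hE hMS hT hd hC hFT hFT3 τ hτ1 hτ2 hnτ κ₁
      (by rw [← hκ₀]; exact le_max_right _ _)
      (S.filter (fun ℓ => κ₁ ≤ ((lineSet U (ℓᗮ : Submodule ℝ E)).card : ℝ)))
      ((filter_subset _ _).trans hS)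
      (fun ℓ hℓ => hSsp ℓ (mem_filter.1 hℓ).1) (fun ℓ hℓ => (mem_filter.1 hℓ).2)
    rw [← hChat] at h2
    refine h1.trans (h2.trans ?_)
    have h3 : κ ≤ κ₁ := le_max_left _ _
    have h4 : 0 ≤ Chat * (K ^ 9 * (A.card : ℝ) ^ 2 * τ ^ (2 * d - 6)) := by positivity
    gcongr

end Inner

end Vale.Agent.Lib.P054
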