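import Vale.Agent.Lib.P054.Gen6

/-!
# Distinct norms in every dimension for sets of small doubling: the conclusion
-/

open scoped Pointwise
open Finset
open Module (finrank)

namespace Vale.Agent.Lib.P054

set_option linter.unusedSectionVars false
set_option linter.style.haveILetI false

/-- The arithmetic closing the argument. -/
lemma final_arith (n ν τ K Ff Chat X0 Slow Splane Ssp O ρ ς T8 : ℝ) (d : ℕ) (hd : 3 ≤ d)
    (hn : 0 < n) (hν : 1 ≤ ν) (hτν : τ ≤ ν) (hτ0 : 0 ≤ τ) (hK : 1 ≤ K) (hFf : 0 ≤ Ff) (hChat : 0 ≤ Chat)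
    (hX0 : 16 + 128 * Ff * K ^ 5 + 16 * (2 * Chat + 3) * K ^ 4 ≤ X0)
    (hXn : X0 * ν ^ 2 ≤ n)
    (hCS : n ^ 2 ≤ ν * (2 * n + O)) (hO : O ≤ Slow + Splane + Ssp)
    (hlow : Slow ≤ n / (8 * K * ν) * (K * n))
    (hplane : Splane ≤ (Ff * (8 * K * ν) * 2) * (K ^ 4 * n))
    (hsp : Ssp ≤ (2 * (Chat * τ) + 3) * (K ^ 4 * n) + T8)
    (hρ : ρ ^ 6 = n) (hς : ς ^ 6 = ν) (hρ0 : 0 < ρ) (hς0 : 0 < ς)
    (hT8 : T8 = 96 * Chat * K ^ 6 * ρ ^ 8 * ς ^ (2 * d - 6))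
    (hρ4 : 1536 * Chat * K ^ 6 * ς ^ (2 * d) ≤ ρ ^ 4) : False := by
  have hν0 : 0 < ν := by linarith
  have hK0 : 0 < K := by linarith
  have hν2 : ν ≤ ν ^ 2 := by nlinarith
  have h1 : ν * (2 * n) ≤ n ^ 2 / 8 := by
    have h2 : 16 * ν ≤ n := by
      have h3 : 16 * ν ^ 2 ≤ X0 * ν ^ 2 := by
        apply mul_le_mul_of_nonneg_right _ (by positivity)
        have : 0 ≤ 128 * Ff * K ^ 5 := by positivity
        have : 0 ≤ 16 * (2 * Chat + 3) * K ^ 4 := by positivity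
        linarith
      nlinarith
    nlinarith
  have h2 : ν * Slow ≤ n ^ 2 / 8 := by
    have e : ν * (n / (8 * K * ν) * (K * n)) = n ^ 2 / 8 := by
      field_simp
    rw [← e]
    exact mul_le_mul_of_nonneg_left hlow hν0.le
  have h3 : ν * Splane ≤ n ^ 2 / 8 := by
    have h4 : 128 * Ff * K ^ 5 * ν ^ 2 ≤ n := by
      have h5 : 128 * Ff * K ^ 5 * ν ^ 2 ≤ X0 * ν ^ 2 := by
        apply mul_le_mul_of_nonneg_right _ (by positivity)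
        have : 0 ≤ 16 * (2 * Chat + 3) * K ^ 4 := by positivity
        linarith
      linarith
    calc ν * Splane ≤ ν * ((Ff * (8 * K * ν) * 2) * (K ^ 4 * n)) :=
          mul_le_mul_of_nonneg_left hplane hν0.le
      _ = (128 * Ff * K ^ 5 * ν ^ 2) * n / 8 := by ring
      _ ≤ n * n / 8 := by gcongr
      _ = _ := by ring
  have h4 : ν * ((2 * (Chat * τ) + 3) * (K ^ 4 * n)) ≤ n ^ 2 / 16 := by
    have h5 : 16 * (2 * Chat + 3) * K ^ 4 * ν ^ 2 ≤ n := by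
      have h6 : 16 * (2 * Chat + 3) * K ^ 4 * ν ^ 2 ≤ X0 * ν ^ 2 := by
        apply mul_le_mul_of_nonneg_right _ (by positivity)
        have : 0 ≤ 128 * Ff * K ^ 5 := by positivity
        linarith
      linarith
    have h7 : 2 * (Chat * τ) + 3 ≤ (2 * Chat + 3) * ν := by nlinarith
    calc ν * ((2 * (Chat * τ) + 3) * (K ^ 4 * n)) ≤ ν * (((2 * Chat + 3) * ν) * (K ^ 4 * n)) := by
          gcongr
      _ = (16 * (2 * Chat + 3) * K ^ 4 * ν ^ 2) * n / 16 := by ring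
      _ ≤ n * n / 16 := by gcongr
      _ = _ := by ring
  have h5 : ν * T8 ≤ n ^ 2 / 16 := by
    have e1 : ν * T8 = (96 * Chat * K ^ 6 * ς ^ (2 * d)) * ρ ^ 8 := by
      rw [hT8, ← hς]
      have : ς ^ (2 * d) = ς ^ 6 * ς ^ (2 * d - 6) := by
        rw [← pow_add]
        congr 1
        omega
      rw [this]
      ring
    have e2 : n ^ 2 = ρ ^ 4 * ρ ^ 8 := by
      rw [← hρ]; ring
    rw [e1, e2]
    have h6 : 96 * Chat * K ^ 6 * ς ^ (2 * d) ≤ ρ ^ 4 / 16 := by linarith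
    calc (96 * Chat * K ^ 6 * ς ^ (2 * d)) * ρ ^ 8 ≤ (ρ ^ 4 / 16) * ρ ^ 8 := by gcongr
      _ = _ := by ring
  have h6 : n ^ 2 ≤ n ^ 2 / 8 + n ^ 2 / 8 + n ^ 2 / 8 + n ^ 2 / 16 + n ^ 2 / 16 := by
    have h7 : ν * O ≤ ν * (Slow + Splane + Ssp) := mul_le_mul_of_nonneg_left hO hν0.le
    have h8 : ν * Ssp ≤ ν * ((2 * (Chat * τ) + 3) * (K ^ 4 * n)) + ν * T8 := by
      rw [← mul_add]
      exact mul_le_mul_of_nonneg_left hsp hν0.le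
    nlinarith
  have h7 : 0 < n ^ 2 := by positivity
  linarith

/-- The numerical side conditions. -/
lemma ms_side (n ν ς K Cc Ff Chat X0 : ℝ) (d : ℕ) (hK1 : 1 ≤ K) (hn0 : 0 < n)
    (hν1 : 1 ≤ ν) (hC0 : 0 ≤ Cc) (hFf : 1 ≤ Ff) (hChat1 : 1 ≤ Chat)
    (hX0 : X0 = 16 + 16 * K ^ 4 + 64 * K ^ 2 + 128 * Ff * K ^ 5 + 16 * (2 * Chat + 3) * K ^ 4 +
      8 * K ^ 4 * Cc + 1)
    (hXn : X0 * ν ^ 2 ≤ n) (hXτ : X0 * (ς ^ 3) ^ d ≤ n) (hς6 : ς ^ 6 = ν) (hς0 : 0 < ς) :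
    (ς ^ 3) ^ 2 = ν ∧ 1 ≤ ς ^ 3 ∧ ς ^ 3 ≤ ν ∧ (ς ^ 3) ^ d ≤ n ∧ 0 < n / (8 * K * ν) ∧
      2 * K ^ 3 * ν ≤ n / (8 * K * ν) ∧
      (∀ j, j + 2 ≤ d → K ^ 3 * Cc * (ς ^ 3) ^ j ≤ n / (8 * K * ν)) ∧
      n / (n / (8 * K * ν)) = 8 * K * ν ∧ n / (n / (8 * K * ν)) ^ 2 ≤ 1 ∧
      16 + 128 * Ff * K ^ 5 + 16 * (2 * Chat + 3) * K ^ 4 ≤ X0 := by
  have hK0 : 0 < K := by linarith
  have hν0 : 0 < ν := by linarith
  have hX0nn : 0 ≤ 128 * Ff * K ^ 5 := by positivity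
  have hX0nn2 : 0 ≤ 16 * (2 * Chat + 3) * K ^ 4 := by positivity
  have hX0nn3 : 0 ≤ 8 * K ^ 4 * Cc := by positivity
  have hX0nn4 : 0 ≤ 16 * K ^ 4 := by positivity
  have hX0nn5 : 0 ≤ 64 * K ^ 2 := by positivity
  have hτ2 : (ς ^ 3) ^ 2 = ν := by rw [← hς6]; ring
  have hτ1 : 1 ≤ ς ^ 3 := by
    by_contra hcon
    push Not at hcon
    have h0 : 0 ≤ ς ^ 3 := by positivity
    have : (ς ^ 3) ^ 2 < 1 := pow_lt_one₀ h0 hcon (by norm_num)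
    linarith
  have hτν : ς ^ 3 ≤ ν := by rw [← hτ2]; nlinarith
  have hX1 : 1 ≤ X0 := by rw [hX0]; linarith
  have hτd : 0 ≤ (ς ^ 3) ^ d := by positivity
  have hnτ : (ς ^ 3) ^ d ≤ n := by
    refine le_trans ?_ hXτ
    nlinarith
  refine ⟨hτ2, hτ1, hτν, hnτ, by positivity, ?_, ?_, ?_, ?_, by rw [hX0]; linarith⟩
  · rw [le_div_iff₀ (by positivity)]
    have h1 : 16 * K ^ 4 * ν ^ 2 ≤ X0 * ν ^ 2 := by
      apply mul_le_mul_of_nonneg_right _ (by positivity)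
      rw [hX0]; linarith
    calc 2 * K ^ 3 * ν * (8 * K * ν) = 16 * K ^ 4 * ν ^ 2 := by ring
      _ ≤ _ := h1.trans hXn
  · intro j hj2
    rw [le_div_iff₀ (by positivity)]
    have h1 : (ς ^ 3) ^ (j + 2) ≤ (ς ^ 3) ^ d := pow_le_pow_right₀ hτ1 hj2
    have h2 : 8 * K ^ 4 * Cc * (ς ^ 3) ^ d ≤ X0 * (ς ^ 3) ^ d := by
      apply mul_le_mul_of_nonneg_right _ hτd
      rw [hX0]; linarith
    have h3 : K ^ 3 * Cc * (ς ^ 3) ^ j * (8 * K * ν) = 8 * K ^ 4 * Cc * (ς ^ 3) ^ (j + 2) := by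
      rw [← hτ2]; ring
    rw [h3]
    calc 8 * K ^ 4 * Cc * (ς ^ 3) ^ (j + 2) ≤ 8 * K ^ 4 * Cc * (ς ^ 3) ^ d := by gcongr
      _ ≤ _ := h2.trans hXτ
  · field_simp
  · have e2 : n / (n / (8 * K * ν)) ^ 2 = 64 * K ^ 2 * ν ^ 2 / n := by
      field_simp
      ring
    rw [e2, div_le_one hn0]
    have h3 : 64 * K ^ 2 * ν ^ 2 ≤ X0 * ν ^ 2 := by
      apply mul_le_mul_of_nonneg_right _ (by positivity)
      rw [hX0]; linarith
    exact h3.trans hXn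

/-- The numerical parameters of the sum bound. -/
lemma ms_side2 (n ς ρ K Chat : ℝ) (d : ℕ) (hK1 : 1 ≤ K) (hChat1 : 1 ≤ Chat) (hρ6 : ρ ^ 6 = n)
    (hς0 : 0 < ς) (hρ0 : 0 < ρ) :
    12 * K ^ 4 * n ≤ (4 * K ^ 2 * ρ ^ 3) ^ 2 ∧
    Chat * (K ^ 9 * n ^ 2 * (ς ^ 3) ^ (2 * d - 6)) ≤ (Chat * K ^ 3 * ρ ^ 4 * ς ^ (2 * d - 6)) ^ 3 ∧
    K * n ≤ (K * ρ) ^ 6 := by
  have hK0 : 0 < K := by linarith
  refine ⟨?_, ?_, ?_⟩
  · rw [← hρ6]
    have : 0 ≤ K ^ 4 * ρ ^ 6 := by positivity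
    nlinarith
  · have e3 : (ς ^ 3) ^ (2 * d - 6) = (ς ^ (2 * d - 6)) ^ 3 := by
      rw [← pow_mul, ← pow_mul, mul_comm]
    have e2 : n ^ 2 = ρ ^ 12 := by rw [← hρ6]; ring
    rw [e3, e2]
    have h1 : Chat ≤ Chat ^ 3 := by
      have h5 : Chat * 1 ≤ Chat * Chat ^ 2 := by
        apply mul_le_mul_of_nonneg_left _ (by linarith)
        nlinarith
      nlinarith
    have h2 : 0 ≤ K ^ 9 * ρ ^ 12 * (ς ^ (2 * d - 6)) ^ 3 := by positivity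
    calc Chat * (K ^ 9 * ρ ^ 12 * (ς ^ (2 * d - 6)) ^ 3) ≤
        Chat ^ 3 * (K ^ 9 * ρ ^ 12 * (ς ^ (2 * d - 6)) ^ 3) :=
          mul_le_mul_of_nonneg_right h1 h2
      _ = _ := by ring
  · rw [← hρ6]
    have h1 : K ≤ K ^ 6 := by
      calc K = K ^ 1 := (pow_one K).symm
        _ ≤ K ^ 6 := pow_le_pow_right₀ hK1 (by norm_num)
    have h2 : 0 ≤ ρ ^ 6 := by positivity
    calc K * ρ ^ 6 ≤ K ^ 6 * ρ ^ 6 := by gcongr
      _ = _ := by ring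

section Inner

variable {E : Type} [NormedAddCommGroup E] [InnerProductSpace ℝ E] [FiniteDimensional ℝ E]
  [DecidableEq E]

/-- From norms to lines. -/
lemma pairs_bound (A : Finset E) :
    (A.card : ℝ) ^ 2 ≤ ((A.image norm).card : ℝ) * (2 * (A.card : ℝ) +
      ∑ ℓ ∈ spanLines (A + A), ((lineSet (A + A) ℓ).card : ℝ) *
        ((lineSet (A - A) (ℓᗮ : Submodule ℝ E)).card : ℝ)) := by
  classical
  have horth : ((orthPairs (A + A) (A - A)).card : ℝ) ≤ ∑ ℓ ∈ spanLines (A + A),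
      ((lineSet (A + A) ℓ).card : ℝ) * ((lineSet (A - A) (ℓᗮ : Submodule ℝ E)).card : ℝ) := by
    have h1 := orthPairs_le_sum_lines (A + A) (A - A)
    have h2 : ((orthPairs (A + A) (A - A)).card : ℝ) ≤
        ((∑ ℓ ∈ spanLines (A + A), (lineSet (A + A) ℓ).card *
          (lineSet (A - A) (ℓᗮ : Submodule ℝ E)).card : ℕ) : ℝ) := by
      exact_mod_cast h1
    push_cast at h2
    exact h2
  have hE2 : (((A ×ˢ A).filter (fun p => ‖p.1‖ = ‖p.2‖)).card : ℝ) ≤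
      2 * (A.card : ℝ) + ((orthPairs (A + A) (A - A)).card : ℝ) := by
    exact_mod_cast energy_le A
  have hCS0 := card_sq_le_image_mul_pairs A norm
  have h1 : (A.card : ℝ) ^ 2 ≤ ((A.image norm).card : ℝ) *
      (((A ×ˢ A).filter (fun p => ‖p.1‖ = ‖p.2‖)).card : ℝ) := by
    exact_mod_cast hCS0
  refine h1.trans (mul_le_mul_of_nonneg_left ?_ (by positivity))
  linarith

/-- Splitting the sum over lines into three parts. -/
theorem split_sum {d : ℕ} (hd4 : 4 ≤ d) (hE : finrank ℝ E = d) {C FT Ff : ℝ → ℝ}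
    (hMS : ∀ j, 3 ≤ j → j < d → MS j C) (hT : ∀ s', 1 ≤ s' → s' ≤ d → TS s' FT) (hFC : FC 2 Ff)
    {A : Finset E} {K : ℝ} (hd : Doubling A K) (hC : 1 ≤ C (K ^ 3)) (hFT : 1 ≤ FT K)
    (hFT3 : 1 ≤ FT (K ^ 3)) (hFf : 1 ≤ Ff K) (τ : ℝ) (hτ1 : 1 ≤ τ)
    (hτ2 : τ ^ 2 = ((A.image norm).card : ℝ)) (hnτ : τ ^ d ≤ (A.card : ℝ)) (κ₀ : ℝ)
    (hκ₀ : κ₀ = (A.card : ℝ) / (8 * K * ((A.image norm).card : ℝ))) (hκ₀0 : 0 < κ₀)
    (hκ1 : 2 * K ^ 3 * ((A.image norm).card : ℝ) ≤ κ₀)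
    (hκ2 : ∀ j, 3 ≤ j → j + 2 ≤ d → K ^ 3 * C (K ^ 3) * τ ^ j ≤ κ₀)
    (hκ3 : (A.card : ℝ) / κ₀ ^ 2 ≤ 1)
    (Chat a β θ : ℝ)
    (hChat : Chat = (FT K + FT (K ^ 3)) * (K ^ 3 * (C (K ^ 3) + 2)) * (8 * K ^ 4) ^ d)
    (ha : 0 < a) (hβ : 0 < β) (hθ : 0 ≤ θ) (hAa : 12 * K ^ 4 * (A.card : ℝ) ≤ a ^ 2)
    (hBβ : Chat * (K ^ 9 * (A.card : ℝ) ^ 2 * τ ^ (2 * d - 6)) ≤ β ^ 3)
    (hI : K * (A.card : ℝ) ≤ θ ^ 6) :
    ∑ ℓ ∈ spanLines (A + A), ((lineSet (A + A) ℓ).card : ℝ) *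
        ((lineSet (A - A) (ℓᗮ : Submodule ℝ E)).card : ℝ) ≤
      κ₀ * (K * (A.card : ℝ)) + (Ff K * ((A.card : ℝ) / κ₀) * 2) * (K ^ 4 * (A.card : ℝ)) +
        ((2 * (Chat * τ) + 3) * (K ^ 4 * (A.card : ℝ)) + 24 * a * β * θ) := by
  classical
  have hK0 := hd.K_pos
  have hn0 := hd.card_pos
  rw [← sum_filter_add_sum_filter_not (spanLines (A + A)) (fun ℓ : Submodule ℝ E =>
    ((lineSet (A - A) (ℓᗮ : Submodule ℝ E)).card : ℝ) ≤ κ₀)]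
  rw [← sum_filter_add_sum_filter_not ((spanLines (A + A)).filter (fun ℓ : Submodule ℝ E =>
    ¬ ((lineSet (A - A) (ℓᗮ : Submodule ℝ E)).card : ℝ) ≤ κ₀)) (fun ℓ : Submodule ℝ E =>
    finrank ℝ (Submodule.span ℝ (lineSet (A - A) (ℓᗮ : Submodule ℝ E) : Set E)) = 2)]
  rw [← add_assoc]
  apply add_le_add (add_le_add ?_ ?_) ?_
  · have h1 := low_part (A + A) (A - A) ((spanLines (A + A)).filter (fun ℓ : Submodule ℝ E =>
      ((lineSet (A - A) (ℓᗮ : Submodule ℝ E)).card : ℝ) ≤ κ₀)) (filter_subset _ _) κ₀ hκ₀0.le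
      (fun ℓ hℓ => (mem_filter.1 hℓ).2)
    refine h1.trans ?_
    exact mul_le_mul_of_nonneg_left hd.add hκ₀0.le
  · have h1 := plane_part hd Ff hFC κ₀ hκ₀0 (((spanLines (A + A)).filter (fun ℓ : Submodule ℝ E =>
      ¬ ((lineSet (A - A) (ℓᗮ : Submodule ℝ E)).card : ℝ) ≤ κ₀)).filter (fun ℓ : Submodule ℝ E =>
      finrank ℝ (Submodule.span ℝ (lineSet (A - A) (ℓᗮ : Submodule ℝ E) : Set E)) = 2))
      ((filter_subset _ _).trans (filter_subset _ _)) (by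
        intro ℓ hℓ
        obtain ⟨h2, h3⟩ := mem_filter.1 hℓ
        exact ⟨(not_le.1 (mem_filter.1 h2).2).le, h3⟩)
    refine h1.trans ?_
    have h3 : 1 + (A.card : ℝ) / κ₀ ^ 2 ≤ 2 := by linarith
    have hFf0 : 0 ≤ Ff K * ((A.card : ℝ) / κ₀) := by positivity
    have h4 := mul_le_mul_of_nonneg_left h3 hFf0
    exact mul_le_mul_of_nonneg_right h4 (by positivity)
  · exact spanned_part hd4 hE hMS hT hd hC hFT hFT3 τ hτ1 hτ2 hnτ κ₀ hκ₀ hκ₀0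
      (((spanLines (A + A)).filter (fun ℓ : Submodule ℝ E =>
      ¬ ((lineSet (A - A) (ℓᗮ : Submodule ℝ E)).card : ℝ) ≤ κ₀)).filter (fun ℓ : Submodule ℝ E =>
      ¬ finrank ℝ (Submodule.span ℝ (lineSet (A - A) (ℓᗮ : Submodule ℝ E) : Set E)) = 2))
      ((filter_subset _ _).trans (filter_subset _ _)) (by
        intro ℓ hℓ
        obtain ⟨h2, h3⟩ := mem_filter.1 hℓ
        obtain ⟨h4, h5⟩ := mem_filter.1 h2
        rcases dims_excluded hd4 hE hMS hd hC τ (by linarith) hτ2 κ₀ hκ₀0 hκ1 hκ2 ℓ h4 (not_le.1 h5) with h6 | h6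
        · exact absurd h6 h3
        · exact h6) (fun ℓ hℓ => not_le.1 (mem_filter.1 (mem_filter.1 hℓ).1).2) Chat
      a β θ hChat ha hβ hθ hAa hBβ hI

/-- The contradiction when a set has too few norms. -/
theorem ms_core {d : ℕ} (hd4 : 4 ≤ d) (hE : finrank ℝ E = d) {C FT Ff : ℝ → ℝ}
    (hMS : ∀ j, 3 ≤ j → j < d → MS j C) (hT : ∀ s', 1 ≤ s' → s' ≤ d → TS s' FT) (hFC : FC 2 Ff)
    {A : Finset E} {K : ℝ} (hd : Doubling A K) (hC : 1 ≤ C (K ^ 3)) (hFT : 1 ≤ FT K)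
    (hFT3 : 1 ≤ FT (K ^ 3)) (hFf : 1 ≤ Ff K)
    (Chat X0 : ℝ) (hChat1 : 1 ≤ Chat)
    (hChat : Chat = (FT K + FT (K ^ 3)) * (K ^ 3 * (C (K ^ 3) + 2)) * (8 * K ^ 4) ^ d)
    (hX0 : X0 = 16 + 16 * K ^ 4 + 64 * K ^ 2 + 128 * Ff K * K ^ 5 + 16 * (2 * Chat + 3) * K ^ 4 +
      8 * K ^ 4 * C (K ^ 3) + 1)
    (hXn : X0 * ((A.image norm).card : ℝ) ^ 2 ≤ (A.card : ℝ))
    (hXτ : X0 * (tau6 (A.image norm).card ^ 3) ^ d ≤ (A.card : ℝ))
    (hρ4 : 1536 * Chat * K ^ 6 * tau6 (A.image norm).card ^ (2 * d) ≤ tau6 A.card ^ 4) : False := by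
  have hK1 := hd.one_le
  have hK0 : 0 < K := by linarith
  have hn0 := hd.card_pos
  have hν1 : (1 : ℝ) ≤ ((A.image norm).card : ℝ) := by
    have : 1 ≤ (A.image norm).card := card_pos.2 (hd.ne.image _)
    exact_mod_cast this
  have hς6 : tau6 (A.image norm).card ^ 6 = ((A.image norm).card : ℝ) := tau6_pow _
  have hς0 : 0 < tau6 (A.image norm).card := tau6_pos (card_pos.2 (hd.ne.image _))
  have hρ6 : tau6 A.card ^ 6 = (A.card : ℝ) := tau6_pow _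
  have hρ0 : 0 < tau6 A.card := tau6_pos (card_pos.2 hd.ne)
  obtain ⟨hτ2, hτ1, hτν, hnτ, hκ₀0, hκ1, hκ2, e1, hκ3, hXX⟩ := ms_side (A.card : ℝ) ((A.image norm).card : ℝ)
    (tau6 (A.image norm).card) K (C (K ^ 3)) (Ff K) Chat X0 d hK1 hn0 hν1 (by linarith) hFf hChat1 hX0 hXn hXτ
    hς6 hς0
  obtain ⟨hs1, hs2, hs3⟩ := ms_side2 (A.card : ℝ) (tau6 (A.image norm).card) (tau6 A.card) K Chat d hK1 hChat1
    hρ6 hς0 hρ0
  have hsplit := split_sum hd4 hE hMS hT hFC hd hC hFT hFT3 hFf (tau6 (A.image norm).card ^ 3) hτ1 hτ2 hnτ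
    ((A.card : ℝ) / (8 * K * ((A.image norm).card : ℝ))) rfl hκ₀0 hκ1 (fun j _ hj => hκ2 j hj) hκ3 Chat
    (4 * K ^ 2 * tau6 A.card ^ 3) (Chat * K ^ 3 * tau6 A.card ^ 4 * tau6 (A.image norm).card ^ (2 * d - 6))
    (K * tau6 A.card) hChat (by positivity) (by positivity) (by positivity) hs1 hs2 hs3
  rw [e1] at hsplit
  exact final_arith (A.card : ℝ) ((A.image norm).card : ℝ) (tau6 (A.image norm).card ^ 3) K (Ff K) Chat X0
    _ _ _ _ (tau6 A.card) (tau6 (A.image norm).card)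
    (24 * (4 * K ^ 2 * tau6 A.card ^ 3) * (Chat * K ^ 3 * tau6 A.card ^ 4 * tau6 (A.image norm).card ^ (2 * d - 6)) * (K * tau6 A.card))
    d (by omega) hn0 hν1 hτν (by positivity) hK1 (by linarith) (by linarith) hXX hXn
    (pairs_bound A) hsplit (le_refl _) (le_refl _) (le_refl _) hρ6 hς6 hρ0 hς0 (by ring) hρ4

end Inner

/-- The new constant. -/
noncomputable def chatF (d : ℕ) (C FT : ℝ → ℝ) (K : ℝ) : ℝ :=
  (FT K + FT (K ^ 3)) * (K ^ 3 * (C (K ^ 3) + 2)) * (8 * K ^ 4) ^ d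

/-- The new constant. -/
noncomputable def newC (d : ℕ) (C FT Ff : ℝ → ℝ) (K : ℝ) : ℝ :=
  (16 + 16 * K ^ 4 + 64 * K ^ 2 + 128 * Ff K * K ^ 5 + 16 * (2 * chatF d C FT K + 3) * K ^ 4 +
      8 * K ^ 4 * C (K ^ 3) + 1) ^ 2 + (1536 * chatF d C FT K * K ^ 6) ^ 3

lemma chatF_poly (d : ℕ) {C FT : ℝ → ℝ} (h1 : PolyK C) (h2 : PolyK FT) : PolyK (chatF d C FT) := by
  have c : ∀ a : ℝ, 1 ≤ a → PolyK (fun _ => a) := PolyK.cst
  have p := PolyK.pow_id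
  exact ((h2.add h2.comp3).mul ((p 3).mul (h1.comp3.add (c 2 (by norm_num))))).mul
    (((c 8 (by norm_num)).mul (p 4)).npow d)

lemma newC_poly (d : ℕ) {C FT Ff : ℝ → ℝ} (h1 : PolyK C) (h2 : PolyK FT) (h3 : PolyK Ff) :
    PolyK (newC d C FT Ff) := by
  have c : ∀ a : ℝ, 1 ≤ a → PolyK (fun _ => a) := PolyK.cst
  have p := PolyK.pow_id
  have hc := chatF_poly d h1 h2
  have t1 := (c 16 (by norm_num)).add ((c 16 (by norm_num)).mul (p 4))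
  have t2 := t1.add ((c 64 (by norm_num)).mul (p 2))
  have t3 := t2.add (((c 128 (by norm_num)).mul h3).mul (p 5))
  have t4 := t3.add (((c 16 (by norm_num)).mul (((c 2 (by norm_num)).mul hc).add (c 3 (by norm_num)))).mul (p 4))
  have t5 := t4.add (((c 8 (by norm_num)).mul (p 4)).mul h1.comp3)
  have t6 := t5.add (c 1 (le_refl 1))
  have t7 := ((c 1536 (by norm_num)).mul hc).mul (p 6)
  exact (t6.npow 2).add (t7.npow 3)

/-- The inductive step on the dimension. -/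
theorem ms_step {d : ℕ} (hd4 : 4 ≤ d) {C FT Ff : ℝ → ℝ} (hCp : PolyK C) (hFTp : PolyK FT)
    (hFfp : PolyK Ff) (hMS : ∀ j, 3 ≤ j → j < d → MS j C) (hT : ∀ s', 1 ≤ s' → s' ≤ d → TS s' FT)
    (hFC : FC 2 Ff) : MS d (newC d C FT Ff) := by
  intro E _ _ _ _ A K hE hd
  have hK1 := hd.one_le
  have hK0 : 0 < K := by linarith
  have hK3 : 1 ≤ K ^ 3 := one_le_pow₀ hK1
  by_contra hcon
  push Not at hcon
  have hn0 := hd.card_pos
  have hν1 : (1 : ℝ) ≤ ((A.image norm).card : ℝ) := by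
    have : 1 ≤ (A.image norm).card := card_pos.2 (hd.ne.image _)
    exact_mod_cast this
  have hνpos : (0 : ℝ) < ((A.image norm).card : ℝ) := by linarith
  have hC1 := hCp.2 _ hK3
  have hFT1 := hFTp.2 _ hK1
  have hFT3 := hFTp.2 _ hK3
  have hFf1 := hFfp.2 _ hK1
  set Chat := chatF d C FT K with hChat
  have hChat1 : 1 ≤ Chat := (chatF_poly d hCp hFTp).2 K hK1
  set X0 := 16 + 16 * K ^ 4 + 64 * K ^ 2 + 128 * Ff K * K ^ 5 + 16 * (2 * Chat + 3) * K ^ 4 +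
      8 * K ^ 4 * C (K ^ 3) + 1 with hX0
  have hX0nn : 0 ≤ X0 := by
    rw [hX0]
    have : 0 ≤ C (K ^ 3) := by linarith
    have : 0 ≤ Ff K := by linarith
    positivity
  set Y0 := 1536 * Chat * K ^ 6 with hY0
  have hY0nn : 0 ≤ Y0 := by rw [hY0]; positivity
  have hnew : newC d C FT Ff K = X0 ^ 2 + Y0 ^ 3 := rfl
  rw [hnew] at hcon
  set ν : ℝ := ((A.image norm).card : ℝ) with hν
  set n : ℝ := (A.card : ℝ) with hn
  have hνd : 0 < ν ^ d := by positivity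
  have hX2 : X0 ^ 2 * ν ^ d < n ^ 2 := by
    have : 0 ≤ Y0 ^ 3 * ν ^ d := by positivity
    nlinarith
  have hY3 : Y0 ^ 3 * ν ^ d < n ^ 2 := by
    have : 0 ≤ X0 ^ 2 * ν ^ d := by positivity
    nlinarith
  have hXn : X0 * ν ^ 2 ≤ n := by
    have h1 : (X0 * ν ^ 2) ^ 2 ≤ X0 ^ 2 * ν ^ d := by
      have h2 : ν ^ 4 ≤ ν ^ d := pow_le_pow_right₀ hν1 hd4
      calc (X0 * ν ^ 2) ^ 2 = X0 ^ 2 * ν ^ 4 := by ring
        _ ≤ _ := by gcongr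
    exact le_of_pow_le_pow_left₀ (by norm_num) hn0.le (h1.trans hX2.le)
  have hς6 : tau6 (A.image norm).card ^ 6 = ν := tau6_pow _
  have hς0 : 0 ≤ tau6 (A.image norm).card := tau6_nonneg _
  have hρ6 : tau6 A.card ^ 6 = n := tau6_pow _
  have hρ0 : 0 ≤ tau6 A.card := tau6_nonneg _
  have hXτ : X0 * (tau6 (A.image norm).card ^ 3) ^ d ≤ n := by
    have h1 : (X0 * (tau6 (A.image norm).card ^ 3) ^ d) ^ 2 = X0 ^ 2 * ν ^ d := by
      rw [← hς6]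
      ring
    refine le_of_pow_le_pow_left₀ (n := 2) (by norm_num) hn0.le ?_
    rw [h1]
    exact hX2.le
  have hρ4 : 1536 * Chat * K ^ 6 * tau6 (A.image norm).card ^ (2 * d) ≤ tau6 A.card ^ 4 := by
    refine le_of_pow_le_pow_left₀ (n := 3) (by norm_num) (by positivity) ?_
    have h1 : (1536 * Chat * K ^ 6 * tau6 (A.image norm).card ^ (2 * d)) ^ 3 = Y0 ^ 3 * ν ^ d := by
      rw [← hς6, hY0]
      ring
    have h2 : (tau6 A.card ^ 4) ^ 3 = n ^ 2 := by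
      rw [← hρ6]; ring
    rw [h1, h2]
    exact hY3.le
  exact ms_core hd4 hE hMS hT hFC hd hC1 hFT1 hFT3 hFf1 Chat X0 hChat1 rfl rfl hXn hXτ hρ4

end Vale.Agent.Lib.P054
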