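import Vale.Agent.Lib.P054.Gen7

/-!
# Distinct norms in every dimension at least three, with a polynomial constant
-/

open scoped Pointwise
open Finset
open Module (finrank)

namespace Vale.Agent.Lib.P054

set_option linter.unusedSectionVars false
set_option linter.style.haveILetI false

/-- Three dimensions, from the explicit theorem. -/
theorem ms_three : MS 3 (fun K => 10 ^ 14 * K ^ 36) := by
  intro E _ _ _ _ A K hE hd
  classical
  have hK1 := hd.one_le
  have hn0 := hd.card_pos
  let b : OrthonormalBasis (Fin 3) ℝ E := (stdOrthonormalBasis ℝ E).reindex (finCongr hE)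
  let φ : E ≃ₗᵢ[ℝ] EuclideanSpace ℝ (Fin 3) := b.repr
  have hA' : (A.image φ).Nonempty := hd.ne.image _
  have h := space_norms (A.image φ) hA'
  have hc : (A.image φ).card = A.card := card_image_of_injective _ φ.injective
  have hadd : (A.image φ + A.image φ).card = (A + A).card := by
    have h1 : A.image φ + A.image φ = (A + A).image φ := (Finset.image_add φ).symm
    rw [h1]
    exact card_image_of_injective _ φ.injective
  have hnorm : (A.image φ).image norm = A.image norm := by
    rw [image_image]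
    apply image_congr
    intro x _
    exact φ.norm_map x
  rw [hc, hadd, hnorm] at h
  refine h.trans ?_
  have h1 : ((A + A).card : ℝ) / (A.card : ℝ) ≤ K := hd.ratio_le
  have h2 : (((A + A).card : ℝ) / (A.card : ℝ)) ^ 36 ≤ K ^ 36 := by
    gcongr
  calc 10 ^ 14 * ((A.image norm).card : ℝ) ^ 3 * (((A + A).card : ℝ) / (A.card : ℝ)) ^ 36
      ≤ 10 ^ 14 * ((A.image norm).card : ℝ) ^ 3 * K ^ 36 := by gcongr
    _ = _ := by ring

/-- All dimensions, with one polynomial constant up to a given dimension. -/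
theorem ms_all (d : ℕ) : ∃ C : ℝ → ℝ, PolyK C ∧ ∀ j, 3 ≤ j → j ≤ d → MS j C := by
  induction d with
  | zero => exact ⟨fun _ => 1, PolyK.cst 1 (le_refl 1), fun j h1 h2 => by omega⟩
  | succ d ih =>
    obtain ⟨C, hC, h⟩ := ih
    by_cases h3 : d + 1 ≤ 3
    · have hp : PolyK (fun K : ℝ => 10 ^ 14 * K ^ 36) :=
        (PolyK.cst (10 ^ 14) (by norm_num)).mul (PolyK.pow_id 36)
      refine ⟨fun K => C K + 10 ^ 14 * K ^ 36, hC.add hp, fun j h1 h2 => ?_⟩
      by_cases h4 : j ≤ d
      · exact (h j h1 h4).mono (fun K hK => by linarith [hp.2 K hK])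
      · obtain rfl : j = 3 := by omega
        exact ms_three.mono (fun K hK => by linarith [hC.2 K hK])
    · obtain ⟨FT, hFT, hT⟩ := T_all (d + 1)
      obtain ⟨Ff, hFf, hFC, _⟩ := flat_all 1
      have hstep := ms_step (d := d + 1) (by omega) hC hFT hFf
        (fun j h1 h2 => h j h1 (by omega)) hT (hFC 1 (le_refl 1))
      have hnew := newC_poly (d + 1) hC hFT hFf
      refine ⟨fun K => C K + newC (d + 1) C FT Ff K, hC.add hnew, fun j h1 h2 => ?_⟩
      by_cases h4 : j ≤ d
      · exact (h j h1 h4).mono (fun K hK => by linarith [hnew.2 K hK])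
      · obtain rfl : j = d + 1 := by omega
        exact hstep.mono (fun K hK => by linarith [hC.2 K hK])

/-- The theorem on distinct norms in every dimension at least three. -/
theorem norms_all (d : ℕ) (hd : 3 ≤ d) [DecidableEq (EuclideanSpace ℝ (Fin d))] :
    ∃ C E : ℕ, ∀ A : Finset (EuclideanSpace ℝ (Fin d)), A.Nonempty →
      (A.card : ℝ) ^ 2 ≤ C * (((A + A).card : ℝ) / (A.card : ℝ)) ^ E *
        ((A.image norm).card : ℝ) ^ d := by
  obtain ⟨C, hC, h⟩ := ms_all d
  obtain ⟨⟨C₀, E₀, hC₀⟩, _⟩ := hC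
  refine ⟨C₀, E₀, fun A hA => ?_⟩
  have hdb := doubling_self hA
  have h1 := h d hd (le_refl d) (EuclideanSpace ℝ (Fin d)) A _ finrank_euclideanSpace_fin hdb
  refine h1.trans ?_
  have h2 := hC₀ _ hdb.one_le
  gcongr

end Vale.Agent.Lib.P054
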