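import Vale.Agent.Lib.P054.Dbl

/-!
# Counting rich hyperplanes for sets of small doubling
-/

open scoped Pointwise
open Finset

namespace Vale.Agent.Lib.P054

section Gen

variable {E : Type*} [AddCommGroup E] [Module ℝ E] [DecidableEq E]

omit [Module ℝ E] in
lemma zero_mem_sub_self {A : Finset E} (hA : A.Nonempty) : (0 : E) ∈ A - A := by
  obtain ⟨a, ha⟩ := hA
  exact mem_sub.2 ⟨a, ha, a, ha, sub_self a⟩

omit [Module ℝ E] in
lemma sub_subset_Z {A : Finset E} (hA : A.Nonempty) : A - A ⊆ (A - A) + (A - A) := by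
  intro a ha
  exact mem_add.2 ⟨a, ha, 0, zero_mem_sub_self hA, add_zero a⟩

omit [Module ℝ E] in
lemma Z_neg_mem (A : Finset E) : ∀ a ∈ (A - A) + (A - A), -a ∈ (A - A) + (A - A) := by
  intro a ha
  obtain ⟨x, hx, y, hy, rfl⟩ := mem_add.1 ha
  rw [neg_add]
  exact add_mem_add (sub_self_neg_mem A x hx) (sub_self_neg_mem A y hy)

omit [DecidableEq E] in
lemma partIn_card_le (S : Finset E) (H : Submodule ℝ E) [DecidableEq E] :
    (partIn S H).card ≤ (lineSet S H).card + 1 := by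
  classical
  have : partIn S H ⊆ insert 0 (lineSet S H) := by
    intro a ha
    obtain ⟨h1, h2⟩ := mem_partIn.1 ha
    by_cases h0 : a = 0
    · simp [h0]
    · exact mem_insert_of_mem (mem_lineSet.2 ⟨h1, h0, h2⟩)
  exact (card_le_card this).trans (card_insert_le _ _)

/-- The light part of a finite set: points on lines containing few points of `Z`. -/
noncomputable def lightIn (Z : Finset E) (f : ℝ) (X : Finset E) : Finset E :=
  X.filter (fun u => ((lineSet Z (Submodule.span ℝ {u})).card : ℝ) ≤ f)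

lemma mem_lightIn {Z X : Finset E} {f : ℝ} {u : E} :
    u ∈ lightIn Z f X ↔ u ∈ X ∧ ((lineSet Z (Submodule.span ℝ {u})).card : ℝ) ≤ f := by
  simp [lightIn]

/-- Sumset in the slice: the bound from covering. -/
lemma slice_bound {A : Finset E} {K : ℝ} (hd : Dbl A K) (H : Submodule ℝ E) :
    ((partIn (((A - A) + (A - A)) + ((A - A) + (A - A))) H).card : ℝ) ≤
      K ^ 9 * (((lineSet (A - A) H).card : ℝ) + 1) := by
  have hn0 : (0 : ℝ) < A.card := by exact_mod_cast card_pos.2 hd.hA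
  have h1 := covering (((A - A) + (A - A)) + ((A - A) + (A - A))) A H
  have h2 : ((partIn (((A - A) + (A - A)) + ((A - A) + (A - A))) H).card : ℝ) * (A.card : ℝ) ≤
      (((((A - A) + (A - A)) + ((A - A) + (A - A))) + A).card : ℝ) *
        ((partIn (A - A) H).card : ℝ) := by
    exact_mod_cast h1
  have h3 : ((partIn (A - A) H).card : ℝ) ≤ ((lineSet (A - A) H).card : ℝ) + 1 := by
    exact_mod_cast partIn_card_le (A - A) H
  have h4 := hd.hZZA
  have hK9 : (0 : ℝ) ≤ K ^ 9 := by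
    have := hd.hK
    positivity
  have h5 : ((partIn (((A - A) + (A - A)) + ((A - A) + (A - A))) H).card : ℝ) * (A.card : ℝ) ≤
      K ^ 9 * (((lineSet (A - A) H).card : ℝ) + 1) * (A.card : ℝ) := by
    calc _ ≤ _ := h2
      _ ≤ (K ^ 9 * (A.card : ℝ)) * (((lineSet (A - A) H).card : ℝ) + 1) := by
          apply mul_le_mul h4 h3 (by positivity) (by positivity)
      _ = _ := by ring
  exact le_of_mul_le_mul_right h5 hn0

/-- Dichotomy for a rich subspace: either many of its points are light or one line carries a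
fixed proportion of them. -/
theorem dichotomy {A : Finset E} {K : ℝ} (hd : Dbl A K) (H : Submodule ℝ E)
    (hc : 1 ≤ (lineSet (A - A) H).card) :
    ((lineSet (A - A) H).card : ℝ) / 4 ≤
        ((lightIn ((A - A) + (A - A)) (64 * K ^ 9) (lineSet (A - A) H)).card : ℝ) ∨
      ∃ v ∈ lineSet (A - A) H,
        ((lineSet (A - A) H).card : ℝ) / 4 ≤ ((lineSet (A - A) (Submodule.span ℝ {v})).card : ℝ) := by
  classical
  set U := A - A with hU
  set Z := U + U with hZ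
  set X := lineSet U H with hX
  set c : ℝ := (X.card : ℝ) with hcdef
  have hc1 : (1 : ℝ) ≤ c := by
    rw [hcdef]
    exact_mod_cast hc
  have hK1 := hd.hK
  have hKpos : (0 : ℝ) < K ^ 9 := by positivity
  set f : ℝ := 64 * K ^ 9 with hf
  have hfpos : 0 < f := by rw [hf]; positivity
  by_contra hcon
  push Not at hcon
  obtain ⟨hL, hD⟩ := hcon
  set Hv := X.filter (fun u => ¬ (((lineSet Z (Submodule.span ℝ {u})).card : ℝ) ≤ f)) with hHv
  have hsplit : (lightIn Z f X).card + Hv.card = X.card := by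
    rw [lightIn, hHv]
    exact card_filter_add_card_filter_not _
  have hsplit' : ((lightIn Z f X).card : ℝ) + (Hv.card : ℝ) = c := by
    rw [hcdef]
    exact_mod_cast hsplit
  have hHvbig : 3 * c / 4 < (Hv.card : ℝ) := by linarith
  have hHvX : ∀ v ∈ Hv, v ∈ X := fun v hv => (mem_filter.1 hv).1
  have hXprop : ∀ v ∈ X, v ∈ U ∧ v ≠ 0 ∧ v ∈ H := fun v hv => mem_lineSet.1 hv
  have hUZ : U ⊆ Z := sub_subset_Z hd.hA
  set IH := Hv.image (fun v => Submodule.span ℝ {v}) with hIH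
  by_cases h2 : 2 ≤ IH.card
  · -- Two heavy lines: the heavy points are few.
    set S := partIn Z H with hS
    have hSsym : ∀ a ∈ S, -a ∈ S := by
      intro a ha
      obtain ⟨h1, h3⟩ := mem_partIn.1 ha
      exact mem_partIn.2 ⟨Z_neg_mem A a h1, H.neg_mem h3⟩
    have hlines : ∀ l ∈ IH, ∃ v : E, v ≠ 0 ∧ l = Submodule.span ℝ {v} := by
      intro l hl
      obtain ⟨v, hv, rfl⟩ := mem_image.1 hl
      exact ⟨v, (hXprop v (hHvX v hv)).2.1, rfl⟩
    have hsubl : ∀ v ∈ Hv, lineSet Z (Submodule.span ℝ {v}) ⊆ lineSet S (Submodule.span ℝ {v}) := by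
      intro v hv a ha
      obtain ⟨h1, h3, h4⟩ := mem_lineSet.1 ha
      have hvH := (hXprop v (hHvX v hv)).2.2
      have hle : Submodule.span ℝ {v} ≤ H := (Submodule.span_singleton_le_iff_mem v H).2 hvH
      exact mem_lineSet.2 ⟨mem_partIn.2 ⟨h1, hle h4⟩, h3, h4⟩
    have hrich : ∀ l ∈ IH, f ≤ ((lineSet S l).card : ℝ) := by
      intro l hl
      obtain ⟨v, hv, rfl⟩ := mem_image.1 hl
      have h3 := (mem_filter.1 hv).2
      have h4 : ((lineSet Z (Submodule.span ℝ {v})).card : ℝ) ≤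
          ((lineSet S (Submodule.span ℝ {v})).card : ℝ) := by
        exact_mod_cast card_le_card (hsubl v hv)
      linarith [not_le.1 h3]
    have hsum := rich_lines_sum S hSsym IH hlines f hfpos hrich h2
    have hSS : ((S + S).card : ℝ) ≤ K ^ 9 * (c + 1) := by
      have h3 : S + S ⊆ partIn (Z + Z) H := by
        intro x hx
        obtain ⟨a, ha, b, hb, rfl⟩ := mem_add.1 hx
        obtain ⟨h4, h5⟩ := mem_partIn.1 ha
        obtain ⟨h6, h7⟩ := mem_partIn.1 hb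
        exact mem_partIn.2 ⟨add_mem_add h4 h6, H.add_mem h5 h7⟩
      have h4 : ((S + S).card : ℝ) ≤ ((partIn (Z + Z) H).card : ℝ) := by
        exact_mod_cast card_le_card h3
      exact h4.trans (slice_bound hd H)
    have hcov : (Hv.card : ℝ) ≤ ∑ l ∈ IH, ((lineSet S l).card : ℝ) := by
      have h3 : Hv ⊆ IH.biUnion (fun l => lineSet S l) := by
        intro v hv
        rw [mem_biUnion]
        refine ⟨Submodule.span ℝ {v}, mem_image_of_mem _ hv, ?_⟩
        obtain ⟨h4, h5, h6⟩ := hXprop v (hHvX v hv)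
        exact mem_lineSet.2 ⟨mem_partIn.2 ⟨hUZ h4, h6⟩, h5, Submodule.mem_span_singleton_self v⟩
      have h4 := (card_le_card h3).trans card_biUnion_le
      exact_mod_cast h4
    have h5 : f / 8 * (Hv.card : ℝ) ≤ K ^ 9 * (c + 1) := by
      calc f / 8 * (Hv.card : ℝ) ≤ f / 8 * ∑ l ∈ IH, ((lineSet S l).card : ℝ) := by
            apply mul_le_mul_of_nonneg_left hcov (by positivity)
        _ ≤ _ := hsum.trans hSS
    have h6 : 8 * (Hv.card : ℝ) ≤ c + 1 := by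
      have h7 : K ^ 9 * (8 * (Hv.card : ℝ)) ≤ K ^ 9 * (c + 1) := by
        calc K ^ 9 * (8 * (Hv.card : ℝ)) = f / 8 * (Hv.card : ℝ) := by rw [hf]; ring
          _ ≤ _ := h5
      exact le_of_mul_le_mul_left h7 hKpos
    linarith
  · -- At most one heavy line.
    push Not at h2
    have hne : Hv.Nonempty := by
      rw [← card_pos]
      have : (0 : ℝ) < (Hv.card : ℝ) := by linarith
      exact_mod_cast this
    obtain ⟨v, hv⟩ := hne
    have hcard1 : IH.card ≤ 1 := by omega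
    have hsame : ∀ v' ∈ Hv, Submodule.span ℝ {v'} = Submodule.span ℝ {v} := by
      intro v' hv'
      exact card_le_one.1 hcard1 _ (mem_image_of_mem _ hv') _ (mem_image_of_mem _ hv)
    have hsub : Hv ⊆ lineSet U (Submodule.span ℝ {v}) := by
      intro v' hv'
      obtain ⟨h4, h5, _⟩ := hXprop v' (hHvX v' hv')
      refine mem_lineSet.2 ⟨h4, h5, ?_⟩
      rw [← hsame v' hv']
      exact Submodule.mem_span_singleton_self v'
    have h3 := hD v (hHvX v hv)
    have h4 : (Hv.card : ℝ) ≤ ((lineSet U (Submodule.span ℝ {v})).card : ℝ) := by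
      exact_mod_cast card_le_card hsub
    linarith

end Gen

section Inner

variable {E : Type*} [NormedAddCommGroup E] [InnerProductSpace ℝ E] [DecidableEq E]

/-- Case D: subspaces containing a rich line. -/
theorem count_D {A : Finset E} {K : ℝ} (hd : Dbl A K) (κ : ℝ) (hκ : 0 < κ)
    (T : Finset (Submodule ℝ E)) (hTI : T ⊆ spanLines (A + A))
    (hT : ∀ ℓ : Submodule ℝ E, ℓ ∈ T → ∃ v ∈ lineSet (A - A) ℓᗮ,
      κ / 4 ≤ ((lineSet (A - A) (Submodule.span ℝ {v})).card : ℝ)) :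
    (T.card : ℝ) ≤ (1 + 64 * (K ^ 4 * A.card) / κ ^ 2) * (4 * (K ^ 4 * A.card) / κ) := by
  classical
  set U := A - A with hU
  set W := A + A with hW
  set R := (spanLines U).filter (fun l => κ / 4 ≤ ((lineSet U l).card : ℝ)) with hR
  have hκ4 : 0 < κ / 4 := by positivity
  have hRcard : (R.card : ℝ) ≤ 1 + 64 * (K ^ 4 * A.card) / κ ^ 2 := by
    have h1 := rich_filter_card_le U (sub_self_neg_mem A) (spanLines U) spanLines_line (κ / 4) hκ4
    have h2 := hd.hZ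
    have h3 : 4 * ((U + U).card : ℝ) / (κ / 4) ^ 2 ≤ 64 * (K ^ 4 * A.card) / κ ^ 2 := by
      rw [show (κ / 4) ^ 2 = κ ^ 2 / 16 by ring, div_div_eq_mul_div]
      rw [show 4 * ((U + U).card : ℝ) * 16 = 64 * ((U + U).card : ℝ) by ring]
      gcongr
    linarith
  have hfib : ∀ l ∈ R, (((spanLines W).filter (fun ℓ : Submodule ℝ E => l ≤ ℓᗮ)).card : ℝ) ≤
      4 * (K ^ 4 * A.card) / κ := by
    intro l hl
    obtain ⟨_, hl2⟩ := mem_filter.1 hl
    have h1 : (spanLines W).filter (fun ℓ : Submodule ℝ E => l ≤ ℓᗮ) ⊆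
        (lineSet W lᗮ).image (fun w => Submodule.span ℝ {w}) := by
      intro ℓ hℓ
      obtain ⟨hℓ1, hℓ2⟩ := mem_filter.1 hℓ
      obtain ⟨w, hw1, hw2, rfl⟩ := mem_spanLines.1 hℓ1
      refine mem_image.2 ⟨w, mem_lineSet.2 ⟨hw1, hw2, ?_⟩, rfl⟩
      rw [Submodule.mem_orthogonal]
      intro u hu
      have h3 := hℓ2 hu
      rw [Submodule.mem_orthogonal] at h3
      have h4 := h3 w (Submodule.mem_span_singleton_self w)
      rw [real_inner_comm]
      exact h4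
    have h2 : (((spanLines W).filter (fun ℓ : Submodule ℝ E => l ≤ ℓᗮ)).card : ℝ) ≤ ((lineSet W lᗮ).card : ℝ) := by
      exact_mod_cast (card_le_card h1).trans card_image_le
    have h3 := direct_sum_card (lineSet W lᗮ) (lineSet U l) lᗮ l
      (by rw [inf_comm]; exact Submodule.inf_orthogonal_eq_bot l)
      (fun x hx => (mem_lineSet.1 hx).2.2) (fun x hx => (mem_lineSet.1 hx).2.2)
    have h4 : lineSet W lᗮ + lineSet U l ⊆ W + U :=
      add_subset_add (fun x hx => (mem_lineSet.1 hx).1) (fun x hx => (mem_lineSet.1 hx).1)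
    have h5 : ((lineSet W lᗮ).card : ℝ) * ((lineSet U l).card : ℝ) ≤ ((W + U).card : ℝ) := by
      exact_mod_cast h3.trans (card_le_card h4)
    have h6 := hd.hWU
    have h7 : ((lineSet W lᗮ).card : ℝ) * (κ / 4) ≤ K ^ 4 * A.card := by
      calc _ ≤ ((lineSet W lᗮ).card : ℝ) * ((lineSet U l).card : ℝ) :=
            mul_le_mul_of_nonneg_left hl2 (by positivity)
        _ ≤ _ := h5.trans h6
    have h8 : ((lineSet W lᗮ).card : ℝ) ≤ 4 * (K ^ 4 * A.card) / κ := by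
      rw [le_div_iff₀ hκ]
      linarith
    exact h2.trans h8
  have hsub : T ⊆ R.biUnion (fun l => (spanLines W).filter (fun ℓ : Submodule ℝ E => l ≤ ℓᗮ)) := by
    intro ℓ hℓ
    obtain ⟨v, hv, hrich⟩ := hT ℓ hℓ
    obtain ⟨hv1, hv2, hv3⟩ := mem_lineSet.1 hv
    rw [mem_biUnion]
    refine ⟨Submodule.span ℝ {v}, mem_filter.2 ⟨mem_spanLines.2 ⟨v, hv1, hv2, rfl⟩, hrich⟩, ?_⟩
    refine mem_filter.2 ⟨hTI hℓ, ?_⟩
    exact (Submodule.span_singleton_le_iff_mem v _).2 hv3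
  have h1 : (T.card : ℝ) ≤
      ∑ l ∈ R, (((spanLines W).filter (fun ℓ : Submodule ℝ E => l ≤ ℓᗮ)).card : ℝ) := by
    exact_mod_cast (card_le_card hsub).trans card_biUnion_le
  have hKn : 0 ≤ 4 * (K ^ 4 * (A.card : ℝ)) / κ := by
    have := hd.hK
    positivity
  calc (T.card : ℝ) ≤ _ := h1
    _ ≤ ∑ _l ∈ R, (4 * (K ^ 4 * A.card) / κ) := sum_le_sum hfib
    _ = (R.card : ℝ) * (4 * (K ^ 4 * A.card) / κ) := by rw [sum_const, nsmul_eq_mul]
    _ ≤ _ := mul_le_mul_of_nonneg_right hRcard hKn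

/-- Case L, the count at one light point, given maps `Φ` playing the role of the cross product. -/
theorem count_J {A : Finset E} {K : ℝ} (hd : Dbl A K) (Φ : E → (E →ₗ[ℝ] E))
    (hΦ1 : ∀ u x : E, u ≠ 0 → Φ u x = 0 → x ∈ Submodule.span ℝ {u})
    (hΦ2 : ∀ δ u x : E, δ ≠ 0 → inner ℝ δ u = 0 → inner ℝ δ x = 0 → Φ u x ∈ Submodule.span ℝ {δ})
    (κ f : ℝ) (hf : 0 ≤ f) (hκ : 8 * f ≤ κ) (hκ0 : 0 < κ)
    (u : E) (hu : u ≠ 0)
    (hlight : ((lineSet ((A - A) + (A - A)) (Submodule.span ℝ {u})).card : ℝ) ≤ f)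
    (F : Finset (Submodule ℝ E)) (hFl : ∀ ℓ ∈ F, ∃ δ : E, δ ≠ 0 ∧ ℓ = Submodule.span ℝ {δ})
    (hFu : ∀ ℓ : Submodule ℝ E, ℓ ∈ F → u ∈ ℓᗮ)
    (hFrich : ∀ ℓ : Submodule ℝ E, ℓ ∈ F → κ / 4 ≤ ((lightIn ((A - A) + (A - A)) f (lineSet (A - A) ℓᗮ)).card : ℝ)) :
    (F.card : ℝ) ≤ 1 + 256 * (K ^ 4 * A.card) * (f + 1) ^ 2 / κ ^ 2 := by
  classical
  set U := A - A with hU
  set Z := U + U with hZ
  set S := U.image (Φ u) with hS
  set x : ℝ := κ / (8 * (f + 1)) with hx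
  have hf1 : 0 < f + 1 := by linarith
  have hx0 : 0 < x := by rw [hx]; positivity
  have hSsym : ∀ a ∈ S, -a ∈ S := by
    intro a ha
    obtain ⟨b, hb, rfl⟩ := mem_image.1 ha
    rw [← map_neg]
    exact mem_image_of_mem _ (sub_self_neg_mem A b hb)
  have hSS : ((S + S).card : ℝ) ≤ K ^ 4 * A.card := by
    have h1 : S + S = Z.image (Φ u) := by
      rw [hS, hZ]
      exact (Finset.image_add (Φ u)).symm
    rw [h1]
    refine le_trans ?_ hd.hZ
    exact_mod_cast card_image_le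
  have hUZ : U ⊆ Z := sub_subset_Z hd.hA
  have hrich : ∀ ℓ ∈ F, x ≤ ((lineSet S ℓ).card : ℝ) := by
    intro ℓ hℓ
    obtain ⟨δ, hδ, rfl⟩ := hFl ℓ hℓ
    have huδ := hFu _ hℓ
    rw [Submodule.mem_orthogonal_singleton_iff_inner_right] at huδ
    set Y := lightIn Z f (lineSet U (Submodule.span ℝ {δ})ᗮ) with hY
    have hYprop : ∀ y ∈ Y, y ∈ U ∧ y ≠ 0 ∧ inner ℝ δ y = 0 := by
      intro y hy
      obtain ⟨h1, _⟩ := mem_lightIn.1 hy
      obtain ⟨h2, h3, h4⟩ := mem_lineSet.1 h1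
      rw [Submodule.mem_orthogonal_singleton_iff_inner_right] at h4
      exact ⟨h2, h3, h4⟩
    set Y' := Y.filter (fun y => y ∉ Submodule.span ℝ {u}) with hY'
    have hYc : (κ / 4) ≤ (Y.card : ℝ) := hFrich _ hℓ
    set Ln := lineSet Z (Submodule.span ℝ {u}) with hLn
    have hY'c : κ / 4 - f ≤ (Y'.card : ℝ) := by
      have h1 : (Y.filter (fun y => y ∈ Submodule.span ℝ {u})).card + Y'.card = Y.card := by
        rw [hY']
        exact card_filter_add_card_filter_not _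
      have h2 : Y.filter (fun y => y ∈ Submodule.span ℝ {u}) ⊆ Ln := by
        intro y hy
        obtain ⟨h3, h4⟩ := mem_filter.1 hy
        obtain ⟨h5, h6, _⟩ := hYprop y h3
        exact mem_lineSet.2 ⟨hUZ h5, h6, h4⟩
      have h3 : ((Y.filter (fun y => y ∈ Submodule.span ℝ {u})).card : ℝ) ≤ (Ln.card : ℝ) := by
        exact_mod_cast card_le_card h2
      have h4 : ((Y.filter (fun y => y ∈ Submodule.span ℝ {u})).card : ℝ) + (Y'.card : ℝ) =
          (Y.card : ℝ) := by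
        exact_mod_cast h1
      linarith
    have himg : Y'.image (Φ u) ⊆ lineSet S (Submodule.span ℝ {δ}) := by
      intro z hz
      obtain ⟨y, hy, rfl⟩ := mem_image.1 hz
      obtain ⟨hy1, hy2⟩ := mem_filter.1 hy
      obtain ⟨h1, _, h3⟩ := hYprop y hy1
      refine mem_lineSet.2 ⟨mem_image_of_mem _ h1, ?_, hΦ2 δ u y hδ huδ h3⟩
      intro h0
      exact hy2 (hΦ1 u y hu h0)
    have hfibre : Y'.card ≤ (Ln.card + 1) * (Y'.image (Φ u)).card := by
      apply card_le_mul_card_image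
      intro z hz
      obtain ⟨y0, hy0, rfl⟩ := mem_image.1 hz
      have hsub : (Y'.filter (fun y => Φ u y = Φ u y0)).image (fun y => y - y0) ⊆ insert 0 Ln := by
        intro t ht
        obtain ⟨y, hy, rfl⟩ := mem_image.1 ht
        obtain ⟨hy1, hy2⟩ := mem_filter.1 hy
        by_cases h0 : y - y0 = 0
        · rw [h0]; exact mem_insert_self _ _
        · apply mem_insert_of_mem
          refine mem_lineSet.2 ⟨?_, h0, ?_⟩
          · rw [sub_eq_add_neg]
            have h1 := (hYprop y (mem_filter.1 hy1).1).1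
            have h2 := (hYprop y0 (mem_filter.1 hy0).1).1
            exact add_mem_add h1 (sub_self_neg_mem A y0 h2)
          · apply hΦ1 u _ hu
            rw [map_sub, hy2, sub_self]
      have h1 := card_le_card hsub
      rw [card_image_of_injective _ sub_left_injective] at h1
      exact h1.trans (card_insert_le _ _)
    have h5 : (Y'.card : ℝ) ≤ (f + 1) * ((Y'.image (Φ u)).card : ℝ) := by
      have h6 : (Y'.card : ℝ) ≤ ((Ln.card : ℝ) + 1) * ((Y'.image (Φ u)).card : ℝ) := by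
        exact_mod_cast hfibre
      have h7 : ((Ln.card : ℝ) + 1) ≤ f + 1 := by linarith
      exact h6.trans (mul_le_mul_of_nonneg_right h7 (by positivity))
    have h8 : ((Y'.image (Φ u)).card : ℝ) ≤ ((lineSet S (Submodule.span ℝ {δ})).card : ℝ) := by
      exact_mod_cast card_le_card himg
    have h9 : κ / 8 ≤ (Y'.card : ℝ) := by linarith
    have h10 : x ≤ ((Y'.image (Φ u)).card : ℝ) := by
      rw [hx, div_le_iff₀ (by positivity)]
      nlinarith
    linarith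
  have h1 := rich_filter_card_le S hSsym F hFl x hx0
  have h2 : F.filter (fun l => x ≤ ((lineSet S l).card : ℝ)) = F :=
    filter_true_of_mem hrich
  rw [h2] at h1
  have hx2 : x ^ 2 = κ ^ 2 / (64 * (f + 1) ^ 2) := by
    rw [hx]; field_simp; ring
  have h3 : 4 * ((S + S).card : ℝ) / x ^ 2 ≤ 256 * (K ^ 4 * A.card) * (f + 1) ^ 2 / κ ^ 2 := by
    rw [hx2, div_div_eq_mul_div]
    have : 4 * ((S + S).card : ℝ) * (64 * (f + 1) ^ 2) = 256 * ((S + S).card : ℝ) * (f + 1) ^ 2 := by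
      ring
    rw [this]
    gcongr
  linarith

/-- Case L: double counting over light points. -/
theorem count_L {A : Finset E} {K : ℝ} (hd : Dbl A K) (Φ : E → (E →ₗ[ℝ] E))
    (hΦ1 : ∀ u x : E, u ≠ 0 → Φ u x = 0 → x ∈ Submodule.span ℝ {u})
    (hΦ2 : ∀ δ u x : E, δ ≠ 0 → inner ℝ δ u = 0 → inner ℝ δ x = 0 → Φ u x ∈ Submodule.span ℝ {δ})
    (κ f : ℝ) (hf : 0 ≤ f) (hκ : 8 * f ≤ κ) (hκ0 : 0 < κ)
    (T : Finset (Submodule ℝ E)) (hTl : ∀ ℓ ∈ T, ∃ δ : E, δ ≠ 0 ∧ ℓ = Submodule.span ℝ {δ})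
    (hT : ∀ ℓ : Submodule ℝ E, ℓ ∈ T →
      κ / 4 ≤ ((lightIn ((A - A) + (A - A)) f (lineSet (A - A) ℓᗮ)).card : ℝ)) :
    (T.card : ℝ) * (κ / 4) ≤
      (K ^ 2 * A.card) * (1 + 256 * (K ^ 4 * A.card) * (f + 1) ^ 2 / κ ^ 2) := by
  classical
  set U := A - A with hU
  set Z := U + U with hZ
  set LU := lightIn Z f (U.erase 0) with hLU
  set r : Submodule ℝ E → E → Prop := fun ℓ u => u ∈ ℓᗮ with hr
  have hcount := sum_card_bipartiteAbove_eq_sum_card_bipartiteBelow (s := T) (t := LU) r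
  have h1 : (T.card : ℝ) * (κ / 4) ≤ ∑ ℓ ∈ T, ((LU.bipartiteAbove r ℓ).card : ℝ) := by
    rw [← nsmul_eq_mul, ← sum_const]
    apply sum_le_sum
    intro ℓ hℓ
    refine (hT ℓ hℓ).trans ?_
    have hsub : lightIn Z f (lineSet U ℓᗮ) ⊆ LU.bipartiteAbove r ℓ := by
      intro u hu
      obtain ⟨h2, h3⟩ := mem_lightIn.1 hu
      obtain ⟨h4, h5, h6⟩ := mem_lineSet.1 h2
      refine mem_filter.2 ⟨mem_lightIn.2 ⟨mem_erase.2 ⟨h5, h4⟩, h3⟩, h6⟩
    exact_mod_cast card_le_card hsub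
  have h2 : ∀ u ∈ LU, ((T.bipartiteBelow r u).card : ℝ) ≤
      1 + 256 * (K ^ 4 * A.card) * (f + 1) ^ 2 / κ ^ 2 := by
    intro u hu
    obtain ⟨h3, h4⟩ := mem_lightIn.1 hu
    have hu0 : u ≠ 0 := (mem_erase.1 h3).1
    apply count_J hd Φ hΦ1 hΦ2 κ f hf hκ hκ0 u hu0 h4
    · intro ℓ hℓ
      exact hTl ℓ (mem_filter.1 hℓ).1
    · intro ℓ hℓ
      exact (mem_filter.1 hℓ).2
    · intro ℓ hℓ
      exact hT ℓ (mem_filter.1 hℓ).1
  have h3 : ∑ ℓ ∈ T, ((LU.bipartiteAbove r ℓ).card : ℝ) =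
      ∑ u ∈ LU, ((T.bipartiteBelow r u).card : ℝ) := by
    exact_mod_cast hcount
  have h4 : ((LU.card : ℕ) : ℝ) ≤ K ^ 2 * A.card := by
    refine le_trans ?_ hd.hU
    have h5 : LU ⊆ U := fun u hu => mem_of_mem_erase (mem_lightIn.1 hu).1
    exact_mod_cast card_le_card h5
  have hnn : 0 ≤ 1 + 256 * (K ^ 4 * (A.card : ℝ)) * (f + 1) ^ 2 / κ ^ 2 := by
    have := hd.hK
    positivity
  calc (T.card : ℝ) * (κ / 4) ≤ _ := h1
    _ = _ := h3
    _ ≤ ∑ _u ∈ LU, (1 + 256 * (K ^ 4 * (A.card : ℝ)) * (f + 1) ^ 2 / κ ^ 2) := sum_le_sum h2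
    _ = (LU.card : ℝ) * (1 + 256 * (K ^ 4 * (A.card : ℝ)) * (f + 1) ^ 2 / κ ^ 2) := by
        rw [sum_const, nsmul_eq_mul]
    _ ≤ _ := mul_le_mul_of_nonneg_right h4 hnn

/-- The number of lines of `A + A` whose orthogonal complement is `κ`-rich in `A - A`. -/
theorem rich_count {A : Finset E} {K : ℝ} (hd : Dbl A K) (Φ : E → (E →ₗ[ℝ] E))
    (hΦ1 : ∀ u x : E, u ≠ 0 → Φ u x = 0 → x ∈ Submodule.span ℝ {u})
    (hΦ2 : ∀ δ u x : E, δ ≠ 0 → inner ℝ δ u = 0 → inner ℝ δ x = 0 → Φ u x ∈ Submodule.span ℝ {δ})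
    (κ : ℝ) (hκ0 : 0 < κ) :
    (((spanLines (A + A)).filter (fun ℓ : Submodule ℝ E =>
        κ ≤ ((lineSet (A - A) ℓᗮ).card : ℝ))).card : ℝ) ≤
      520 * K ^ 10 * (A.card : ℝ) / κ + 4326656 * K ^ 24 * (A.card : ℝ) ^ 2 / κ ^ 3 := by
  classical
  have hK1 := hd.hK
  have hK0 : 0 < K := by linarith
  have hn0 : (0 : ℝ) < A.card := by exact_mod_cast card_pos.2 hd.hA
  set n : ℝ := (A.card : ℝ) with hn
  set T := (spanLines (A + A)).filter (fun ℓ : Submodule ℝ E =>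
        κ ≤ ((lineSet (A - A) ℓᗮ).card : ℝ)) with hT
  set f : ℝ := 64 * K ^ 9 with hf
  have hK9 : 1 ≤ K ^ 9 := one_le_pow₀ hK1
  have hfpos : 64 ≤ f := by rw [hf]; linarith
  have hab : 0 ≤ 4326656 * K ^ 24 * n ^ 2 / κ ^ 3 := by positivity
  have hab' : 0 ≤ 520 * K ^ 10 * n / κ := by positivity
  by_cases hcase : κ < 8 * f
  · -- All lines are counted.
    have h1 : (T.card : ℝ) ≤ K * n := by
      have h2 : T.card ≤ (A + A).card :=
        (card_le_card (filter_subset _ _)).trans (spanLines_card_le _)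
      have h3 : (T.card : ℝ) ≤ ((A + A).card : ℝ) := by exact_mod_cast h2
      exact h3.trans hd.hW
    have h2 : K * n ≤ 512 * K ^ 10 * n / κ := by
      rw [le_div_iff₀ hκ0]
      have h3 : κ ≤ 512 * K ^ 9 := by
        have : 8 * f = 512 * K ^ 9 := by rw [hf]; ring
        linarith
      have hKn : 0 ≤ K * n := by positivity
      calc K * n * κ ≤ K * n * (512 * K ^ 9) := mul_le_mul_of_nonneg_left h3 hKn
        _ = _ := by ring
    have h4 : 512 * K ^ 10 * n / κ ≤ 520 * K ^ 10 * n / κ := by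
      gcongr
      norm_num
    linarith
  · push Not at hcase
    -- Split into the two cases of the dichotomy.
    set TL := T.filter (fun ℓ : Submodule ℝ E =>
      κ / 4 ≤ ((lightIn ((A - A) + (A - A)) f (lineSet (A - A) ℓᗮ)).card : ℝ)) with hTL
    set TD := T.filter (fun ℓ : Submodule ℝ E => ∃ v ∈ lineSet (A - A) ℓᗮ,
      κ / 4 ≤ ((lineSet (A - A) (Submodule.span ℝ {v})).card : ℝ)) with hTD
    have hsplit : T ⊆ TL ∪ TD := by
      intro ℓ hℓ
      have hc : κ ≤ ((lineSet (A - A) ℓᗮ).card : ℝ) := (mem_filter.1 hℓ).2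
      have hc1 : 1 ≤ (lineSet (A - A) ℓᗮ).card := by
        have : (1 : ℝ) ≤ ((lineSet (A - A) ℓᗮ).card : ℝ) := by linarith
        exact_mod_cast this
      rcases dichotomy hd ℓᗮ hc1 with h1 | ⟨v, hv, h1⟩
      · exact mem_union_left _ (mem_filter.2 ⟨hℓ, by linarith⟩)
      · exact mem_union_right _ (mem_filter.2 ⟨hℓ, v, hv, by linarith⟩)
    have hTLc := count_L hd Φ hΦ1 hΦ2 κ f (by linarith) hcase hκ0 TL
      (fun ℓ hℓ => spanLines_line ℓ (mem_filter.1 (mem_filter.1 hℓ).1).1)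
      (fun ℓ hℓ => (mem_filter.1 hℓ).2)
    have hTDc := count_D hd κ hκ0 TD
      (fun ℓ hℓ => (mem_filter.1 (mem_filter.1 hℓ).1).1)
      (fun ℓ hℓ => (mem_filter.1 hℓ).2)
    have htotal : (T.card : ℝ) ≤ (TL.card : ℝ) + (TD.card : ℝ) := by
      exact_mod_cast (card_le_card hsplit).trans (card_union_le _ _)
    have hTL2 : (TL.card : ℝ) ≤
        4 * K ^ 2 * (n / κ) + 1024 * K ^ 6 * (f + 1) ^ 2 * (n ^ 2 / κ ^ 3) := by
      have h1 : (TL.card : ℝ) * (κ / 4) ≤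
          (K ^ 2 * n) * (1 + 256 * (K ^ 4 * n) * (f + 1) ^ 2 / κ ^ 2) := hTLc
      have h2 : (TL.card : ℝ) ≤
          (K ^ 2 * n) * (1 + 256 * (K ^ 4 * n) * (f + 1) ^ 2 / κ ^ 2) / (κ / 4) := by
        rw [le_div_iff₀ (by positivity)]
        exact h1
      refine h2.trans (le_of_eq ?_)
      field_simp
      ring
    have hTD2 : (TD.card : ℝ) ≤ 4 * K ^ 4 * (n / κ) + 256 * K ^ 8 * (n ^ 2 / κ ^ 3) := by
      have h1 : (TD.card : ℝ) ≤ (1 + 64 * (K ^ 4 * n) / κ ^ 2) * (4 * (K ^ 4 * n) / κ) := hTDc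
      refine h1.trans (le_of_eq ?_)
      field_simp
      ring
    have ha : 0 ≤ n / κ := by positivity
    have hb : 0 ≤ n ^ 2 / κ ^ 3 := by positivity
    have hf1 : (f + 1) ^ 2 ≤ 4225 * K ^ 18 := by
      have h1 : f + 1 ≤ 65 * K ^ 9 := by rw [hf]; linarith
      have h2 : 0 ≤ f + 1 := by linarith
      calc (f + 1) ^ 2 ≤ (65 * K ^ 9) ^ 2 := by gcongr
        _ = _ := by ring
    have hp2 : K ^ 2 ≤ K ^ 10 := pow_le_pow_right₀ hK1 (by norm_num)
    have hp4 : K ^ 4 ≤ K ^ 10 := pow_le_pow_right₀ hK1 (by norm_num)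
    have hp8 : K ^ 8 ≤ K ^ 24 := pow_le_pow_right₀ hK1 (by norm_num)
    have h6 : 1024 * K ^ 6 * (f + 1) ^ 2 ≤ 4326400 * K ^ 24 := by
      calc 1024 * K ^ 6 * (f + 1) ^ 2 ≤ 1024 * K ^ 6 * (4225 * K ^ 18) := by gcongr
        _ = _ := by ring
    have h7 : 4 * K ^ 2 * (n / κ) + 4 * K ^ 4 * (n / κ) ≤ 520 * K ^ 10 * (n / κ) := by
      have : (4 * K ^ 2 + 4 * K ^ 4) ≤ 520 * K ^ 10 := by linarith [pow_pos hK0 10]
      nlinarith
    have h8 : 1024 * K ^ 6 * (f + 1) ^ 2 * (n ^ 2 / κ ^ 3) + 256 * K ^ 8 * (n ^ 2 / κ ^ 3) ≤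
        4326656 * K ^ 24 * (n ^ 2 / κ ^ 3) := by
      have : 1024 * K ^ 6 * (f + 1) ^ 2 + 256 * K ^ 8 ≤ 4326656 * K ^ 24 := by linarith
      nlinarith
    have h9 : 520 * K ^ 10 * n / κ = 520 * K ^ 10 * (n / κ) := by ring
    have h10 : 4326656 * K ^ 24 * n ^ 2 / κ ^ 3 = 4326656 * K ^ 24 * (n ^ 2 / κ ^ 3) := by ring
    rw [h9, h10]
    linarith

end Inner

end Vale.Agent.Lib.P054
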