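import Mathlib

/-!
# A Solymosi-type count of rich lines in a real vector space

If `S` is a finite symmetric set in a real vector space, the number `T` of lines through the origin
containing at least `x` nonzero points of `S` satisfies `(T - 1) (x / 2) ^ 2 ≤ #(S + S)`.
-/

open scoped Pointwise

namespace Vale.Agent.Lib.P054

variable {V : Type*} [AddCommGroup V] [Module ℝ V]

/-- A linear functional not vanishing on any element of a finite set of nonzero vectors. -/
lemma exists_functional_ne_zero (X : Finset V) (hX : ∀ x ∈ X, x ≠ 0) :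
    ∃ f : V →ₗ[ℝ] ℝ, ∀ x ∈ X, f x ≠ 0 := by
  classical
  let p : V → Submodule ℝ (Module.Dual ℝ V) := fun x => LinearMap.ker (Module.Dual.eval ℝ V x)
  have hp : ∀ x ∈ X, p x ≠ ⊤ := by
    intro x hx h
    have hx0 := hX x hx
    obtain ⟨f, hf⟩ : ∃ f : Module.Dual ℝ V, f x ≠ 0 := by
      by_contra hcon
      push Not at hcon
      exact hx0 ((Module.forall_dual_apply_eq_zero_iff ℝ x).1 hcon)
    have : f ∈ p x := by rw [h]; trivial
    exact hf (by simpa [p, LinearMap.mem_ker] using this)
  have hcov : ⋃ q ∈ X.image p, ((q : Submodule ℝ (Module.Dual ℝ V)) : Set (Module.Dual ℝ V)) ≠ Set.univ := by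
    apply Subspace.biUnion_ne_univ_of_top_notMem
    intro htop
    obtain ⟨x, hx, hxe⟩ := Finset.mem_image.1 htop
    exact hp x hx hxe
  obtain ⟨f, hf⟩ := (Set.ne_univ_iff_exists_notMem _).1 hcov
  refine ⟨f, fun x hx hfx => hf ?_⟩
  refine Set.mem_biUnion (Finset.mem_coe.2 (Finset.mem_image_of_mem p hx)) ?_
  simpa [p, LinearMap.mem_ker] using hfx

/-- The slope inequality: a sum of two vectors in the open half-plane has slope strictly between. -/
lemma slope_add_between {a b c d : ℝ} (ha : 0 < a) (hc : 0 < c) (h : b / a < d / c) :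
    b / a < (b + d) / (a + c) ∧ (b + d) / (a + c) < d / c := by
  have hac : 0 < a + c := by positivity
  rw [div_lt_div_iff₀ ha hc] at h
  constructor
  · rw [div_lt_div_iff₀ ha hac]; nlinarith
  · rw [div_lt_div_iff₀ hac hc]; nlinarith

/-- The main counting lemma, with a family of pairwise independent parallel classes. -/
theorem solymosi_family [DecidableEq V] (S : Finset V) (hS : ∀ a ∈ S, -a ∈ S) {ι : Type*}
    (I : Finset ι) (A : ι → Finset V) (β : ℝ) (hβ : 0 < β)
    (hcard : ∀ i ∈ I, β ≤ ((A i).card : ℝ)) (hsub : ∀ i ∈ I, A i ⊆ S)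
    (h0 : ∀ i ∈ I, ∀ a ∈ A i, a ≠ 0)
    (hpar : ∀ i ∈ I, ∀ a ∈ A i, ∀ a' ∈ A i, ∃ t : ℝ, a' = t • a)
    (hind : ∀ i ∈ I, ∀ j ∈ I, i ≠ j → ∀ a ∈ A i, ∀ b ∈ A j, ∀ s t : ℝ,
      s • a + t • b = 0 → s = 0 ∧ t = 0) :
    ((I.card : ℝ) - 1) * (β / 2) ^ 2 ≤ ((S + S).card : ℝ) := by
  classical
  -- The finite set of all vectors involved.
  let X : Finset V := I.biUnion A
  have hXmem : ∀ x, x ∈ X ↔ ∃ i ∈ I, x ∈ A i := by
    intro x; simp [X]
  have hX0 : ∀ x ∈ X, x ≠ 0 := by
    intro x hx
    obtain ⟨i, hi, hxi⟩ := (hXmem x).1 hx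
    exact h0 i hi x hxi
  obtain ⟨f, hf⟩ := exists_functional_ne_zero X hX0
  -- A second functional separating the slopes.
  let Y : Finset V := ((X ×ˢ X).filter (fun p => ∃ i ∈ I, ∃ j ∈ I, i ≠ j ∧ p.1 ∈ A i ∧ p.2 ∈ A j)).image
    (fun p => f p.2 • p.1 - f p.1 • p.2)
  have hY0 : ∀ y ∈ Y, y ≠ 0 := by
    intro y hy
    obtain ⟨p, hp, rfl⟩ := Finset.mem_image.1 hy
    obtain ⟨hpXX, i, hi, j, hj, hij, hpi, hpj⟩ := Finset.mem_filter.1 hp
    intro hzero
    have h1 : f p.2 • p.1 + (- f p.1) • p.2 = 0 := by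
      rw [neg_smul, ← sub_eq_add_neg]; exact hzero
    have h2 := (hind i hi j hj hij p.1 hpi p.2 hpj _ _ h1).1
    exact hf p.2 ((hXmem _).2 ⟨j, hj, hpj⟩) h2
  obtain ⟨g, hg⟩ := exists_functional_ne_zero Y hY0
  -- The slope function.
  let sl : V → ℝ := fun x => g x / f x
  -- For a vector in a class, the positive representative.
  let pos : V → V := fun a => if 0 < f a then a else -a
  have hposf : ∀ a ∈ X, 0 < f (pos a) := by
    intro a ha
    by_cases h : 0 < f a
    · simp [pos, h]
    · have hne := hf a ha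
      have : f a < 0 := lt_of_le_of_ne (not_lt.1 h) hne
      simp [pos, h, map_neg, this]
  have hslpos : ∀ a, sl (pos a) = sl a := by
    intro a
    by_cases h : 0 < f a
    · simp [pos, h]
    · simp [pos, h, sl, map_neg, neg_div_neg_eq]
  let Ap : ι → Finset V := fun i => (A i).image pos
  have hAp_card : ∀ i ∈ I, β / 2 ≤ ((Ap i).card : ℝ) := by
    intro i hi
    have hfib : ∀ y ∈ Ap i, ((A i).filter (fun a => pos a = y)).card ≤ 2 := by
      intro y _
      have : (A i).filter (fun a => pos a = y) ⊆ {y, -y} := by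
        intro a ha
        have hay := (Finset.mem_filter.1 ha).2
        simp only [Finset.mem_insert, Finset.mem_singleton]
        by_cases h : 0 < f a
        · left; simpa [pos, h] using hay
        · right
          have : -a = y := by simpa [pos, h] using hay
          rw [← this, neg_neg]
      calc _ ≤ ({y, -y} : Finset V).card := Finset.card_le_card this
        _ ≤ 2 := Finset.card_le_two
    have hc : (A i).card ≤ 2 * (Ap i).card := by
      have := Finset.card_le_mul_card_image (s := A i) (f := pos) 2 hfib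
      simpa using this
    have hc' : ((A i).card : ℝ) ≤ 2 * ((Ap i).card : ℝ) := by exact_mod_cast hc
    have := hcard i hi
    linarith
  have hAp_sub : ∀ i ∈ I, Ap i ⊆ S := by
    intro i hi x hx
    obtain ⟨a, ha, rfl⟩ := Finset.mem_image.1 hx
    by_cases h : 0 < f a
    · simpa [pos, h] using hsub i hi ha
    · simpa [pos, h] using hS a (hsub i hi ha)
  have hApX : ∀ i ∈ I, ∀ x ∈ Ap i, 0 < f x := by
    intro i hi x hx
    obtain ⟨a, ha, rfl⟩ := Finset.mem_image.1 hx
    exact hposf a ((hXmem a).2 ⟨i, hi, ha⟩)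
  -- Nonemptiness and class slopes.
  have hA_ne : ∀ i ∈ I, (A i).Nonempty := by
    intro i hi
    have := hcard i hi
    rw [Finset.nonempty_iff_ne_empty]
    intro he
    rw [he] at this
    simp at this
    linarith
  let rep : ι → V := fun i => if h : (A i).Nonempty then h.choose else 0
  have hrep : ∀ i ∈ I, rep i ∈ A i := by
    intro i hi
    have h := hA_ne i hi
    simp only [rep, dif_pos h]
    exact h.choose_spec
  let s : ι → ℝ := fun i => sl (rep i)
  -- All vectors of a class have the class slope.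
  have hsl_class : ∀ i ∈ I, ∀ a ∈ A i, sl a = s i := by
    intro i hi a ha
    obtain ⟨t, ht⟩ := hpar i hi (rep i) (hrep i hi) a ha
    have hfa := hf a ((hXmem a).2 ⟨i, hi, ha⟩)
    have ht0 : t ≠ 0 := by
      rintro rfl
      apply hfa
      rw [ht]; simp
    have hfr := hf (rep i) ((hXmem _).2 ⟨i, hi, hrep i hi⟩)
    simp only [sl, s]
    rw [ht]
    simp only [map_smul, smul_eq_mul]
    field_simp
  have hsl_Ap : ∀ i ∈ I, ∀ x ∈ Ap i, sl x = s i := by
    intro i hi x hx
    obtain ⟨a, ha, rfl⟩ := Finset.mem_image.1 hx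
    rw [hslpos]
    exact hsl_class i hi a ha
  -- Slopes of different classes differ.
  have hs_ne : ∀ i ∈ I, ∀ j ∈ I, i ≠ j → s i ≠ s j := by
    intro i hi j hj hij hs
    have hri := hrep i hi
    have hrj := hrep j hj
    have hXi : rep i ∈ X := (hXmem _).2 ⟨i, hi, hri⟩
    have hXj : rep j ∈ X := (hXmem _).2 ⟨j, hj, hrj⟩
    have hy : f (rep j) • rep i - f (rep i) • rep j ∈ Y := by
      refine Finset.mem_image.2 ⟨(rep i, rep j), ?_, rfl⟩
      refine Finset.mem_filter.2 ⟨Finset.mem_product.2 ⟨hXi, hXj⟩, i, hi, j, hj, hij, hri, hrj⟩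
    have hgy := hg _ hy
    apply hgy
    simp only [map_sub, map_smul, smul_eq_mul]
    have hfi := hf _ hXi
    have hfj := hf _ hXj
    simp only [s, sl] at hs
    rw [div_eq_div_iff hfi hfj] at hs
    linarith
  -- Injectivity of addition on two distinct classes.
  have hinj : ∀ i ∈ I, ∀ j ∈ I, i ≠ j → ∀ x ∈ Ap i, ∀ x' ∈ Ap i, ∀ y ∈ Ap j, ∀ y' ∈ Ap j,
      x + y = x' + y' → x = x' ∧ y = y' := by
    intro i hi j hj hij x hx x' hx' y hy y' hy' heq
    obtain ⟨a, ha, rfl⟩ := Finset.mem_image.1 hx
    obtain ⟨a', ha', rfl⟩ := Finset.mem_image.1 hx'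
    obtain ⟨b, hb, rfl⟩ := Finset.mem_image.1 hy
    obtain ⟨b', hb', rfl⟩ := Finset.mem_image.1 hy'
    -- Each positive representative is a multiple of the class representative.
    have hmul : ∀ (k : ι) (_ : k ∈ I) (c : V), c ∈ A k → ∃ t : ℝ, pos c = t • rep k := by
      intro k hk c hc
      obtain ⟨t, ht⟩ := hpar k hk (rep k) (hrep k hk) c hc
      by_cases h : 0 < f c
      · refine ⟨t, ?_⟩
        have : pos c = c := by simp [pos, h]
        rw [this]; exact ht
      · refine ⟨-t, ?_⟩
        have : pos c = -c := by simp [pos, h]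
        rw [this, ht, neg_smul]
    obtain ⟨t1, ht1⟩ := hmul i hi a ha
    obtain ⟨t2, ht2⟩ := hmul i hi a' ha'
    obtain ⟨t3, ht3⟩ := hmul j hj b hb
    obtain ⟨t4, ht4⟩ := hmul j hj b' hb'
    rw [ht1, ht2, ht3, ht4] at heq ⊢
    have h1 : (t1 - t2) • rep i + (t3 - t4) • rep j = 0 := by
      rw [sub_smul, sub_smul]
      have : t1 • rep i + t3 • rep j - (t2 • rep i + t4 • rep j) = 0 := sub_eq_zero.2 heq
      rw [← this]; abel
    obtain ⟨h2, h3⟩ := hind i hi j hj hij _ (hrep i hi) _ (hrep j hj) _ _ h1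
    have h2' : t1 = t2 := sub_eq_zero.1 h2
    have h3' : t3 = t4 := sub_eq_zero.1 h3
    exact ⟨by rw [h2'], by rw [h3']⟩
  -- The induction over `I` ordered by slope.
  have key : ∀ J : Finset ι, J ⊆ I → ∃ T : Finset V, T ⊆ S + S ∧
      ((J.card : ℝ) - 1) * (β / 2) ^ 2 ≤ (T.card : ℝ) ∧
      (∀ t ∈ T, 0 < f t ∧ ∃ j ∈ J, sl t < s j) := by
    intro J
    induction J using Finset.induction_on_max_value s with
    | empty =>
      intro _
      refine ⟨∅, Finset.empty_subset _, ?_, by simp⟩
      simp only [Finset.card_empty, Nat.cast_zero]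
      nlinarith [sq_nonneg (β / 2)]
    | insert a J' haJ hmax ih =>
      intro hsub'
      have haI : a ∈ I := hsub' (Finset.mem_insert_self _ _)
      have hJ'I : J' ⊆ I := fun x hx => hsub' (Finset.mem_insert_of_mem hx)
      obtain ⟨T, hTS, hTc, hTs⟩ := ih hJ'I
      rcases J'.eq_empty_or_nonempty with hemp | hne
      · refine ⟨∅, Finset.empty_subset _, ?_, by simp⟩
        simp [hemp]
      · obtain ⟨m, hmJ, hmmax⟩ := J'.exists_max_image s hne
        have hmI := hJ'I hmJ
        have hma : m ≠ a := fun h => haJ (h ▸ hmJ)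
        have hsma : s m < s a := lt_of_le_of_ne (hmax m hmJ) (hs_ne m hmI a haI hma)
        -- New sums.
        let N : Finset V := (Ap m ×ˢ Ap a).image (fun p => p.1 + p.2)
        have hNcard : N.card = (Ap m).card * (Ap a).card := by
          rw [Finset.card_image_of_injOn, Finset.card_product]
          rintro ⟨x, y⟩ hp ⟨x', y'⟩ hp' heq
          simp only [Finset.coe_product, Set.mem_prod, Finset.mem_coe] at hp hp'
          obtain ⟨h1, h2⟩ := hinj m hmI a haI hma x hp.1 x' hp'.1 y hp.2 y' hp'.2 heq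
          exact Prod.ext h1 h2
        have hNS : N ⊆ S + S := by
          intro z hz
          obtain ⟨p, hp, rfl⟩ := Finset.mem_image.1 hz
          obtain ⟨h1, h2⟩ := Finset.mem_product.1 hp
          exact Finset.add_mem_add (hAp_sub m hmI h1) (hAp_sub a haI h2)
        have hNprop : ∀ z ∈ N, 0 < f z ∧ s m < sl z ∧ sl z < s a := by
          intro z hz
          obtain ⟨p, hp, rfl⟩ := Finset.mem_image.1 hz
          obtain ⟨h1, h2⟩ := Finset.mem_product.1 hp
          have hf1 := hApX m hmI _ h1
          have hf2 := hApX a haI _ h2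
          have hs1 := hsl_Ap m hmI _ h1
          have hs2 := hsl_Ap a haI _ h2
          have hlt : g p.1 / f p.1 < g p.2 / f p.2 := by
            have := hsma
            rw [← hs1, ← hs2] at this
            exact this
          obtain ⟨h3, h4⟩ := slope_add_between hf1 hf2 hlt
          refine ⟨?_, ?_, ?_⟩
          · simp only [map_add]; positivity
          · rw [← hs1]; simp only [sl, map_add]; exact h3
          · rw [← hs2]; simp only [sl, map_add]; exact h4
        have hdisj : Disjoint T N := by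
          rw [Finset.disjoint_left]
          intro z hzT hzN
          obtain ⟨_, j, hj, hlt⟩ := hTs z hzT
          obtain ⟨_, h2, _⟩ := hNprop z hzN
          have := hmmax j hj
          linarith
        refine ⟨T ∪ N, Finset.union_subset hTS hNS, ?_, ?_⟩
        · rw [Finset.card_union_of_disjoint hdisj, hNcard, Finset.card_insert_of_notMem haJ]
          have h1 := hAp_card m hmI
          have h2 := hAp_card a haI
          have h3 : (β / 2) ^ 2 ≤ ((Ap m).card : ℝ) * ((Ap a).card : ℝ) := by
            rw [sq]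
            exact mul_le_mul h1 h2 (by positivity) (by positivity)
          push_cast
          nlinarith
        · intro t ht
          rcases Finset.mem_union.1 ht with htT | htN
          · obtain ⟨hp, j, hj, hlt⟩ := hTs t htT
            refine ⟨hp, a, Finset.mem_insert_self _ _, ?_⟩
            have := hmax j hj
            linarith
          · obtain ⟨hp, _, h3⟩ := hNprop t htN
            exact ⟨hp, a, Finset.mem_insert_self _ _, h3⟩
  obtain ⟨T, hTS, hTc, _⟩ := key I (Finset.Subset.refl _)
  have : (T.card : ℝ) ≤ ((S + S).card : ℝ) := by exact_mod_cast Finset.card_le_card hTS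
  linarith

end Vale.Agent.Lib.P054
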